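import Vale.Agent.P214.FV.Slab

/-!
# P214, block INT: cylinder data with integer multiplicity

`IntCyl` is the interface between integral varifolds and the counting block: a `CylStat` measure
concentrated on a Borel set `S`, with integer density `θ ≥ 1` on `S`, together with the area
formula for the projection onto `T`.
-/

open Set Filter Topology MeasureTheory Metric
open scoped RealInnerProductSpace ENNReal

namespace Vale.Agent.P214.INT

open Vale.Agent.P214 Vale.Agent.P214.FV

variable {E : Type*} [NormedAddCommGroup E] [InnerProductSpace ℝ E] [FiniteDimensional ℝ E]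
  [MeasurableSpace E] [BorelSpace E]

/-- the tilt of the tangent plane at `y` -/
noncomputable def tilt (P : E → E →L[ℝ] E) (T : Submodule ℝ E) (y : E) : ℝ :=
  ‖P y - T.starProjection‖

/-- the cylinder over the (open) base ball -/
def cyl (T : Submodule ℝ E) (x : E) (s : ℝ) : Set E := T.starProjection ⁻¹' (ball (T.starProjection x) s)

/-- number of sheets over `x` inside `B` -/
noncomputable def sheets (T : Submodule ℝ E) (S : Set E) (θ : E → ℕ) (B : Set E) (x : E) : ℝ≥0∞ :=
  ∑' y : {y : E // y ∈ S ∧ y ∈ B ∧ T.starProjection y = x}, (θ y : ℝ≥0∞)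

/-- cylinder data with integer multiplicity -/
structure IntCyl (m : ℕ) (T : Submodule ℝ E) (G : Set E) (h : ℝ) (ν : Measure E)
    (P : E → E →L[ℝ] E) (S : Set E) (θ : E → ℕ) (J : E → ℝ) : Prop where
  stat : CylStat m T G h ν P
  /-- the measure sits over `G` -/
  base : ν (T.starProjection ⁻¹' G)ᶜ = 0
  measS : MeasurableSet S
  nullS : ν Sᶜ = 0
  one_le : ∀ y ∈ S, 1 ≤ θ y
  /-- the density at every point of `S` is `θ` -/
  dens : ∀ y ∈ S, Tendsto (ratio m ν y) (𝓝[>] 0) (𝓝 (θ y * cg m))
  measJ : AEMeasurable J ν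
  J_nonneg : ∀ᵐ y ∂ν, 0 ≤ J y
  J_le : ∀ᵐ y ∂ν, J y ≤ 1
  J_ge : ∀ᵐ y ∂ν, 1 - J y ≤ m * tilt P T y ^ 2
  measN : ∀ B : Set E, MeasurableSet B →
    AEMeasurable (sheets T S θ B) (μH[m].restrict (T : Set E))
  area : ∀ B : Set E, MeasurableSet B → ∀ g : E → ℝ≥0∞, Measurable g →
    ∫⁻ y in B, g (T.starProjection y) * ENNReal.ofReal (J y) ∂ν
      = ∫⁻ x in (T : Set E), g x * sheets T S θ B x ∂μH[m]

/-- mass fraction of the cylinder over `x` at scale `s` (up to the factor `cg m`) -/
noncomputable def htot (m : ℕ) (T : Submodule ℝ E) (ν : Measure E) (x : E) (s : ℝ) : ℝ :=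
  (∫ y, cut (T.starProjection x) s (T.starProjection y) ∂ν) / s ^ m

/-- excess of the cylinder over `x` at scale `s` -/
noncomputable def exc (m : ℕ) (T : Submodule ℝ E) (ν : Measure E) (P : E → E →L[ℝ] E)
    (x : E) (s : ℝ) : ℝ :=
  (∫ y in cyl T x s, tilt P T y ^ 2 ∂ν) / s ^ m

end Vale.Agent.P214.INT
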