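import Vale.Agent.P214.INT.Def

/-! `CylStat` implies `LocStat` over the open cylinder. -/

open Set Filter Topology MeasureTheory Metric
open scoped RealInnerProductSpace ENNReal

namespace Vale.Agent.P214.INT

open Vale.Agent.P214 Vale.Agent.P214.FV

variable {E : Type*} [NormedAddCommGroup E] [InnerProductSpace ℝ E] [FiniteDimensional ℝ E]
  [MeasurableSpace E] [BorelSpace E]

variable {m : ℕ} {T : Submodule ℝ E} {G : Set E} {h : ℝ} {ν : Measure E} {P : E → E →L[ℝ] E}

lemma locStat_of_cylStat (hC : CylStat m T G h ν P) : LocStat m (T.starProjection ⁻¹' G) ν P := by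
  refine ⟨hC.isOpen.preimage T.starProjection.continuous, hC.meas, hC.proj, ?_⟩
  intro f v hf hc hs
  have hK : IsCompact (T.starProjection '' tsupport f) := hc.image T.starProjection.continuous
  have h1 := hC.stat (fun y => f y • v) (hf.smul contDiff_const)
    ⟨T.starProjection '' tsupport f, hK, by rintro _ ⟨y, hy, rfl⟩; exact hs hy, fun y hy => by
      have : f y = 0 := by
        by_contra hne
        exact hy ⟨y, subset_tsupport f hne, rfl⟩
      simp [this]⟩
  rw [← h1]
  refine integral_congr_ae (Eventually.of_forall fun y => ?_)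
  have hd : fderiv ℝ (fun y => f y • v) y = (fderiv ℝ f y).smulRight v :=
    ((hf.differentiable (by norm_num) y).hasFDerivAt.smul_const v).fderiv
  simp only [hd]
  rw [smulRight_comp, tr_smulRight]
  rfl

lemma IntCyl.finite {S : Set E} {θ : E → ℕ} {J : E → ℝ} (hI : IntCyl m T G h ν P S θ J) :
    IsFiniteMeasure ν := hI.stat.fin

lemma IntCyl.loc {S : Set E} {θ : E → ℕ} {J : E → ℝ} (hI : IntCyl m T G h ν P S θ J) :
    LocStat m (T.starProjection ⁻¹' G) ν P := locStat_of_cylStat hI.stat

/-- monotonicity gives the lower bound at every scale -/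
lemma IntCyl.theta_le_ratio {S : Set E} {θ : E → ℕ} {J : E → ℝ}
    (hI : IntCyl m T G h ν P S θ J) {y : E} (hy : y ∈ S) {r : ℝ} (hr : 0 < r)
    (hb : closedBall y r ⊆ T.starProjection ⁻¹' G) : θ y * cg m ≤ ratio m ν y r := by
  have := hI.finite
  refine le_of_tendsto (hI.dens y hy) ?_
  filter_upwards [Ioc_mem_nhdsGT hr] with s hs
  exact hI.loc.ratio_mono hs.1 hs.2 hb

end Vale.Agent.P214.INT
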