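import Vale.Agent.P214.INT.FibreS
import Vale.Agent.P214.INT.Def

/-!
# P214, block INT: the sum of the densities in a fibre is at most the mass fraction
-/

open Set Filter Topology MeasureTheory Metric
open scoped RealInnerProductSpace

namespace Vale.Agent.P214.INT

open Vale.Agent.P214

set_option linter.unusedSectionVars false

variable {E : Type*} [NormedAddCommGroup E] [InnerProductSpace ℝ E] [FiniteDimensional ℝ E]
  [MeasurableSpace E] [BorelSpace E]

lemma integrable_hcut {T : Submodule ℝ E} {ν : Measure E} [IsFiniteMeasure ν] (x : E) (r : ℝ) :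
    Integrable (hcut T x r) ν :=
  (integrable_const (1:ℝ)).mono' (contDiff_hcut x r).continuous.aestronglyMeasurable
    (Eventually.of_forall fun y => by
      rw [Real.norm_of_nonneg (hcut_nonneg _ _ _)]; exact hcut_le_one _ _ _)

lemma htot_nonneg' {m : ℕ} {T : Submodule ℝ E} {ν : Measure E} {x : E} {r : ℝ} (hr : 0 < r) :
    0 ≤ htot m T ν x r := by
  unfold htot
  have : 0 ≤ ∫ y, cut (T.starProjection x) r (T.starProjection y) ∂ν :=
    integral_nonneg fun y => cut_nonneg _ _ _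
  positivity

/-- **T(k)** -/
theorem fibre_T (m k : ℕ) (M ε : ℝ) (hM : 0 ≤ M) (hε : 0 < ε) : ∃ δ : ℝ, 0 < δ ∧
    ∀ (O : Set E) (ν : Measure E) (P : E → E →L[ℝ] E) (T : Submodule ℝ E) [IsFiniteMeasure ν],
      LocStat m O ν P → Module.finrank ℝ T = m → ∀ (x : E) (R : ℝ) (q : E → ℝ) (A : Finset E),
      A.card ≤ k → (∀ p ∈ A, T.starProjection p = T.starProjection x) →
      (∀ p ∈ A, Good m T O ν P R M δ p (q p)) →
      ∀ r, 0 < r → 12 * r ≤ R → ∑ a ∈ A, q a ≤ htot m T ν x r + ε := by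
  obtain ⟨K₀, δ₀, hK₀, hδ₀, hS⟩ := fibre_S (E := E) m k M (ε / (2 * (k + 1))) hM (by positivity)
  set η : ℝ := 1 / (16 * K₀) with hη
  have hη0 : 0 < η := by positivity
  have hη1 : η ≤ 1 / 16 := one_div_le_one_div_of_le (by norm_num) (by linarith)
  set Λ : ℝ := 8 / η ^ k with hΛ
  have hΛ0 : 0 ≤ Λ := by positivity
  obtain ⟨δ₁, hδ₁, hC⟩ := exists_sqrt_small (C := ctr m Λ) (ctr_nonneg hΛ0) hM
    (by positivity : 0 < ε / (2 * (k + 1)))
  refine ⟨min δ₀ δ₁, lt_min hδ₀ hδ₁, ?_⟩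
  intro O ν P T _ h hT x R q A hA hbase hG r hr hrR
  rcases A.eq_empty_or_nonempty with hAe | hAne
  · rw [hAe, Finset.sum_empty]
    have := htot_nonneg' (m := m) (T := T) (ν := ν) (x := x) hr
    linarith
  obtain ⟨l, hl, B, hBA, hBne, hsep, hcov, -⟩ := ladder hA hAne hr hη0 (by linarith : η ≤ 1)
  set t := η ^ l * r with ht
  have ht0 : 0 < t := by positivity
  have htr : t ≤ r := by
    have := pow_le_one₀ hη0.le (by linarith : η ≤ 1) (n := l)
    rw [ht]; nlinarith
  have hδmin : 0 ≤ min δ₀ δ₁ := (lt_min hδ₀ hδ₁).le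
  have hΛt : r / (t / 8) ≤ Λ := by
    rw [hΛ, div_le_div_iff₀ (by positivity) (by positivity), ht]
    have h1 : η ^ k ≤ η ^ l := pow_le_pow_of_le_one hη0.le (by linarith) (by omega)
    calc r * η ^ k ≤ r * η ^ l := by gcongr
      _ = _ := by ring
  have key := cluster_sum (x := x) (r := r) (R := R) (M := M) (δ := min δ₀ δ₁) (q := q)
    (ε' := ε / (2 * (k + 1))) (Λ := Λ) (δ₀ := δ₀) h hT ht0 hK₀ hη hBA hsep hcov hδmin hbase hG ?_
    hr (by linarith) (by linarith) hΛt (F := hcut T x r) (integrable_hcut x r)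
    (fun y => hcut_nonneg _ _ _) (fun y b _ _ => le_rfl)
  · have hBk : (B.card : ℝ) ≤ k + 1 := by
      have : B.card ≤ k := (Finset.card_le_card hBA).trans hA
      have : (B.card : ℝ) ≤ k := by exact_mod_cast this
      linarith
    have hsq : ctr m Λ * Real.sqrt (M * min δ₀ δ₁) ≤ ε / (2 * (k + 1)) := by
      refine le_trans ?_ hC
      have := ctr_nonneg (m := m) hΛ0
      gcongr
      exact min_le_right _ _
    have h1 : (B.card : ℝ) * (ε / (2 * (k + 1)) + ctr m Λ * Real.sqrt (M * min δ₀ δ₁)) ≤ ε := by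
      calc _ ≤ (k + 1 : ℝ) * (ε / (2 * (k + 1)) + ε / (2 * (k + 1))) := by
            have : 0 ≤ ctr m Λ * Real.sqrt (M * min δ₀ δ₁) :=
              mul_nonneg (ctr_nonneg hΛ0) (Real.sqrt_nonneg _)
            gcongr
        _ = _ := by field_simp; ring
    have h2 : (∫ y, hcut T x r y ∂ν) / r ^ m = htot m T ν x r := rfl
    rw [h2] at key
    linarith
  · intro b hb A' hA' hbA' _ hdiam
    exact hS O ν P T h hT x R q A' ((Finset.card_le_card hA').trans hA)
      (fun a ha => hbase a (hA' ha)) (fun a ha => (hG a (hA' ha)).mono (min_le_left _ _))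
      (2 * (η * t)) hdiam (t / 8) (by positivity) (eta_bound hη hK₀) (by linarith) b hbA'

/-- **the sum of the densities over a fibre is at most the mass fraction** -/
theorem fibre_sum_le (m : ℕ) {c₀ : ℝ} (hc₀ : 0 < c₀) (M ε : ℝ) (hM : 0 ≤ M) (hε : 0 < ε) :
    ∃ δ : ℝ, 0 < δ ∧
    ∀ (O : Set E) (ν : Measure E) (P : E → E →L[ℝ] E) (T : Submodule ℝ E) [IsFiniteMeasure ν],
      LocStat m O ν P → Module.finrank ℝ T = m → ∀ (x : E) (R : ℝ) (q : E → ℝ) (A : Finset E),
      (∀ p ∈ A, T.starProjection p = T.starProjection x) →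
      (∀ p ∈ A, Good m T O ν P R M δ p (q p)) → (∀ p ∈ A, c₀ ≤ q p) →
      ∀ r, 0 < r → 12 * r ≤ R → htot m T ν x r ≤ M → ∑ a ∈ A, q a ≤ htot m T ν x r + ε := by
  set k : ℕ := ⌊(M + ε) / c₀⌋₊ + 1 with hk
  have hkc : M + ε < k * c₀ := by
    have := Nat.lt_floor_add_one ((M + ε) / c₀)
    rw [div_lt_iff₀ hc₀] at this
    rw [hk]; push_cast; exact this
  obtain ⟨δ, hδ, hT⟩ := fibre_T (E := E) m k M ε hM hε
  refine ⟨δ, hδ, ?_⟩
  intro O ν P T _ h hTm x R q A hbase hG hq r hr hrR htot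
  by_cases hA : A.card ≤ k
  · exact hT O ν P T h hTm x R q A hA hbase hG r hr hrR
  · exfalso
    obtain ⟨A', hA', hcard⟩ := Finset.exists_subset_card_eq (not_le.1 hA).le
    have h1 := hT O ν P T h hTm x R q A' hcard.le (fun p hp => hbase p (hA' hp))
      (fun p hp => hG p (hA' hp)) r hr hrR
    have h2 : (k : ℝ) * c₀ ≤ ∑ a ∈ A', q a := by
      rw [← hcard, ← nsmul_eq_mul]
      exact Finset.card_nsmul_le_sum _ _ _ fun p hp => hq p (hA' hp)
    linarith

end Vale.Agent.P214.INT
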