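import Vale.Agent.P214.INT.NearInt
import Vale.Agent.P214.INT.FibreT

/-!
# P214, block INT: near integrality, unconditional form
-/

open Set Filter Topology MeasureTheory Metric
open scoped RealInnerProductSpace ENNReal

set_option linter.all false

namespace Vale.Agent.P214.INT

open Vale.Agent.P214 Vale.Agent.P214.FV Vale.Agent.P214.INT.NI

variable {E : Type*} [NormedAddCommGroup E] [InnerProductSpace ℝ E] [FiniteDimensional ℝ E]
  [MeasurableSpace E] [BorelSpace E]

/-- the multilayer monotonicity holds -/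
theorem fibreSumLe (m : ℕ) : FibreSumLe E m := by
  intro c₀ M ε hc₀ hM hε
  obtain ⟨δ, hδ, h⟩ := fibre_sum_le (E := E) m hc₀ M ε hM.le hε
  refine ⟨δ, hδ, ?_⟩
  intro T O ν _ P x r A q hT hL hr hA htot
  refine h O ν P T hL hT x (12 * r) q A (fun p hp => (hA p hp).1) (fun p hp => ?_)
    (fun p hp => (hA p hp).2.2.2.2.2) r hr le_rfl htot
  obtain ⟨-, h1, h2, h3, h4, -⟩ := hA p hp
  exact ⟨h1, h2, h3, h4⟩

/-- **(INT-N): near integrality of the mass fraction at small excess.** -/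
theorem near_integer' (m : ℕ) {M ε : ℝ} (hM0 : 0 < M) (hε : 0 < ε) :
    ∃ δ > 0, ∀ (T : Submodule ℝ E) (G : Set E) (h : ℝ) (ν : Measure E) (P : E → E →L[ℝ] E)
      (S : Set E) (θ : E → ℕ) (J : E → ℝ) (z : E) (r : ℝ), IntCyl m T G h ν P S θ J → z ∈ T →
      0 < r → cyl T z (2 * r) ⊆ T.starProjection ⁻¹' G → ν.real (cyl T z (2 * r)) ≤ M * r ^ m →
      exc m T ν P z (2 * r) ≤ δ → ∃ q : ℕ, |htot m T ν z r / cg m - q| ≤ ε :=
  near_integer (fibreSumLe m) hM0 hε

end Vale.Agent.P214.INT
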