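import Vale.Agent.P214.INT.I0
import Vale.Agent.P214.INT.Def

/-! Transport of window functionals in the scale and in the horizontal centre. -/

open Set Filter Topology MeasureTheory Metric
open scoped RealInnerProductSpace

namespace Vale.Agent.P214.INT

open Vale.Agent.P214

set_option linter.unusedSectionVars false

variable {E : Type*} [NormedAddCommGroup E] [InnerProductSpace ℝ E] [FiniteDimensional ℝ E]
  [MeasurableSpace E] [BorelSpace E]

variable {T : Submodule ℝ E} {z c x y v : E} {r s : ℝ} {m : ℕ} {O : Set E} {ν : Measure E}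
  {P : E → E →L[ℝ] E}

lemma tilt_nonneg : 0 ≤ tilt P T y := norm_nonneg _

lemma aesm_tilt (h : LocStat m O ν P) : AEStronglyMeasurable (tilt P T) ν :=
  (h.meas.sub aestronglyMeasurable_const).norm

lemma tilt_le_two (h : LocStat m O ν P) : ∀ᵐ y ∂ν, tilt P T y ≤ 2 := by
  filter_upwards [h.norm_le] with y hy
  unfold tilt
  calc ‖P y - T.starProjection‖ ≤ ‖P y‖ + ‖T.starProjection‖ := norm_sub_le _ _
    _ ≤ 1 + 1 := by gcongr; exact T.starProjection_norm_le
    _ = 2 := by norm_num

lemma integrable_tilt [IsFiniteMeasure ν] (h : LocStat m O ν P) : Integrable (tilt P T) ν :=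
  (integrable_const (2:ℝ)).mono' (aesm_tilt h) (by
    filter_upwards [tilt_le_two (T := T) h] with y hy
    rw [Real.norm_of_nonneg tilt_nonneg]; exact hy)

lemma integrable_tilt_sq [IsFiniteMeasure ν] (h : LocStat m O ν P) :
    Integrable (fun y => tilt P T y ^ 2) ν :=
  (integrable_const (4:ℝ)).mono' ((aesm_tilt h).pow 2) (by
    filter_upwards [tilt_le_two (T := T) h] with y hy
    rw [Real.norm_of_nonneg (sq_nonneg _)]
    have := tilt_nonneg (P := P) (T := T) (y := y)
    nlinarith)

/-- Cauchy Schwarz for the tilt -/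
lemma setIntegral_tilt_le [IsFiniteMeasure ν] (h : LocStat m O ν P) (S : Set E) :
    ∫ y in S, tilt P T y ∂ν ≤ Real.sqrt (ν.real S) * Real.sqrt (∫ y in S, tilt P T y ^ 2 ∂ν) := by
  have hm : MemLp (tilt P T) 2 (ν.restrict S) := by
    rw [memLp_two_iff_integrable_sq (aesm_tilt h).restrict]
    exact (integrable_tilt_sq h).integrableOn
  have h1 : MemLp (fun _ : E => (1:ℝ)) 2 (ν.restrict S) := memLp_const 1
  have hpq : (2:ℝ).HolderConjugate 2 := Real.HolderConjugate.two_two
  have key := integral_mul_le_Lp_mul_Lq_of_nonneg (μ := ν.restrict S) hpq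
    (f := fun _ => (1:ℝ)) (g := tilt P T)
    (Eventually.of_forall fun _ => zero_le_one) (Eventually.of_forall fun _ => tilt_nonneg)
    (by simpa using h1) (by simpa using hm)
  simp only [one_mul, Real.one_rpow] at key
  refine key.trans (le_of_eq ?_)
  rw [Real.sqrt_eq_rpow, Real.sqrt_eq_rpow]
  congr 2
  · simp [Measure.real]
  · refine integral_congr_ae (Eventually.of_forall fun y => ?_)
    simp

/-- **horizontal derivatives integrate to something small** -/
lemma abs_integral_fderiv_le [IsFiniteMeasure ν] (h : LocStat m O ν P) {f : E → ℝ}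
    (hf : ContDiff ℝ 1 f) (hc : HasCompactSupport f) (hs : tsupport f ⊆ O) (hv : v ∈ T)
    {S : Set E} (hS : MeasurableSet S) {C : ℝ} (hC : 0 ≤ C)
    (hb : ∀ y w, |fderiv ℝ f y w| ≤ C * ‖w‖) (h0 : ∀ y ∉ S, fderiv ℝ f y = 0) :
    |∫ y, fderiv ℝ f y v ∂ν| ≤ C * ‖v‖ * ∫ y in S, tilt P T y ∂ν := by
  have hstat := h.stat f v hf hc hs
  have hi1 : Integrable (fun y => fderiv ℝ f y (P y v)) ν :=
    h.integrable_fderiv hf hc (w := fun _ => v) continuous_const
  have hcont : Continuous (fun y => fderiv ℝ f y v) :=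
    (hf.continuous_fderiv (by norm_num)).clm_apply continuous_const
  have hi2 : Integrable (fun y => fderiv ℝ f y v) ν := by
    refine (integrable_const (C * ‖v‖)).mono' hcont.aestronglyMeasurable ?_
    exact Eventually.of_forall fun y => by rw [Real.norm_eq_abs]; exact hb y v
  have h1 : ∫ y, fderiv ℝ f y v ∂ν = ∫ y, (fderiv ℝ f y v - fderiv ℝ f y (P y v)) ∂ν := by
    rw [integral_sub hi2 hi1, hstat, sub_zero]
  have h2 : ∀ y, fderiv ℝ f y v - fderiv ℝ f y (P y v)
      = fderiv ℝ f y ((T.starProjection - P y) v) := by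
    intro y
    rw [sub_apply, map_sub,
      (Submodule.starProjection_eq_self_iff).2 hv]
  have h3 : ∀ y, |fderiv ℝ f y v - fderiv ℝ f y (P y v)|
      ≤ S.indicator (fun y => C * ‖v‖ * tilt P T y) y := by
    intro y
    rw [h2 y]
    by_cases hy : y ∈ S
    · rw [indicator_of_mem hy]
      refine (hb y _).trans ?_
      have : ‖(T.starProjection - P y) v‖ ≤ tilt P T y * ‖v‖ := by
        unfold tilt; rw [norm_sub_rev]; exact ContinuousLinearMap.le_opNorm _ _
      calc C * ‖(T.starProjection - P y) v‖ ≤ C * (tilt P T y * ‖v‖) := by gcongr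
        _ = _ := by ring
    · rw [indicator_of_notMem hy, h0 y hy]; simp
  rw [h1]
  calc |∫ y, (fderiv ℝ f y v - fderiv ℝ f y (P y v)) ∂ν|
      ≤ ∫ y, |fderiv ℝ f y v - fderiv ℝ f y (P y v)| ∂ν := abs_integral_le_integral_abs
    _ ≤ ∫ y, S.indicator (fun y => C * ‖v‖ * tilt P T y) y ∂ν := by
        refine integral_mono (hi2.sub hi1).abs ?_ h3
        exact ((integrable_tilt h).const_mul _).indicator hS
    _ = C * ‖v‖ * ∫ y in S, tilt P T y ∂ν := by
        rw [integral_indicator hS, integral_const_mul]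

/-- the window functional -/
noncomputable def wf (T : Submodule ℝ E) (ν : Measure E) (z : E) (r : ℝ) (c : E) (s : ℝ) : ℝ :=
  ∫ y, tst T z r c s y ∂ν

lemma integrable_tst [IsFiniteMeasure ν] : Integrable (tst T z r c s) ν :=
  (integrable_const (1:ℝ)).mono' contDiff_tst.continuous.aestronglyMeasurable
    (Eventually.of_forall fun y => by
      rw [Real.norm_of_nonneg tst_nonneg]; exact tst_le_one)

lemma wf_nonneg : 0 ≤ wf T ν z r c s := integral_nonneg fun _ => tst_nonneg

lemma wf_le [IsFiniteMeasure ν] (hr : 0 < r) (hs : 0 < s) :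
    wf T ν z r c s ≤ ν.real (reg T z r c s) := by
  unfold wf
  have hle : ∀ y, tst T z r c s y ≤ (reg T z r c s).indicator (fun _ => (1:ℝ)) y := by
    intro y
    by_cases hy : y ∈ reg T z r c s
    · rw [indicator_of_mem hy]; exact tst_le_one
    · rw [indicator_of_notMem hy, tst_eq_zero hr hs hy]
  calc ∫ y, tst T z r c s y ∂ν ≤ ∫ y, (reg T z r c s).indicator (fun _ => (1:ℝ)) y ∂ν :=
        integral_mono integrable_tst
          ((integrable_const (1:ℝ)).indicator isClosed_reg.measurableSet) hle
    _ = _ := by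
        rw [integral_indicator isClosed_reg.measurableSet]; simp

lemma reg_mono {r₁ r₂ : ℝ} (h : r₁ ≤ r₂) : reg T z r₁ c s ⊆ reg T z r₂ c s :=
  fun _ hy => ⟨hy.1.trans h, hy.2⟩

lemma hasDerivAt_hcut_scale (hr : 0 < r) (y : E) : HasDerivAt (fun r => hcut T z r y)
    (dcut (T.starProjection z) r (T.starProjection y)
      * (2 * ‖T.starProjection (y - z)‖ ^ 2 / r ^ 3)) r := by
  have h1 : HasDerivAt (fun s : ℝ => ‖T.starProjection (y - z)‖ ^ 2 / s ^ 2)
      (-(2 * ‖T.starProjection (y - z)‖ ^ 2 / r ^ 3)) r := by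
    have h := (hasDerivAt_pow 2 r).inv (by positivity)
    have h' := h.const_mul (‖T.starProjection (y - z)‖ ^ 2)
    refine (h'.congr_of_eventuallyEq ?_).congr_deriv ?_
    · exact Eventually.of_forall fun z => by simp [div_eq_mul_inv]
    · simp only [Nat.cast_ofNat]; field_simp; norm_num
  have h2 := (hasDerivAt_prof (‖T.starProjection (y - z)‖ ^ 2 / r ^ 2)).comp r h1
  have h3 : (fun r => hcut T z r y)
      = prof ∘ fun s : ℝ => ‖T.starProjection (y - z)‖ ^ 2 / s ^ 2 := by
    funext s; rw [hcut_eq]; rfl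
  rw [h3]
  refine h2.congr_deriv ?_
  unfold dcut; rw [← map_sub]; ring

/-- derivative of the window functional in the scale -/
lemma hasDerivAt_wf [IsFiniteMeasure ν] (hr : 0 < r) :
    HasDerivAt (fun r => wf T ν z r c s)
      (∫ y, dcut (T.starProjection z) r (T.starProjection y)
        * (2 * ‖T.starProjection (y - z)‖ ^ 2 / r ^ 3) * vwin T c s y ∂ν) r := by
  have hs : Ioo (r / 2) (2 * r) ∈ 𝓝 r := Ioo_mem_nhds (by linarith) (by linarith)
  have hcd : Continuous fun y : E => dcut (T.starProjection z) r (T.starProjection y) :=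
    (continuous_dcut _ _).comp T.starProjection.continuous
  have hcv : Continuous (vwin T c s) := (contDiff_vwin c s).continuous
  have key := hasDerivAt_integral_of_dominated_loc_of_deriv_le (μ := ν) (𝕜 := ℝ)
    (F := fun r y => tst T z r c s y)
    (F' := fun r y => dcut (T.starProjection z) r (T.starProjection y)
        * (2 * ‖T.starProjection (y - z)‖ ^ 2 / r ^ 3) * vwin T c s y) (x₀ := r)
    (s := Ioo (r / 2) (2 * r)) (bound := fun _ => 2 * (2 * (2 * r) ^ 2 / (r / 2) ^ 3) * 1)
    hs ?_ ?_ ?_ ?_ ?_ ?_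
  · exact key.2
  · exact Eventually.of_forall fun s => contDiff_tst.continuous.aestronglyMeasurable
  · exact integrable_tst
  · have : Continuous fun y => dcut (T.starProjection z) r (T.starProjection y)
        * (2 * ‖T.starProjection (y - z)‖ ^ 2 / r ^ 3) * vwin T c s y := by fun_prop
    exact this.aestronglyMeasurable
  · refine Eventually.of_forall fun y t ht => ?_
    have ht0 : 0 < t := by linarith [ht.1]
    by_cases h : t ≤ ‖T.starProjection (y - z)‖
    · rw [dcut_eq_zero ht0 (by rwa [← map_sub])]; simp; positivity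
    · have h2 : ‖T.starProjection (y - z)‖ ≤ 2 * r := by linarith [ht.2, not_le.mp h]
      have h3 := dcut_le_two (T.starProjection z) t (T.starProjection y)
      have h4 := dcut_nonneg (T.starProjection z) t (T.starProjection y)
      rw [norm_mul, norm_mul, Real.norm_of_nonneg h4, Real.norm_of_nonneg (by positivity),
        Real.norm_of_nonneg (vwin_nonneg _ _ _)]
      have h6 : r / 2 ≤ t := ht.1.le
      have h7 := vwin_le_one (T := T) c s y
      have h8 := vwin_nonneg (T := T) c s y
      gcongr
  · exact integrable_const _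
  · refine Eventually.of_forall fun y t ht => ?_
    have ht0 : 0 < t := by linarith [ht.1]
    exact (hasDerivAt_hcut_scale ht0 y).mul_const _

/-- the error term of the scale derivative -/
lemma abs_scale_err [IsFiniteMeasure ν] (h : LocStat m O ν P) (hT : Module.finrank ℝ T = m)
    (hr : 0 < r) (hs : 0 < s) (hO : reg T z r c s ⊆ O) :
    |∫ y, ((m : ℝ) * tst T z r c s y
      + fderiv ℝ (tst T z r c s) y (T.starProjection (y - z))) ∂ν|
      ≤ m * (5 + 16 * r / s) * ∫ y in reg T z r c s, tilt P T y ∂ν := by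
  classical
  set b := stdOrthonormalBasis ℝ T with hb
  set F : Fin (Module.finrank ℝ T) → E → ℝ := fun k y => tst T z r c s y * ⟪(b k : E), y - z⟫
    with hF
  have hlin : ∀ k, ContDiff ℝ 1 fun y : E => ⟪(b k : E), y - z⟫ := fun k =>
    contDiff_const.inner ℝ (contDiff_id.sub contDiff_const)
  have hFc : ∀ k, ContDiff ℝ 1 (F k) := fun k => contDiff_tst.mul (hlin k)
  have hFs : ∀ k, HasCompactSupport (F k) := fun k => (hasCompactSupport_tst hr hs).mul_right
  have hFr : ∀ k, tsupport (F k) ⊆ reg T z r c s := fun k =>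
    (closure_mono (Function.support_mul_subset_left _ _)).trans (tsupport_tst hr hs)
  have hder : ∀ k y w, fderiv ℝ (F k) y w
      = fderiv ℝ (tst T z r c s) y w * ⟪(b k : E), y - z⟫ + tst T z r c s y * ⟪(b k : E), w⟫ := by
    intro k y w
    have h1 : HasFDerivAt (tst T z r c s) (fderiv ℝ (tst T z r c s) y) y :=
      (contDiff_tst.differentiable (by norm_num) y).hasFDerivAt
    have h2 : HasFDerivAt (fun y : E => ⟪(b k : E), y - z⟫) (innerSL ℝ (b k : E)) y := by
      have := (innerSL ℝ (b k : E)).hasFDerivAt (x := y - z)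
      have h3 : HasFDerivAt (fun y : E => y - z) (ContinuousLinearMap.id ℝ E) y :=
        (hasFDerivAt_id y).sub_const z
      exact this.comp y h3
    have h5 : fderiv ℝ (F k) y = tst T z r c s y • innerSL ℝ (b k : E)
        + ⟪(b k : E), y - z⟫ • fderiv ℝ (tst T z r c s) y := (h1.mul h2).fderiv
    rw [h5]
    simp only [_root_.add_apply, _root_.smul_apply, innerSL_apply_apply, smul_eq_mul]
    ring
  have hbn : ∀ k, ‖(b k : E)‖ = 1 := fun k => by
    rw [← Submodule.coe_norm]; exact b.orthonormal.1 k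
  have hin : ∀ k (w : E), ⟪(b k : E), w⟫ = ⟪(b k : E), T.starProjection w⟫ := by
    intro k w
    rw [← Submodule.inner_starProjection_left_eq_right,
      Submodule.starProjection_eq_self_iff.2 (b k).2]
  have hbd : ∀ k y w, |fderiv ℝ (F k) y w| ≤ (5 + 16 * r / s) * ‖w‖ := by
    intro k y w
    rw [hder]
    by_cases hy : y ∈ reg T z r c s
    · have h1 := abs_fderiv_tst_le (T := T) (z := z) (c := c) hr hs y w
      have h2 : |⟪(b k : E), y - z⟫| ≤ r := by
        rw [hin]
        refine (abs_real_inner_le_norm _ _).trans ?_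
        rw [hbn, one_mul]; exact hy.1
      have h3 : |⟪(b k : E), w⟫| ≤ ‖w‖ := by
        refine (abs_real_inner_le_norm _ _).trans ?_
        rw [hbn, one_mul]
      calc _ ≤ |fderiv ℝ (tst T z r c s) y w * ⟪(b k : E), y - z⟫|
            + |tst T z r c s y * ⟪(b k : E), w⟫| := abs_add_le _ _
        _ ≤ ((4 / r + 16 / s) * ‖w‖) * r + 1 * ‖w‖ := by
            rw [abs_mul, abs_mul, abs_of_nonneg tst_nonneg]
            have := tst_le_one (T := T) (z := z) (r := r) (c := c) (s := s) (y := y)
            have := tst_nonneg (T := T) (z := z) (r := r) (c := c) (s := s) (y := y)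
            gcongr
        _ = _ := by field_simp; ring
    · rw [fderiv_tst_eq_zero hr hs hy, tst_eq_zero hr hs hy]
      simp; positivity
  have h0 : ∀ k, ∀ y ∉ reg T z r c s, fderiv ℝ (F k) y = 0 := by
    intro k y hy
    by_contra hne
    exact hy (hFr k (support_fderiv_subset ℝ hne))
  have hest : ∀ k, |∫ y, fderiv ℝ (F k) y (b k : E) ∂ν|
      ≤ (5 + 16 * r / s) * ∫ y in reg T z r c s, tilt P T y ∂ν := by
    intro k
    have := abs_integral_fderiv_le (T := T) (v := (b k : E)) h (hFc k) (hFs k)
      ((hFr k).trans hO) (b k).2 (isClosed_reg (T := T) (z := z) (r := r) (c := c) (s := s)).measurableSet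
      (C := 5 + 16 * r / s) (by positivity) (hbd k) (h0 k)
    rwa [hbn, mul_one] at this
  have hint : ∀ k, Integrable (fun y => fderiv ℝ (F k) y (b k : E)) ν := by
    intro k
    refine (integrable_const ((5 + 16 * r / s) * ‖(b k : E)‖)).mono'
      (((hFc k).continuous_fderiv (by norm_num)).clm_apply continuous_const).aestronglyMeasurable ?_
    exact Eventually.of_forall fun y => by rw [Real.norm_eq_abs]; exact hbd k y _
  have hsum : ∀ y, (m : ℝ) * tst T z r c s y
      + fderiv ℝ (tst T z r c s) y (T.starProjection (y - z)) = ∑ k, fderiv ℝ (F k) y (b k : E) := by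
    intro y
    simp only [hder]
    rw [Finset.sum_add_distrib]
    have e1 : ∑ k, fderiv ℝ (tst T z r c s) y (b k : E) * ⟪(b k : E), y - z⟫
        = fderiv ℝ (tst T z r c s) y (T.starProjection (y - z)) := by
      have : T.starProjection (y - z) = ∑ k, ⟪(b k : E), y - z⟫ • (b k : E) := by
        rw [OrthonormalBasis.starProjection_eq_sum_rankOne b]
        simp [InnerProductSpace.rankOne_apply]
      rw [this, map_sum]
      refine Finset.sum_congr rfl fun k _ => ?_
      rw [map_smul, smul_eq_mul, mul_comm]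
    have e2 : ∑ k, tst T z r c s y * ⟪(b k : E), (b k : E)⟫ = m * tst T z r c s y := by
      have : ∀ k, ⟪(b k : E), (b k : E)⟫ = 1 := fun k => by
        rw [real_inner_self_eq_norm_sq, hbn]; norm_num
      simp only [this, mul_one, Finset.sum_const, Finset.card_univ, Fintype.card_fin, hT,
        nsmul_eq_mul]
    rw [e1, e2]; ring
  simp only [hsum]
  rw [integral_finsetSum _ fun k _ => hint k]
  calc _ ≤ ∑ k, |∫ y, fderiv ℝ (F k) y (b k : E) ∂ν| := Finset.abs_sum_le_sum_abs _ _
    _ ≤ ∑ _k : Fin (Module.finrank ℝ T), (5 + 16 * r / s) * ∫ y in reg T z r c s, tilt P T y ∂ν :=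
        Finset.sum_le_sum fun k _ => hest k
    _ = _ := by
        simp only [Finset.sum_const, Finset.card_univ, Fintype.card_fin, hT, nsmul_eq_mul]; ring

end Vale.Agent.P214.INT
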