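import Vale.Agent.P214.INT.HtotL

/-!
# P214, block INT: the number of sheets over a good base point is at most the mass fraction
-/

open Set Filter Topology MeasureTheory Metric
open scoped RealInnerProductSpace ENNReal

namespace Vale.Agent.P214.INT

open Vale.Agent.P214 Vale.Agent.P214.FV Vale.Agent.P214.INT.HL

set_option linter.unusedSectionVars false

variable {E : Type*} [NormedAddCommGroup E] [InnerProductSpace ℝ E] [FiniteDimensional ℝ E]
  [MeasurableSpace E] [BorelSpace E]

/-- `tl` in terms of mass and excess -/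
lemma tl_le' {T : Submodule ℝ E} {O : Set E} {ν : Measure E} [IsFiniteMeasure ν]
    {P : E → E →L[ℝ] E} {m : ℕ} (hl : LocStat m O ν P) {z : E} {ρ a b : ℝ}
    (ha : ν.real (cyl T z ρ) ≤ a) (hb : ∫ y in cyl T z ρ, tilt P T y ^ 2 ∂ν ≤ b) :
    tl T ν P z ρ ≤ Real.sqrt (a * b) := by
  have ha0 : 0 ≤ a := measureReal_nonneg.trans ha
  calc tl T ν P z ρ ≤ _ := tl_le hl
    _ ≤ Real.sqrt a * Real.sqrt b := by gcongr
    _ = _ := (Real.sqrt_mul ha0 _).symm

lemma int_tilt_nonneg {T : Submodule ℝ E} {ν : Measure E} {P : E → E →L[ℝ] E} {S : Set E} :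
    0 ≤ ∫ y in S, tilt P T y ^ 2 ∂ν := integral_nonneg fun _ => sq_nonneg _

/-- **ThmT**: number of sheets over a good base point -/
theorem sheets_le_htot (m : ℕ) (M ε : ℝ) (hM : 0 ≤ M) (hε : 0 < ε) : ∃ δ : ℝ, 0 < δ ∧
    ∀ (T : Submodule ℝ E) (G : Set E) (h : ℝ) (ν : Measure E) (P : E → E →L[ℝ] E) (S : Set E)
      (θ : E → ℕ) (J : E → ℝ), IntCyl m T G h ν P S θ J → ∀ (z : E) (r : ℝ), 0 < r →
      ball (T.starProjection z) (2 * r) ⊆ G → ν.real (cyl T z (2 * r)) ≤ M * r ^ m →
      (∀ s, 0 < s → s ≤ 2 * r → exc m T ν P z s ≤ δ) →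
      sheets T S θ univ (T.starProjection z) ≤ ENNReal.ofReal (htot m T ν z r / cg m + ε) := by
  have hcg := cg_pos m
  obtain ⟨δ₁, hδ₁, hF⟩ := fibre_sum_le (E := E) m hcg (12 ^ m * M) (ε * cg m / 2)
    (by positivity) (by positivity)
  obtain ⟨δ₂, hδ₂, hC⟩ := exists_sqrt_small (C := 21 * m * 12 ^ (m + 1)) (M := M * 2 ^ m)
    (by positivity) (by positivity) (by positivity : 0 < ε * cg m / 2)
  refine ⟨min (δ₁ / 2 ^ m) δ₂, lt_min (by positivity) hδ₂, ?_⟩
  intro T G h ν P S θ J hI z r hr hG hmass hexc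
  have hfin := hI.finite
  have hl := hI.loc
  have hh0 : 0 ≤ htot m T ν z r := htot_nonneg' hr
  refine sheets_le (by positivity) fun A hA => ?_
  -- good points
  have hcG : cyl T z (2 * r) ⊆ T.starProjection ⁻¹' G := preimage_mono hG
  have hmassr : ν.real (cyl T z (2 * r)) / r ^ m ≤ M := by
    rw [div_le_iff₀ (by positivity)]; exact hmass
  have h12 : (1:ℝ) ≤ 12 ^ m := one_le_pow₀ (by norm_num)
  have hproj : ∀ p ∈ A, T.starProjection p = T.starProjection z := fun p hp => (hA p hp).2.2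
  have hgood : ∀ p ∈ A, Good m T (T.starProjection ⁻¹' G) ν P r (12 ^ m * M) δ₁ p (θ p * cg m) := by
    intro p hp
    have hb : closedBall p r ⊆ T.starProjection ⁻¹' G :=
      (closedBall_subset_cyl (hproj p hp) (by linarith)).trans hcG
    refine ⟨hb, ?_, ?_, ?_⟩
    · have := ratio_le_mass (ν := ν) (m := m) (hproj p hp) hr (by linarith : r ≤ 2 * r)
      nlinarith
    · intro s hs hsr
      have h1 := hexc (2 * s) (by linarith) (by linarith)
      unfold exc at h1
      rw [div_le_iff₀ (by positivity)] at h1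
      have h2 : ∫ y in closedBall p s, tilt P T y ^ 2 ∂ν
          ≤ ∫ y in cyl T z (2 * s), tilt P T y ^ 2 ∂ν :=
        setIntegral_mono_set (integrable_tilt_sq hl).integrableOn
          (Eventually.of_forall fun _ => sq_nonneg _)
          (Eventually.of_forall (closedBall_subset_cyl (hproj p hp) (by linarith)))
      calc _ ≤ _ := h2
        _ ≤ min (δ₁ / 2 ^ m) δ₂ * (2 * s) ^ m := h1
        _ ≤ δ₁ / 2 ^ m * (2 * s) ^ m := by gcongr; exact min_le_left _ _
        _ = _ := by rw [mul_pow]; field_simp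
    · intro s hs hsr
      exact hI.theta_le_ratio (hA p hp).1 hs ((closedBall_subset_closedBall hsr).trans hb)
  have hr12 : 0 < r / 12 := by positivity
  have hkey := hF (T.starProjection ⁻¹' G) ν P T hl hI.stat.dimT z r (fun p => θ p * cg m) A hproj
    hgood (fun p hp => by
      have : (1:ℝ) ≤ θ p := by exact_mod_cast hI.one_le p (hA p hp).1
      nlinarith) (r / 12) hr12 (by linarith) (by
      have := htot_le_mass (T := T) (ν := ν) (x := z) (m := m) hr12
        (by linarith : r / 12 ≤ 2 * r)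
      refine this.trans ?_
      rw [div_pow, div_div_eq_mul_div, div_le_iff₀ (by positivity)]
      calc _ ≤ M * r ^ m * 12 ^ m := by gcongr
        _ = _ := by ring)
  -- transport from `r / 12` to `r`
  have htr := htot_scale (z := z) (ρ := 2 * r) hI.stat hr12 (by linarith : r / 12 ≤ r)
    (by linarith) hG
  have htl : tl T ν P z (2 * r) ≤ Real.sqrt (M * 2 ^ m * δ₂) * r ^ m := by
    have h1 := hexc (2 * r) (by linarith) le_rfl
    unfold exc at h1
    rw [div_le_iff₀ (by positivity)] at h1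
    have h2 := tl_le' hl hmass (h1.trans (mul_le_mul_of_nonneg_right (min_le_right _ _)
      (by positivity)))
    refine h2.trans (le_of_eq ?_)
    rw [show M * r ^ m * (δ₂ * (2 * r) ^ m) = (M * 2 ^ m * δ₂) * (r ^ m) ^ 2 by
      rw [mul_pow]; ring]
    rw [Real.sqrt_mul (by positivity), Real.sqrt_sq (by positivity)]
  have herr : 21 * m * tl T ν P z (2 * r) / (r / 12) ^ (m + 1) * (r - r / 12) ≤ ε * cg m / 2 := by
    have h0 := tl_nonneg (T := T) (ν := ν) (P := P) (z := z) (ρ := 2 * r)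
    have h6 : r - r / 12 ≤ r := by linarith
    have h7 : 0 ≤ r - r / 12 := by linarith
    calc _ ≤ 21 * m * (Real.sqrt (M * 2 ^ m * δ₂) * r ^ m) / (r / 12) ^ (m + 1) * r := by
          gcongr
      _ = 21 * m * 12 ^ (m + 1) * Real.sqrt (M * 2 ^ m * δ₂) := by
          generalize Real.sqrt (M * 2 ^ m * δ₂) = W
          have hr' : r ≠ 0 := hr.ne'
          rw [div_pow, pow_succ r m]
          field_simp
      _ ≤ _ := hC
  have h3 := (abs_le.1 (htr.trans herr)).1
  have h4 : (∑ p ∈ A, (θ p : ℝ)) * cg m ≤ htot m T ν z r + ε * cg m := by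
    rw [Finset.sum_mul]; linarith
  have h5 : htot m T ν z r / cg m + ε = (htot m T ν z r + ε * cg m) / cg m := by
    field_simp
  rw [h5, le_div_iff₀ hcg]
  exact h4

end Vale.Agent.P214.INT
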