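import Vale.Agent.P214.INT.MArea
import Vale.Agent.P214.INT.ThmT
import Vale.Agent.P214.INTM.M4

/-!
# P214, block INT, theorem M: unconditional forms
-/

open Set Filter Topology MeasureTheory Metric
open scoped RealInnerProductSpace ENNReal

set_option linter.all false

namespace Vale.Agent.P214.INT

open Vale.Agent.P214 Vale.Agent.P214.FV

variable {E : Type*} [NormedAddCommGroup E] [InnerProductSpace ℝ E] [FiniteDimensional ℝ E]
  [MeasurableSpace E] [BorelSpace E]

variable {m Q : ℕ} {δ : ℝ} {T : Submodule ℝ E} {G : Set E} {h : ℝ} {ν : Measure E}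
  {P : E → E →L[ℝ] E} {S : Set E} {θ : E → ℕ} {J : E → ℝ} {z x : E} {r s τ : ℝ}

lemma star_star (T : Submodule ℝ E) (y : E) :
    T.starProjection (T.starProjection y) = T.starProjection y :=
  Submodule.starProjection_eq_self_iff.2 (Submodule.starProjection_apply_mem _ _)

lemma pre_pre (T : Submodule ℝ E) (G : Set E) :
    T.starProjection ⁻¹' (T.starProjection ⁻¹' G) = T.starProjection ⁻¹' G := by
  ext y; simp only [mem_preimage, star_star]

/-- only `T ∩ G` matters -/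
lemma _root_.Vale.Agent.P214.FV.CylStat.pre (hC : CylStat m T G h ν P) : CylStat m T (T.starProjection ⁻¹' G) h ν P where
  fin := hC.fin
  meas := hC.meas
  proj := hC.proj
  dimT := hC.dimT
  isOpen := hC.isOpen.preimage T.starProjection.continuous
  slab := by
    filter_upwards [hC.slab] with y hy hy'
    exact hy (by simpa only [mem_preimage, star_star] using hy')
  stat := fun X hX hb => hC.stat X hX (by
    obtain ⟨K, hK, hKG, h0⟩ := hb
    refine ⟨T.starProjection '' K, hK.image T.starProjection.continuous,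
      image_subset_iff.2 hKG, fun y hy => h0 y fun hy' => hy ⟨_, hy', star_star T y⟩⟩)

lemma IntCyl.pre (hI : IntCyl m T G h ν P S θ J) :
    IntCyl m T (T.starProjection ⁻¹' G) h ν P S θ J :=
  { hI with
    stat := hI.stat.pre
    base := by rw [pre_pre]; exact hI.base }

lemma htot_star (T : Submodule ℝ E) (x : E) (s : ℝ) :
    htot m T ν (T.starProjection x) s = htot m T ν x s := by
  unfold htot; rw [star_star]

lemma cyl_star (T : Submodule ℝ E) (x : E) (s : ℝ) : cyl T (T.starProjection x) s = cyl T x s := by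
  unfold cyl; rw [star_star]

lemma exc_star (T : Submodule ℝ E) (x : E) (s : ℝ) :
    exc m T ν P (T.starProjection x) s = exc m T ν P x s := by
  unfold exc; rw [cyl_star]

theorem thmN (m : ℕ) : INTM.ThmN E m := by
  intro M ε hM hε
  obtain ⟨δ, hδ, hN⟩ := near_integer' (E := E) m hM hε
  refine ⟨δ, hδ, ?_⟩
  intro T G h ν P S θ J hI z r hr hG hmass hexc
  obtain ⟨q, hq⟩ := hN T G h ν P S θ J (T.starProjection z) r hI
    (Submodule.starProjection_apply_mem _ _) hr (by rw [cyl_star]; exact preimage_mono hG)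
    (by rw [cyl_star]; exact hmass) (by rw [exc_star]; exact hexc)
  exact ⟨q, by rwa [htot_star] at hq⟩

theorem thmT (m : ℕ) : INTM.ThmT E m := by
  intro M ε hM hε
  obtain ⟨δ, hδ, hN⟩ := sheets_le_htot (E := E) m M ε hM hε
  exact ⟨δ, hδ, fun T G h ν P S θ J hI z r hr hG hmass hexc =>
    hN T G h ν P S θ J hI z r hr hG hmass hexc⟩

lemma Win.dat (hW : Win m Q δ T G h ν P S θ J z r) :
    INTM.Dat m Q δ T (T.starProjection ⁻¹' G) h ν P S θ J z r where
  int := hW.int.pre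
  pos := hW.pos
  sub := by
    intro y hy
    refine hW.sub ?_
    show T.starProjection y ∈ ball (T.starProjection z) (4 * r)
    rw [mem_ball, dist_eq_norm] at hy ⊢
    rw [← star_star T z, ← map_sub]
    exact (norm_star_le T _).trans_lt hy
  near := hW.near
  small := hW.small

/-- **(INT-M)(i)** -/
theorem massStable (m : ℕ) : MassStable E m := by
  intro Q ε hε
  obtain ⟨δ, C, hδ, hC, hN⟩ := INTM.multi (thmN (E := E) m) Q hε
  refine ⟨δ, C * 5 ^ m, hδ, by positivity, ?_⟩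
  intro T G h ν P S θ J z r hW x hx hxz s hs hsr hexc
  have hpx : T.starProjection x = x := Submodule.starProjection_eq_self_iff.2 hx
  have hpz : T.starProjection z = z := Submodule.starProjection_eq_self_iff.2 hW.mem
  have hfin := hW.int.finite
  obtain ⟨h1, h2⟩ := hN T _ h ν P S θ J z r hW.dat x (by rw [hpx, hpz]; exact hxz) s hs hsr hexc
  refine ⟨h1, fun t ht ht2 => ?_⟩
  rcases le_or_gt (s / 20) t with h3 | h3
  · have ht0 : 0 < t := by linarith
    calc ν.real (cyl T x t) ≤ C * t ^ m := h2 t h3 ht2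
      _ ≤ C * (5 * s) ^ m := by gcongr
      _ = _ := by rw [mul_pow]; ring
  · calc ν.real (cyl T x t) ≤ ν.real (cyl T x s) :=
          measureReal_mono (NI.cyl_mono (by linarith))
      _ ≤ C * s ^ m := h2 s (by linarith) (by linarith [hW.pos])
      _ ≤ C * s ^ m * 5 ^ m := by
          have : (1:ℝ) ≤ 5 ^ m := one_le_pow₀ (by norm_num)
          have h5 : 0 ≤ C * s ^ m := by positivity
          nlinarith
      _ = _ := by ring

/-- **(INT-M)(ii)** -/
theorem sheetsEq (m : ℕ) : SheetsEq E m := by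
  intro Q
  have hcg := cg_pos m
  obtain ⟨δ₁, C, hδ₁, hC, hN⟩ := INTM.multi (thmN (E := E) m) Q (ε := 1 / 8) (by norm_num)
  obtain ⟨δ₂, hδ₂, hT⟩ := thmT (E := E) m (C * 2 ^ m) (1 / 8) (by positivity) (by norm_num)
  set δ := min (min δ₁ δ₂) (cg m / (8 * (m + 1))) with hδdef
  have hδ : 0 < δ := lt_min (lt_min hδ₁ hδ₂) (by positivity)
  have hd1 : δ ≤ δ₁ := (min_le_left _ _).trans (min_le_left _ _)
  have hd2 : δ ≤ δ₂ := (min_le_left _ _).trans (min_le_right _ _)
  have hd3 : m * δ / cg m ≤ 1 / 8 := by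
    have h1 : δ ≤ cg m / (8 * (m + 1)) := min_le_right _ _
    rw [le_div_iff₀ (by positivity)] at h1
    rw [div_le_iff₀ hcg]
    nlinarith
  refine ⟨δ, hδ, ?_⟩
  intro T G h ν P S θ J z r hW
  have hfin := hW.int.finite
  have hr := hW.pos
  have hpz : T.starProjection z = z := Submodule.starProjection_eq_self_iff.2 hW.mem
  have hD := (hW.mono hd1).dat
  have hsub : goodSet m T ν P z r δ ⊆ (T : Set E) := goodSet_subset_T
  have hm : MeasurableSet (goodSet m T ν P z r δ) := measurableSet_goodSet hW.int.loc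
  have hlow := INTM.nat_le_sheets_ae hW.int (Q := Q) (ε := 1 / 8) (τ := δ) (by linarith)
  have hlow' := ae_mono (Measure.restrict_mono hsub le_rfl : (μH[m] : Measure E).restrict _ ≤ _) hlow
  filter_upwards [hlow', ae_restrict_mem hm] with x hx hxg
  have hpx : T.starProjection x = x := Submodule.starProjection_eq_self_iff.2 hxg.1
  have hxz : T.starProjection x ∈ ball (T.starProjection z) r := by
    rw [hpx, hpz]; exact hxg.2.1
  have hmain := fun (s : ℝ) (hs : 0 < s) (hsr : s ≤ r) =>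
    hN T _ h ν P S θ J z r hD x hxz s hs hsr
      (fun s' h1 h2 => (hxg.2.2 s' (hs.trans_le h1) h2).trans hd1)
  refine le_antisymm ?_ (hx hxg.1 ⟨r, hr, fun s hs hsr => ⟨?_, hxg.2.2 s hs hsr⟩⟩)
  · refine INTM.sheets_le_nat ?_
    have h1 := hT T _ h ν P S θ J hD.int x (r / 2) (by linarith) ?_ ?_ ?_
    · rw [hpx] at h1
      refine h1.trans (ENNReal.ofReal_le_ofReal ?_)
      have h2 := (abs_le.1 ((hmain (r / 2) (by linarith) (by linarith)).1 (r / 2) (by linarith)
        (by linarith))).2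
      linarith
    · refine ball_subset_closedBall.trans (hD.ball_sub hxz (by linarith))
    · refine ((hmain r hr le_rfl).2 (2 * (r / 2)) (by linarith) (by linarith)).trans ?_
      apply le_of_eq
      rw [mul_assoc, ← mul_pow]
    · intro s hs hsr
      exact (hxg.2.2 s hs (by linarith)).trans hd2
  · have h2 := (abs_le.1 ((hmain s hs hsr).1 s (by linarith) hsr)).1
    linarith

/-- **(INT-M)(iii) with an abstract energy**, unconditional -/
theorem bad_local_main (m Q : ℕ) :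
    ∃ δ C : ℝ, 0 < δ ∧ 0 < C ∧ ∀ (T : Submodule ℝ E) (G : Set E) (h : ℝ)
    (ν : Measure E) (P : E → E →L[ℝ] E) (S : Set E) (θ : E → ℕ) (J : E → ℝ) (z : E) (r : ℝ),
    Win m Q δ T G h ν P S θ J z r → ∀ (τ κ : ℝ) (e : E → ℝ), 0 < τ → τ ≤ δ → C * κ ≤ τ →
    (∀ y, 0 ≤ e y) → IntegrableOn e (cyl T z (2 * r)) ν →
    (∀ᵐ y ∂ν, y ∈ cyl T z (2 * r) → tilt P T y ^ 2 ≤ κ + e y) →
    ∀ A : Set E, A ⊆ (T : Set E) → A ⊆ ball z r → Disjoint A (goodSet m T ν P z r τ) →
      ∃ (s : E → ℝ) (u : Set E), u ⊆ A ∧ u.Countable ∧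
        (u.PairwiseDisjoint fun a => closedBall a (s a)) ∧
        (∀ x ∈ A, 0 < s x ∧ s x ≤ r ∧ τ < exc m T ν P x (s x) ∧
          (∀ s', 2 * s x ≤ s' → s' ≤ r → exc m T ν P x s' ≤ τ)) ∧
        μH[m] A + ν (T.starProjection ⁻¹' A) +
          ν (T.starProjection ⁻¹' (⋃ b ∈ u, ball b (s b))) ≤
          ENNReal.ofReal (C / τ) *
            ∫⁻ y in T.starProjection ⁻¹' (⋃ b ∈ u, ball b (s b)), ENNReal.ofReal (e y) ∂ν :=
  bad_local (massStable m) Q

/-- **(INT-M)(iii')**, unconditional -/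
theorem bad_le_main (m Q : ℕ) :
    ∃ δ C : ℝ, 0 < δ ∧ 0 < C ∧ ∀ (T : Submodule ℝ E) (G : Set E) (h : ℝ)
    (ν : Measure E) (P : E → E →L[ℝ] E) (S : Set E) (θ : E → ℕ) (J : E → ℝ) (z : E) (r : ℝ),
    Win m Q δ T G h ν P S θ J z r → ∀ (τ κ : ℝ) (e : E → ℝ), 0 < τ → τ ≤ δ → C * κ ≤ τ →
    (∀ y, 0 ≤ e y) → IntegrableOn e (cyl T z (2 * r)) ν →
    (∀ᵐ y ∂ν, y ∈ cyl T z (2 * r) → tilt P T y ^ 2 ≤ κ + e y) →
    μH[m] (((T : Set E) ∩ ball z r) \ goodSet m T ν P z r τ) +
      ν (T.starProjection ⁻¹' (ball z r \ goodSet m T ν P z r τ)) ≤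
        ENNReal.ofReal (C / τ * ∫ y in cyl T z (2 * r), e y ∂ν) :=
  bad_le' (massStable m) Q

/-- **area formula with `Q` sheets up to the excess**, unconditional -/
theorem area_approx_main (m Q : ℕ) :
    ∃ δ C : ℝ, 0 < δ ∧ 0 < C ∧ ∀ (T : Submodule ℝ E) (G : Set E) (h : ℝ)
    (ν : Measure E) (P : E → E →L[ℝ] E) (S : Set E) (θ : E → ℕ) (J : E → ℝ) (z : E) (r : ℝ),
    Win m Q δ T G h ν P S θ J z r → ∀ (κ : ℝ) (e : E → ℝ), C * κ ≤ δ →
    (∀ y, 0 ≤ e y) → IntegrableOn e (cyl T z (2 * r)) ν →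
    (∀ᵐ y ∂ν, y ∈ cyl T z (2 * r) → tilt P T y ^ 2 ≤ κ + e y) →
    ∀ (K : ℝ) (g : E → ℝ), Measurable g → (∀ x, |g x| ≤ K) →
    |∫ y in cyl T z r, g (T.starProjection y) * J y ∂ν -
      Q * ∫ x in (T : Set E) ∩ ball z r, g x ∂μH[m]| ≤ C * K * ∫ y in cyl T z (2 * r), e y ∂ν :=
  area_approx (massStable m) (sheetsEq m) Q

/-- **(INT-M)(iv)**, unconditional -/
theorem plane_approx_main (m Q : ℕ) :
    ∃ δ C : ℝ, 0 < δ ∧ 0 < C ∧ ∀ (T : Submodule ℝ E) (G : Set E) (h : ℝ)
    (ν : Measure E) (P : E → E →L[ℝ] E) (S : Set E) (θ : E → ℕ) (J : E → ℝ) (z : E) (r : ℝ),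
    Win m Q δ T G h ν P S θ J z r →
    ∀ (K : ℝ) (g : E → ℝ), Measurable g → (∀ x, |g x| ≤ K) →
    |∫ y in cyl T z r, g (T.starProjection y) ∂ν -
      Q * ∫ x in (T : Set E) ∩ ball z r, g x ∂μH[m]| ≤
      C * K * ∫ y in cyl T z (2 * r), tilt P T y ^ 2 ∂ν :=
  plane_approx (massStable m) (sheetsEq m) Q

/-- mass bound at the top from `near` and `small` -/
theorem mass_top (m Q : ℕ) : ∃ δ M : ℝ, 0 < δ ∧ 0 < M ∧ ∀ (T : Submodule ℝ E) (G : Set E) (h : ℝ)
    (ν : Measure E) (P : E → E →L[ℝ] E) (S : Set E) (θ : E → ℕ) (J : E → ℝ) (z : E) (r : ℝ),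
    INTM.Dat m Q δ T G h ν P S θ J z r → ν.real (cyl T z (3 * r)) ≤ M * r ^ m :=
  ⟨INTM.D0 E m, INTM.M0 m Q, INTM.D0_pos m, INTM.M0_pos m Q,
    fun T G h ν P S θ J z r hD => hD.mass_top le_rfl⟩

end Vale.Agent.P214.INT
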