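import Vale.Agent.P214.INT.NearMain

/-!
# P214, block INT: the number of sheets along a chain of cylinders
-/

open Set Filter Topology MeasureTheory Metric
open scoped RealInnerProductSpace ENNReal

namespace Vale.Agent.P214.INT

open Vale.Agent.P214 Vale.Agent.P214.FV

set_option linter.unusedSectionVars false

variable {E : Type*} [NormedAddCommGroup E] [InnerProductSpace ℝ E] [FiniteDimensional ℝ E]
  [MeasurableSpace E] [BorelSpace E]

variable {T : Submodule ℝ E} {G : Set E} {h : ℝ} {z x y v p : E} {r s t ρ : ℝ} {m : ℕ}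
  {ν : Measure E} {P : E → E →L[ℝ] E} {S : Set E} {θ : E → ℕ} {J : E → ℝ}

/-- the mass fraction is continuous in centre and scale -/
lemma continuousOn_htot [IsFiniteMeasure ν] (m : ℕ) (T : Submodule ℝ E) :
    ContinuousOn (fun p : E × ℝ => htot m T ν p.1 p.2) {p | 0 < p.2} := by
  unfold htot
  have h1 : ContinuousOn (fun p : E × ℝ => ∫ y, cut (T.starProjection p.1) p.2
      (T.starProjection y) ∂ν) {p | 0 < p.2} := by
    refine continuousOn_of_dominated (bound := fun _ => (1:ℝ)) ?_ ?_ (integrable_const _) ?_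
    · intro p _
      exact ((continuous_cut _ _).comp T.starProjection.continuous).aestronglyMeasurable
    · intro p _
      refine Eventually.of_forall fun y => ?_
      rw [Real.norm_of_nonneg (cut_nonneg _ _ _)]; exact cut_le_one _ _ _
    · refine Eventually.of_forall fun y => ?_
      unfold cut
      refine continuous_prof.comp_continuousOn (ContinuousOn.div ?_ ?_ ?_)
      · exact Continuous.continuousOn (by fun_prop)
      · exact Continuous.continuousOn (by fun_prop)
      · intro p hp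
        have : (0:ℝ) < p.2 := hp
        positivity
  refine h1.div (Continuous.continuousOn (by fun_prop)) ?_
  intro p hp
  have : (0:ℝ) < p.2 := hp
  positivity

/-- a continuous function which is always close to an integer stays close to the same integer -/
lemma stay_near {a : ℝ → ℝ} (ha : ContinuousOn a (Icc 0 1)) {ε : ℝ} (hε : ε ≤ 1 / 8) {Q : ℕ}
    (hint : ∀ t ∈ Icc (0:ℝ) 1, ∃ q : ℕ, |a t - q| ≤ ε) (h0 : |a 0 - Q| ≤ 1 / 3) :
    |a 1 - Q| ≤ ε := by
  obtain ⟨q, hq⟩ := hint 1 ⟨zero_le_one, le_rfl⟩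
  rcases lt_trichotomy q Q with hlt | heq | hgt
  · exfalso
    have h1 : (q : ℝ) + 1 ≤ Q := by exact_mod_cast hlt
    have h2 := abs_le.1 hq
    have h3 := abs_le.1 h0
    have hmem : (Q : ℝ) - 1 / 2 ∈ Icc (a 1) (a 0) := ⟨by linarith, by linarith⟩
    obtain ⟨t, ht, hta⟩ := intermediate_value_Icc' zero_le_one ha hmem
    obtain ⟨q', hq'⟩ := hint t ht
    rw [hta] at hq'
    have h4 := abs_le.1 hq'
    rcases lt_or_ge q' Q with h5 | h5
    · have : (q' : ℝ) + 1 ≤ Q := by exact_mod_cast h5
      linarith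
    · have : (Q : ℝ) ≤ q' := by exact_mod_cast h5
      linarith
  · rw [← heq]; exact hq
  · exfalso
    have h1 : (Q : ℝ) + 1 ≤ q := by exact_mod_cast hgt
    have h2 := abs_le.1 hq
    have h3 := abs_le.1 h0
    have hmem : (Q : ℝ) + 1 / 2 ∈ Icc (a 0) (a 1) := ⟨by linarith, by linarith⟩
    obtain ⟨t, ht, hta⟩ := intermediate_value_Icc zero_le_one ha hmem
    obtain ⟨q', hq'⟩ := hint t ht
    rw [hta] at hq'
    have h4 := abs_le.1 hq'
    rcases lt_or_ge Q q' with h5 | h5
    · have : (Q : ℝ) + 1 ≤ q' := by exact_mod_cast h5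
      linarith
    · have : (q' : ℝ) ≤ Q := by exact_mod_cast h5
      linarith

/-- continuity along a segment -/
lemma continuousOn_seg [IsFiniteMeasure ν] (m : ℕ) (T : Submodule ℝ E) (z x : E) {R s : ℝ}
    (hs : 0 < s) (hsR : s ≤ R) :
    ContinuousOn (fun t : ℝ => htot m T ν (z + t • (x - z)) ((R - t * (R - s)) / 2) / cg m)
      (Icc 0 1) := by
  have h2 : Continuous (fun t : ℝ => ((z + t • (x - z), (R - t * (R - s)) / 2) : E × ℝ)) := by
    fun_prop
  have h3 : MapsTo (fun t : ℝ => ((z + t • (x - z), (R - t * (R - s)) / 2) : E × ℝ))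
      (Icc 0 1) {p : E × ℝ | 0 < p.2} := by
    intro t ht
    have h1 := ht.2
    have h2 : 0 ≤ R - s := by linarith
    show 0 < (R - t * (R - s)) / 2
    nlinarith
  have h4 := (continuousOn_htot (ν := ν) m T).comp h2.continuousOn h3
  exact h4.div_const _

/-- **chain**: the number of sheets is the same along a linear family of cylinders of bounded mass
fraction and small excess -/
theorem chain (m Q : ℕ) {M ε : ℝ} (hM : 0 < M) (hε : 0 < ε) : ∃ δ : ℝ, 0 < δ ∧
    ∀ (T : Submodule ℝ E) (G : Set E) (h : ℝ) (ν : Measure E) (P : E → E →L[ℝ] E) (S : Set E)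
      (θ : E → ℕ) (J : E → ℝ), IntCyl m T G h ν P S θ J → ∀ (z x : E) (R s : ℝ), z ∈ T → x ∈ T →
      0 < s → s ≤ R → ‖x - z‖ + s ≤ R → ball z R ⊆ G →
      (∀ t ∈ Icc (0:ℝ) 1,
        ν.real (cyl T (z + t • (x - z)) (R - t * (R - s))) ≤ M * (R - t * (R - s)) ^ m ∧
        exc m T ν P (z + t • (x - z)) (R - t * (R - s)) ≤ δ) →
      |htot m T ν z (R / 2) / cg m - Q| ≤ 1 / 3 → |htot m T ν x (s / 2) / cg m - Q| ≤ ε := by
  obtain ⟨δ, hδ, hN⟩ := near_integer' (E := E) m (M := 2 ^ m * M) (ε := min ε (1 / 8))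
    (by positivity) (lt_min hε (by norm_num))
  refine ⟨δ, hδ, ?_⟩
  intro T G h ν P S θ J hI z x R s hz hx hs hsR hxz hG hyp h0
  have hfin := hI.finite
  have hcont := continuousOn_seg (ν := ν) m T z x hs hsR
  have hint : ∀ t ∈ Icc (0:ℝ) 1, ∃ q : ℕ,
      |htot m T ν (z + t • (x - z)) ((R - t * (R - s)) / 2) / cg m - q| ≤ min ε (1 / 8) := by
    intro t ht
    have hst : s ≤ R - t * (R - s) := by
      have h1 := ht.2
      have h2 : 0 ≤ R - s := by linarith
      nlinarith
    have hst0 : 0 < R - t * (R - s) := hs.trans_le hst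
    obtain ⟨h1, h2⟩ := hyp t ht
    have e1 : 2 * ((R - t * (R - s)) / 2) = R - t * (R - s) := by ring
    have hmem : z + t • (x - z) ∈ T := T.add_mem hz (T.smul_mem _ (T.sub_mem hx hz))
    have hp1 : cyl T (z + t • (x - z)) (2 * ((R - t * (R - s)) / 2)) ⊆ T.starProjection ⁻¹' G := by
      rw [e1]
      intro w hw
      refine hG ?_
      rw [cyl, mem_preimage, mem_ball, Submodule.starProjection_eq_self_iff.2 hmem] at hw
      rw [mem_ball]
      have h3 : dist (z + t • (x - z)) z = t * ‖x - z‖ := by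
        rw [dist_eq_norm, add_sub_cancel_left, norm_smul, Real.norm_of_nonneg ht.1]
      have h4 : t * ‖x - z‖ ≤ t * (R - s) :=
        mul_le_mul_of_nonneg_left (by linarith) ht.1
      have h5 := dist_triangle (T.starProjection w) (z + t • (x - z)) z
      linarith
    have hp2 : ν.real (cyl T (z + t • (x - z)) (2 * ((R - t * (R - s)) / 2)))
        ≤ 2 ^ m * M * ((R - t * (R - s)) / 2) ^ m := by
      rw [e1]
      refine h1.trans (le_of_eq ?_)
      rw [div_pow]; field_simp
    have hp3 : exc m T ν P (z + t • (x - z)) (2 * ((R - t * (R - s)) / 2)) ≤ δ := by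
      rw [e1]; exact h2
    exact hN T G h ν P S θ J (z + t • (x - z)) ((R - t * (R - s)) / 2) hI hmem
      (by linarith) hp1 hp2 hp3
  have h0' : |htot m T ν (z + (0:ℝ) • (x - z)) ((R - 0 * (R - s)) / 2) / cg m - Q| ≤ 1 / 3 := by
    simpa using h0
  have hkey := stay_near hcont (min_le_right _ _) hint h0'
  have e1 : z + (1:ℝ) • (x - z) = x := by rw [one_smul]; abel
  have e2 : (R - 1 * (R - s)) / 2 = s / 2 := by ring
  rw [e1, e2] at hkey
  exact hkey.trans (min_le_left _ _)

end Vale.Agent.P214.INT
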