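import Vale.Agent.P214.INT.ThmT

/-!
# P214, block INT-C: the cone bound at points of maximal density

If the cylinder over `z` at scale `t` carries about `Q` sheets, has small excess, and the ball
ratio at `z` is at least `Q cg` at scale `η t / 8`, then the support over the base ball of radius
`t` has height within `η t` of `z`.
-/

open Set Filter Topology MeasureTheory Metric
open scoped RealInnerProductSpace ENNReal

namespace Vale.Agent.P214.INT

open Vale.Agent.P214 Vale.Agent.P214.FV Vale.Agent.P214.INT.HL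

set_option linter.unusedSectionVars false

variable {E : Type*} [NormedAddCommGroup E] [InnerProductSpace ℝ E] [FiniteDimensional ℝ E]
  [MeasurableSpace E] [BorelSpace E]

variable {T : Submodule ℝ E} {G : Set E} {h : ℝ} {z x y v p : E} {r s t ρ : ℝ} {m : ℕ}
  {ν : Measure E} {P : E → E →L[ℝ] E} {S : Set E} {θ : E → ℕ} {J : E → ℝ}

/-- density at least one almost everywhere -/
lemma IntCyl.densLow (hI : IntCyl m T G h ν P S θ J) :
    DensLow m (T.starProjection ⁻¹' G) ν (cg m) := by
  have h1 : ∀ᵐ y ∂ν, y ∈ S := by rw [ae_iff]; exact hI.nullS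
  filter_upwards [h1] with y hy _ c' hc'
  have h2 : (1:ℝ) ≤ θ y := by exact_mod_cast hI.one_le y hy
  have h3 : c' < θ y * cg m := by have := cg_pos m; nlinarith
  have h4 : ∀ᶠ r in 𝓝[>] (0:ℝ), c' ≤ ratio m ν y r :=
    ((hI.dens y hy).eventually (lt_mem_nhds h3)).mono fun r hr => hr.le
  exact h4.frequently

/-- the ratio at support points -/
lemma IntCyl.cg_le_ratio (hI : IntCyl m T G h ν P S θ J) (hy : y ∈ ν.support) (hr : 0 < r)
    (hb : closedBall y r ⊆ T.starProjection ⁻¹' G) : cg m ≤ ratio m ν y r := by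
  have := hI.finite
  exact hI.loc.ratio_ge hI.densLow hy hr hb

/-- a window centred at `Y`, seen from the base centre `z`: lower bound at the large scale `t` -/
lemma window_lower (hC : CylStat m T G h ν P) {Y : E} (hs : 0 < s) (hst : s ≤ t)
    (hYz : ‖T.starProjection (Y - z)‖ ≤ t) (hG : ball (T.starProjection z) (4 * t) ⊆ G) :
    ratio m ν Y s - (21 * m * (t / s) ^ (m + 2) + 20 * (t / s)) * (tl T ν P z (4 * t) / t ^ m)
      ≤ wf T ν z t Y s / t ^ m := by
  have := hC.fin
  have hl := locStat_of_cylStat hC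
  have ht : 0 < t := hs.trans_le hst
  set L := tl T ν P z (4 * t) with hL
  have hL0 : 0 ≤ L := tl_nonneg
  have hΛ : 1 ≤ t / s := by rw [le_div_iff₀ hs]; linarith
  have hcG : cyl T z (4 * t) ⊆ T.starProjection ⁻¹' G := preimage_mono hG
  -- regions over the segment from `Y` to `z`
  set v := T.starProjection (z - Y) with hv
  have hvT : v ∈ T := T.starProjection_apply_mem _
  have hvv : T.starProjection v = v := Submodule.starProjection_eq_self_iff.2 hvT
  have hvn : ‖v‖ ≤ t := by
    rw [hv, ← neg_sub Y z, map_neg, norm_neg]; exact hYz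
  have hsub : ∀ a ∈ Icc (0:ℝ) 1, reg T (Y + a • v) t Y s ⊆ cyl T z (4 * t) := by
    intro a ha w hw
    rw [mem_cyl]
    have e2 : w - z = (w - (Y + a • v)) + ((Y - z) + a • v) := by abel
    rw [e2, map_add]
    refine (norm_add_le _ _).trans_lt ?_
    have e3 : ‖T.starProjection ((Y - z) + a • v)‖ ≤ t + t := by
      rw [map_add, map_smul, hvv]
      refine (norm_add_le _ _).trans ?_
      have : ‖a • v‖ ≤ ‖v‖ := by
        rw [norm_smul, Real.norm_of_nonneg ha.1]
        exact mul_le_of_le_one_left (norm_nonneg _) ha.2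
      linarith
    have := hw.1
    linarith
  have hbound : ∀ a ∈ Icc (0:ℝ) 1, ∫ y in reg T (Y + a • v) t Y s, tilt P T y ∂ν ≤ L :=
    fun a ha => setIntegral_mono_set (integrable_tilt hl).integrableOn
      (Eventually.of_forall fun _ => tilt_nonneg) (Eventually.of_forall (hsub a ha))
  -- step 1: ball ratio to window at scale `s`
  have h1 := ratio_le_wf (T := T) (ν := ν) (p := Y) (m := m) hs (le_refl s)
  -- step 2: scale transport at `Y`
  have h0 := hsub 0 ⟨le_rfl, zero_le_one⟩
  rw [zero_smul, add_zero] at h0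
  have hb0 := hbound 0 ⟨le_rfl, zero_le_one⟩
  rw [zero_smul, add_zero] at hb0
  have h2 := scale_transport (T := T) (z := Y) (c := Y) hl hC.dimT hs hst hs (h0.trans hcG)
  have h2' : (m * (5 + 16 * t / s) * ∫ y in reg T Y t Y s, tilt P T y ∂ν) / s ^ (m + 1) * (t - s)
      ≤ 21 * m * (t / s) ^ (m + 2) * (L / t ^ m) := by
    have e3 : 5 + 16 * t / s ≤ 21 * (t / s) := by rw [mul_div_assoc]; linarith
    have e4 : 0 ≤ ∫ y in reg T Y t Y s, tilt P T y ∂ν := integral_nonneg fun _ => tilt_nonneg
    have e5 : 0 ≤ t - s := by linarith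
    have e6 : t - s ≤ t := by linarith
    calc _ ≤ (m * (21 * (t / s)) * L) / s ^ (m + 1) * t := by gcongr
      _ = _ := by
        rw [div_pow, pow_succ t (m + 1), pow_succ t m, pow_succ s (m + 1)]
        field_simp
  -- step 3: horizontal transport
  have h3 := wf_translate (T := T) (z := Y) (v := v) (c := Y) hl ht hs hvT
    (fun a ha => (hsub a ha).trans hcG) hbound
  have h3' : (4 / t + 16 / s) * ‖v‖ * L ≤ 20 * (t / s) * (L / t ^ m) * t ^ m := by
    calc (4 / t + 16 / s) * ‖v‖ * L ≤ (4 / t + 16 / s) * t * L := by gcongr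
      _ = (4 + 16 * (t / s)) * L := by field_simp
      _ ≤ 20 * (t / s) * L := by gcongr; linarith
      _ = _ := by field_simp
  have h4 : wf T ν (Y + v) t Y s = wf T ν z t Y s := by
    unfold wf
    have : T.starProjection (Y + v) = T.starProjection z := by
      rw [map_add, hvv, hv, map_sub]; abel
    unfold tst hcut
    rw [this]
  rw [h4] at h3
  have h5 : wf T ν Y t Y s / t ^ m - wf T ν z t Y s / t ^ m ≤ 20 * (t / s) * (L / t ^ m) := by
    rw [← sub_div, div_le_iff₀ (by positivity)]
    have := (abs_le.1 (h3.trans h3')).1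
    linarith
  have h6 := (abs_le.1 (h2.trans h2')).1
  linarith

/-- two disjoint windows -/
lemma two_windows [IsFiniteMeasure ν] {Y : E} (ht : 0 < t) (hs : 0 < s)
    (hsep : 4 * s ≤ ‖Tᗮ.starProjection (Y - z)‖) :
    wf T ν z t z s / t ^ m + wf T ν z t Y s / t ^ m ≤ htot m T ν z t := by
  rw [htot_eq, ← add_div]
  gcongr ?_ / _
  unfold wf
  rw [← integral_add integrable_tst integrable_tst]
  refine integral_mono (integrable_tst.add integrable_tst) (integrable_hcut z t) fun y => ?_
  show tst T z t z s y + tst T z t Y s y ≤ hcut T z t y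
  unfold tst
  rw [← mul_add]
  have h1 := hcut_nonneg (T := T) z t y
  have h2 : vwin T z s y + vwin T Y s y ≤ 1 := by
    by_cases hz : 2 * s ≤ ‖Tᗮ.starProjection (y - z)‖
    · rw [vwin_eq_zero hs hz, zero_add]; exact vwin_le_one _ _ _
    · have hY : 2 * s ≤ ‖Tᗮ.starProjection (y - Y)‖ := by
        by_contra hcon
        rw [not_le] at hz hcon
        have e1 : Tᗮ.starProjection (Y - z)
            = Tᗮ.starProjection (y - z) - Tᗮ.starProjection (y - Y) := by
          rw [← map_sub]; congr 1; abel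
        rw [e1] at hsep
        have := norm_sub_le (Tᗮ.starProjection (y - z)) (Tᗮ.starProjection (y - Y))
        linarith
      rw [vwin_eq_zero hs hY, add_zero]; exact vwin_le_one _ _ _
  nlinarith

/-- mass of a cylinder from the mass fraction at twice the scale -/
lemma mass_le_htot [IsFiniteMeasure ν] (hr : 0 < r) :
    ν.real (cyl T z r) ≤ 2 * htot m T ν z (2 * r) * (2 * r) ^ m := by
  have h1 : htot m T ν z (2 * r) * (2 * r) ^ m = ∫ y, hcut T z (2 * r) y ∂ν := by
    rw [htot_eq]; field_simp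
  rw [mul_assoc, h1]
  have h2 : ∫ y in cyl T z r, (1 / 2 : ℝ) ∂ν ≤ ∫ y, hcut T z (2 * r) y ∂ν := by
    calc ∫ y in cyl T z r, (1 / 2 : ℝ) ∂ν ≤ ∫ y in cyl T z r, hcut T z (2 * r) y ∂ν := by
          refine setIntegral_mono_on (integrable_const _).integrableOn
            (integrable_hcut z (2 * r)).integrableOn (measurableSet_cyl z r) fun y hy => ?_
          rw [mem_cyl, map_sub] at hy
          have := cut_ge (x := T.starProjection z) (y := T.starProjection y) (r := 2 * r)
            (by linarith) (by linarith)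
          unfold hcut; linarith
      _ ≤ ∫ y, hcut T z (2 * r) y ∂ν := setIntegral_le_integral (integrable_hcut z (2 * r))
          (Eventually.of_forall fun y => hcut_nonneg _ _ _)
  rw [setIntegral_const, smul_eq_mul] at h2
  linarith

/-- **cone bound** -/
theorem cone (m : ℕ) {M η : ℝ} (hM : 0 ≤ M) (hη : 0 < η) : ∃ δ : ℝ, 0 < δ ∧
    ∀ (T : Submodule ℝ E) (G : Set E) (h : ℝ) (ν : Measure E) (P : E → E →L[ℝ] E) (S : Set E)
      (θ : E → ℕ) (J : E → ℝ), IntCyl m T G h ν P S θ J → ∀ (Q : ℕ) (z : E) (t : ℝ), 0 < t →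
      ball (T.starProjection z) (4 * t) ⊆ G → ν.real (cyl T z (4 * t)) ≤ M * t ^ m →
      exc m T ν P z (4 * t) ≤ δ → (∀ s, 0 < s → s ≤ t → Q * cg m ≤ ratio m ν z s) →
      htot m T ν z t ≤ (Q + 1 / 3) * cg m →
      ∀ Y ∈ ν.support, ‖T.starProjection (Y - z)‖ ≤ t → ‖Tᗮ.starProjection (Y - z)‖ ≤ η * t := by
  have hcg := cg_pos m
  set η' := min η 1 with hη'
  have hη'0 : 0 < η' := lt_min hη one_pos
  set Λ := 8 / η' with hΛ
  have hΛ0 : 0 ≤ Λ := by positivity
  obtain ⟨δ, hδ, hC⟩ := exists_sqrt_small (C := 2 * (21 * m * Λ ^ (m + 2) + 20 * Λ))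
    (M := M * 4 ^ m) (by positivity) (by positivity) (by positivity : 0 < cg m / 2)
  refine ⟨δ, hδ, ?_⟩
  intro T G h ν P S θ J hI Q z t ht hG hmass hexc hQ htot Y hY hYt
  have hfin := hI.finite
  have hl := hI.loc
  by_contra hcon
  rw [not_le] at hcon
  set s := η' * t / 8 with hs
  have hs0 : 0 < s := by positivity
  have hη'1 : η' ≤ 1 := min_le_right _ _
  have hst : s ≤ t := by rw [hs]; nlinarith
  have hts : t / s = Λ := by rw [hs, hΛ]; field_simp
  have hcG : cyl T z (4 * t) ⊆ T.starProjection ⁻¹' G := preimage_mono hG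
  have hbY : closedBall Y s ⊆ T.starProjection ⁻¹' G := by
    refine Subset.trans ?_ hcG
    intro w hw
    rw [mem_cyl]
    have e1 : w - z = (w - Y) + (Y - z) := by abel
    rw [e1, map_add]
    rw [mem_closedBall, dist_eq_norm] at hw
    have := (T.norm_starProjection_apply_le (w - Y)).trans hw
    refine (norm_add_le _ _).trans_lt ?_
    linarith
  have hYr := hI.cg_le_ratio hY hs0 hbY
  have h1 := window_lower (P := P) (z := z) (Y := z) hI.stat hs0 hst (by simp [ht.le]) hG
  have h2 := window_lower (P := P) (z := z) (Y := Y) hI.stat hs0 hst hYt hG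
  have h3 := two_windows (m := m) (T := T) (ν := ν) (z := z) (Y := Y) ht hs0 (by
    have h4 : η' * t ≤ η * t := by gcongr; exact min_le_left _ _
    have h5 : 0 < η' * t := by positivity
    rw [hs]; linarith)
  have h4 := hQ s hs0 hst
  rw [hts] at h1 h2
  have htl : tl T ν P z (4 * t) / t ^ m ≤ Real.sqrt (M * 4 ^ m * δ) := by
    unfold exc at hexc
    rw [div_le_iff₀ (by positivity)] at hexc
    have h5 := tl_le' hl hmass hexc
    rw [div_le_iff₀ (by positivity)]
    refine h5.trans (le_of_eq ?_)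
    rw [show M * t ^ m * (δ * (4 * t) ^ m) = (M * 4 ^ m * δ) * (t ^ m) ^ 2 by
      rw [mul_pow]; ring]
    rw [Real.sqrt_mul (by positivity), Real.sqrt_sq (by positivity)]
  have herr : (21 * m * Λ ^ (m + 2) + 20 * Λ) * (tl T ν P z (4 * t) / t ^ m) ≤ cg m / 4 := by
    have h6 : (21 * m * Λ ^ (m + 2) + 20 * Λ) * (tl T ν P z (4 * t) / t ^ m)
        ≤ (21 * m * Λ ^ (m + 2) + 20 * Λ) * Real.sqrt (M * 4 ^ m * δ) := by gcongr
    linarith
  linarith

end Vale.Agent.P214.INT
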