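import Vale.Agent.P214.Bdl.B1

/-! Integral of the rescaled, translated cut-off over an `m`-plane. -/

open Set Filter Topology MeasureTheory Metric
open scoped RealInnerProductSpace ENNReal

set_option linter.all false

namespace Vale.Agent.P214.INT

open Vale.Agent.P214

variable {E : Type*} [NormedAddCommGroup E] [InnerProductSpace ℝ E] [FiniteDimensional ℝ E]
  [MeasurableSpace E] [BorelSpace E]

/-- parametrisation of integrals over an `m`-plane -/
lemma exists_plane_param {m : ℕ} {T : Submodule ℝ E} (hT : Module.finrank ℝ T = m) :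
    ∃ i : EuclideanSpace ℝ (Fin m) →ₗᵢ[ℝ] E, range i = (T : Set E) ∧
      ∀ f : E → ℝ, Continuous f → ∫ y in (T : Set E), f y ∂μH[m] =
        ∫ p, f (i p) ∂(μH[m] : Measure (EuclideanSpace ℝ (Fin m))) := by
  let b := (stdOrthonormalBasis ℝ T).reindex (finCongr hT)
  let i : EuclideanSpace ℝ (Fin m) →ₗᵢ[ℝ] E :=
    T.subtypeₗᵢ.comp b.repr.symm.toLinearIsometry
  have hrange : range i = (T : Set E) := by
    ext y
    constructor
    · rintro ⟨p, rfl⟩; exact (b.repr.symm p).2
    · intro hy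
      exact ⟨b.repr ⟨y, hy⟩, by simp [i]⟩
  refine ⟨i, hrange, fun f hf => ?_⟩
  have h1 := i.isometry.map_hausdorffMeasure (d := (m : ℝ)) (Or.inl (Nat.cast_nonneg m))
  rw [← hrange, ← h1]
  rw [integral_map i.continuous.measurable.aemeasurable hf.aestronglyMeasurable]

lemma haar_euclid (m : ℕ) : (μH[m] : Measure (EuclideanSpace ℝ (Fin m))).IsAddHaarMeasure := by
  have h1 : ((Module.finrank ℝ (EuclideanSpace ℝ (Fin m)) : ℕ) : ℝ) = m := by simp
  rw [← h1]
  infer_instance

/-- **the cut-off integral over a plane** -/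
theorem integral_cut_plane {m : ℕ} {T : Submodule ℝ E} (hT : Module.finrank ℝ T = m) {z : E}
    (hz : z ∈ T) {r : ℝ} (hr : 0 < r) :
    ∫ y in (T : Set E), cut z r y ∂μH[m] = cg m * r ^ m := by
  obtain ⟨i, hi, hint⟩ := exists_plane_param (E := E) hT
  rw [hint _ (continuous_cut z r)]
  obtain ⟨p₀, rfl⟩ : z ∈ range i := by rw [hi]; exact hz
  haveI := haar_euclid m
  have e1 : ∀ p, cut (i p₀) r (i p) = (fun q : EuclideanSpace ℝ (Fin m) => prof (‖r⁻¹ • q‖ ^ 2)) (p - p₀) := by
    intro p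
    unfold cut
    rw [← map_sub, i.norm_map]
    show prof (‖p - p₀‖ ^ 2 / r ^ 2) = prof (‖r⁻¹ • (p - p₀)‖ ^ 2)
    rw [norm_smul, norm_inv, Real.norm_of_nonneg hr.le]
    congr 1
    field_simp
  simp only [e1]
  rw [integral_sub_right_eq_self (fun q : EuclideanSpace ℝ (Fin m) => prof (‖r⁻¹ • q‖ ^ 2)) p₀]
  rw [Measure.integral_comp_smul (μH[m] : Measure (EuclideanSpace ℝ (Fin m)))
    (fun q => prof (‖q‖ ^ 2)) r⁻¹]
  rw [finrank_euclideanSpace_fin]
  have : |(r⁻¹ ^ m)⁻¹| = r ^ m := by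
    rw [inv_pow, inv_inv, abs_of_pos (by positivity)]
  rw [this, smul_eq_mul, mul_comm]
  rfl

/-- `lintegral` version -/
theorem lintegral_cut_plane {m : ℕ} {T : Submodule ℝ E} (hT : Module.finrank ℝ T = m) {z : E}
    (hz : z ∈ T) {r : ℝ} (hr : 0 < r) :
    ∫⁻ y in (T : Set E), ENNReal.ofReal (cut z r y) ∂μH[m] = ENNReal.ofReal (cg m * r ^ m) := by
  rw [← integral_cut_plane hT hz hr]
  rw [ofReal_integral_eq_lintegral_ofReal ?_ (Eventually.of_forall fun y => cut_nonneg z r y)]
  by_contra h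
  have h0 := integral_undef h
  rw [integral_cut_plane hT hz hr] at h0
  have : 0 < cg m * r ^ m := by have := cg_pos m; positivity
  linarith

end Vale.Agent.P214.INT
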