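import Mathlib.Topology.MetricSpace.Basic
import Mathlib.Data.Finset.Powerset
import Mathlib.Tactic

/-! The ladder lemma: a finite set splits into tight, well separated clusters at one of finitely
many geometric thresholds. -/

namespace Vale.Agent.P214.INT

variable {X : Type*} [MetricSpace X]

/-- pairwise distance at least `t` -/
def Sep (t : ℝ) (B : Finset X) : Prop := ∀ a ∈ B, ∀ b ∈ B, a ≠ b → t ≤ dist a b

open Classical in
/-- maximal cardinality of a `t`-separated subset -/
noncomputable def sepNum (A : Finset X) (t : ℝ) : ℕ :=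
  (A.powerset.filter (Sep t)).sup Finset.card

lemma le_sepNum {A B : Finset X} {t : ℝ} (hB : B ⊆ A) (h : Sep t B) : B.card ≤ sepNum A t := by
  classical
  unfold sepNum
  exact Finset.le_sup (f := Finset.card) (Finset.mem_filter.2 ⟨Finset.mem_powerset.2 hB, h⟩)

lemma exists_sepNum (A : Finset X) (t : ℝ) :
    ∃ B ⊆ A, Sep t B ∧ B.card = sepNum A t := by
  classical
  unfold sepNum
  have hne : (A.powerset.filter (Sep t)).Nonempty :=
    ⟨∅, Finset.mem_filter.2 ⟨Finset.empty_mem_powerset A, by intro a ha; simp at ha⟩⟩
  obtain ⟨B, hB, hBc⟩ := Finset.exists_mem_eq_sup _ hne Finset.card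
  rw [Finset.mem_filter, Finset.mem_powerset] at hB
  exact ⟨B, hB.1, hB.2, hBc.symm⟩

lemma sepNum_le (A : Finset X) (t : ℝ) : sepNum A t ≤ A.card := by
  obtain ⟨B, hB, -, hc⟩ := exists_sepNum A t
  rw [← hc]; exact Finset.card_le_card hB

/-- **ladder lemma** -/
theorem ladder {A : Finset X} {k : ℕ} (hA : A.card ≤ k) (hne : A.Nonempty) {d η : ℝ} (hd : 0 < d)
    (h0 : 0 < η) (h1 : η ≤ 1) :
    ∃ l < k, ∃ B ⊆ A, B.Nonempty ∧ Sep (η ^ l * d) B
      ∧ (∀ a ∈ A, ∃ b ∈ B, dist a b < η * (η ^ l * d))
      ∧ ((∃ a ∈ A, ∃ b ∈ A, d ≤ dist a b) → 2 ≤ B.card) := by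
  classical
  set N : ℕ → ℕ := fun l => sepNum A (η ^ l * d) with hN
  have hex : ∃ l < k, N (l + 1) ≤ N l := by
    by_contra hcon
    push Not at hcon
    have hinc : ∀ l ≤ k, l + 1 ≤ N l := by
      intro l
      induction l with
      | zero =>
        intro _
        obtain ⟨a, ha⟩ := hne
        have : ({a} : Finset X).card ≤ N 0 := le_sepNum (by simpa using ha) (by
          intro x hx y hy hxy
          rw [Finset.mem_singleton] at hx hy
          exact absurd (hx.trans hy.symm) hxy)
        simpa using this
      | succ l ih =>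
        intro hl
        have := ih (by omega)
        have := hcon l (by omega)
        omega
    have h2 := hinc k le_rfl
    have h3 := sepNum_le A (η ^ k * d)
    simp only [hN] at h2
    omega
  obtain ⟨l, hlk, hl⟩ := hex
  obtain ⟨B, hBA, hBs, hBc⟩ := exists_sepNum A (η ^ l * d)
  have hpow : 0 < η ^ l * d := by positivity
  have hle : η ^ (l + 1) * d ≤ η ^ l * d := by
    rw [pow_succ]; nlinarith
  have hcov : ∀ a ∈ A, ∃ b ∈ B, dist a b < η * (η ^ l * d) := by
    intro a ha
    by_contra hcon
    push Not at hcon
    have heq : η * (η ^ l * d) = η ^ (l + 1) * d := by ring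
    rw [heq] at hcon
    have hpow' : 0 < η ^ (l + 1) * d := by positivity
    have haB : a ∉ B := by
      intro haB
      have := hcon a haB
      rw [dist_self] at this; linarith
    have h4 : (insert a B).card ≤ N (l + 1) := by
      refine le_sepNum (Finset.insert_subset ha hBA) ?_
      intro x hx y hy hxy
      rw [Finset.mem_insert] at hx hy
      rcases hx with rfl | hx
      · rcases hy with rfl | hy
        · exact absurd rfl hxy
        · exact hcon y hy
      · rcases hy with rfl | hy
        · rw [dist_comm]; exact hcon x hx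
        · exact hle.trans (hBs x hx y hy hxy)
    rw [Finset.card_insert_of_notMem haB, hBc] at h4
    simp only [hN] at hl h4
    omega
  refine ⟨l, hlk, B, hBA, ?_, hBs, hcov, ?_⟩
  · obtain ⟨a, ha⟩ := hne
    obtain ⟨b, hb, -⟩ := hcov a ha
    exact ⟨b, hb⟩
  · rintro ⟨a, ha, b, hb, hab⟩
    have hne' : a ≠ b := by
      rintro rfl; rw [dist_self] at hab; linarith
    have h5 : ({a, b} : Finset X).card ≤ sepNum A (η ^ l * d) := by
      refine le_sepNum ?_ ?_
      · intro x hx
        rw [Finset.mem_insert, Finset.mem_singleton] at hx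
        rcases hx with rfl | rfl <;> assumption
      · have hdl : η ^ l * d ≤ d := by
          have := pow_le_one₀ h0.le h1 (n := l)
          nlinarith
        intro x hx y hy hxy
        rw [Finset.mem_insert, Finset.mem_singleton] at hx hy
        rcases hx with rfl | rfl <;> rcases hy with rfl | rfl
        · exact absurd rfl hxy
        · linarith
        · rw [dist_comm]; linarith
        · exact absurd rfl hxy
    rw [Finset.card_pair hne', ← hBc] at h5
    exact h5

end Vale.Agent.P214.INT
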