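import Vale.Agent.P214.INT.I2
import Vale.Agent.P214.INT.Ladder

/-!
# P214, block INT: additivity of densities in a fibre

If finitely many points over the same base point all have small ball excess at all scales, then
the sum of their densities is at most the mass fraction of the cylinder, up to `ε`
(`fibre_sum_le`).
-/

open Set Filter Topology MeasureTheory Metric
open scoped RealInnerProductSpace

namespace Vale.Agent.P214.INT

open Vale.Agent.P214

set_option linter.unusedSectionVars false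

variable {E : Type*} [NormedAddCommGroup E] [InnerProductSpace ℝ E] [FiniteDimensional ℝ E]
  [MeasurableSpace E] [BorelSpace E]

/-- a point with small ball excess at all scales up to `R`, mass ratio at most `M`, density at
least `q` -/
structure Good (m : ℕ) (T : Submodule ℝ E) (O : Set E) (ν : Measure E) (P : E → E →L[ℝ] E)
    (R M δ : ℝ) (p : E) (q : ℝ) : Prop where
  ball : closedBall p R ⊆ O
  mass : ratio m ν p R ≤ M
  exc : ∀ s, 0 < s → s ≤ R → ∫ y in closedBall p s, tilt P T y ^ 2 ∂ν ≤ δ * s ^ m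
  low : ∀ s, 0 < s → s ≤ R → q ≤ ratio m ν p s

variable {T : Submodule ℝ E} {x y p : E} {r s R M δ q : ℝ} {m : ℕ} {O : Set E} {ν : Measure E}
  {P : E → E →L[ℝ] E}

lemma Good.mono (hG : Good m T O ν P R M δ p q) {δ' : ℝ} (h : δ ≤ δ') :
    Good m T O ν P R M δ' p q := by
  refine ⟨hG.ball, hG.mass, fun s hs hsR => (hG.exc s hs hsR).trans ?_, hG.low⟩
  gcongr

lemma reg_subset (hr : 0 < r) (hs : 0 < s) : reg T p r p s ⊆ closedBall p (r + 2 * s) := by
  intro y hy
  rw [mem_closedBall, dist_eq_norm]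
  have h1 : y - p = T.starProjection (y - p) + Tᗮ.starProjection (y - p) :=
    (T.starProjection_add_starProjection_orthogonal (y - p)).symm
  rw [h1]
  exact (norm_add_le _ _).trans (add_le_add hy.1 hy.2)

/-- mass of balls around good points -/
lemma Good.ball_mass [IsFiniteMeasure ν] (h : LocStat m O ν P) (hG : Good m T O ν P R M δ p q)
    {ρ : ℝ} (hρ : 0 < ρ) (hρR : 2 * ρ ≤ R) :
    ν.real (closedBall p ρ) ≤ 4 * (2 * ρ) ^ m * M := by
  have h1 := measureReal_ball_le (ν := ν) (x := p) hρ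
  have h2 : ratio m ν p (2 * ρ) ≤ M :=
    (h.ratio_mono (by linarith) hρR hG.ball).trans hG.mass
  unfold ratio at h2
  rw [div_le_iff₀ (by positivity)] at h2
  calc _ ≤ _ := h1
    _ ≤ 4 * (M * (2 * ρ) ^ m) := by gcongr
    _ = _ := by ring

lemma Good.mass_nonneg (hG : Good m T O ν P R M δ p q) (hR : 0 < R) : 0 ≤ M :=
  (ratio_nonneg hR).trans hG.mass

/-- the transport error -/
noncomputable def ctr (m : ℕ) (Λ : ℝ) : ℝ := 42 * m * 6 ^ m * Λ ^ (m + 2)

lemma ctr_nonneg {Λ : ℝ} (h : 0 ≤ Λ) : 0 ≤ ctr m Λ := by unfold ctr; positivity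

lemma ctr_mono {Λ Λ' : ℝ} (h : 0 ≤ Λ) (h' : Λ ≤ Λ') : ctr m Λ ≤ ctr m Λ' := by
  unfold ctr; gcongr

/-- transport of a window centred at a good point from horizontal scale `s` to `r` -/
lemma Good.transport [IsFiniteMeasure ν] (h : LocStat m O ν P) (hT : Module.finrank ℝ T = m)
    (hG : Good m T O ν P R M δ p q) (hδ : 0 ≤ δ) (hs : 0 < s) (hsr : s ≤ r) (hrR : 6 * r ≤ R) :
    |wf T ν p r p s / r ^ m - wf T ν p s p s / s ^ m| ≤ ctr m (r / s) * Real.sqrt (M * δ) := by
  have hr : 0 < r := hs.trans_le hsr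
  have hM : 0 ≤ M := hG.mass_nonneg (by linarith)
  have hsub : reg T p r p s ⊆ closedBall p (3 * r) :=
    (reg_subset hr hs).trans (closedBall_subset_closedBall (by linarith))
  have hO : reg T p r p s ⊆ O :=
    hsub.trans ((closedBall_subset_closedBall (by linarith)).trans hG.ball)
  have h1 := scale_transport (T := T) (z := p) (c := p) h hT hs hsr hs hO
  have h2 : ∫ y in reg T p r p s, tilt P T y ∂ν ≤ 2 * 6 ^ m * r ^ m * Real.sqrt (M * δ) := by
    calc ∫ y in reg T p r p s, tilt P T y ∂ν ≤ ∫ y in closedBall p (3 * r), tilt P T y ∂ν :=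
          setIntegral_mono_set (integrable_tilt h).integrableOn
            (Eventually.of_forall fun _ => tilt_nonneg) (Eventually.of_forall hsub)
      _ ≤ Real.sqrt (ν.real (closedBall p (3 * r)))
            * Real.sqrt (∫ y in closedBall p (3 * r), tilt P T y ^ 2 ∂ν) := setIntegral_tilt_le h _
      _ ≤ Real.sqrt (4 * (2 * (3 * r)) ^ m * M) * Real.sqrt (δ * (3 * r) ^ m) := by
          have e1 := hG.ball_mass h (ρ := 3 * r) (by linarith) (by linarith)
          have e2 := hG.exc (3 * r) (by linarith) (by linarith)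
          gcongr
      _ = Real.sqrt ((2 * ((3:ℝ) ^ m * r ^ m)) ^ 2 * (2 ^ m * (M * δ))) := by
          rw [← Real.sqrt_mul (by positivity)]
          congr 1
          rw [mul_pow, mul_pow]; ring
      _ = 2 * ((3:ℝ) ^ m * r ^ m) * Real.sqrt (2 ^ m * (M * δ)) := by
          rw [Real.sqrt_mul (by positivity), Real.sqrt_sq (by positivity)]
      _ ≤ 2 * ((3:ℝ) ^ m * r ^ m) * (2 ^ m * Real.sqrt (M * δ)) := by
          gcongr
          rw [Real.sqrt_mul (by positivity)]
          gcongr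
          rw [Real.sqrt_le_left (by positivity)]
          have : (1:ℝ) ≤ 2 ^ m := one_le_pow₀ (by norm_num)
          nlinarith
      _ = _ := by
          have : (6:ℝ) ^ m = 3 ^ m * 2 ^ m := by rw [← mul_pow]; norm_num
          rw [this]; ring
  refine h1.trans ?_
  have hΛ : 1 ≤ r / s := by rw [le_div_iff₀ hs]; linarith
  calc (m * (5 + 16 * r / s) * ∫ y in reg T p r p s, tilt P T y ∂ν) / s ^ (m + 1) * (r - s)
      ≤ (m * (21 * (r / s)) * (2 * 6 ^ m * r ^ m * Real.sqrt (M * δ))) / s ^ (m + 1) * r := by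
        have e3 : 5 + 16 * r / s ≤ 21 * (r / s) := by
          rw [mul_div_assoc]; linarith
        have e4 : 0 ≤ ∫ y in reg T p r p s, tilt P T y ∂ν :=
          integral_nonneg fun _ => tilt_nonneg
        have e5 : 0 ≤ r - s := by linarith
        gcongr
        linarith
    _ = ctr m (r / s) * Real.sqrt (M * δ) := by
        unfold ctr
        rw [div_pow]
        field_simp
        ring

/-- disjoint windows -/
lemma sum_vwin_le {B : Finset E} (hs : 0 < s)
    (hsep : ∀ b ∈ B, ∀ b' ∈ B, b ≠ b' → 4 * s ≤ ‖Tᗮ.starProjection (b - b')‖) {V : ℝ} (hV0 : 0 ≤ V)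
    (hV : ∀ b ∈ B, ‖Tᗮ.starProjection (y - b)‖ < 2 * s → 1 ≤ V) :
    ∑ b ∈ B, vwin T b s y ≤ V := by
  by_cases hex : ∃ b ∈ B, ‖Tᗮ.starProjection (y - b)‖ < 2 * s
  · obtain ⟨b, hb, hyb⟩ := hex
    have h1 : ∀ b' ∈ B, b' ≠ b → vwin T b' s y = 0 := by
      intro b' hb' hne
      apply vwin_eq_zero hs
      by_contra hcon
      rw [not_le] at hcon
      have h2 := hsep b' hb' b hb hne
      have h3 : Tᗮ.starProjection (b' - b)
          = Tᗮ.starProjection (y - b) - Tᗮ.starProjection (y - b') := by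
        rw [← map_sub]; congr 1; abel
      rw [h3] at h2
      have := norm_sub_le (Tᗮ.starProjection (y - b)) (Tᗮ.starProjection (y - b'))
      linarith
    rw [Finset.sum_eq_single_of_mem b hb h1]
    exact (vwin_le_one _ _ _).trans (hV b hb hyb)
  · push Not at hex
    rw [Finset.sum_eq_zero fun b hb => vwin_eq_zero hs (hex b hb)]
    exact hV0

lemma perp_sub {a b : E} (h : T.starProjection a = T.starProjection b) :
    Tᗮ.starProjection (a - b) = a - b := by
  have h1 := T.starProjection_add_starProjection_orthogonal (a - b)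
  rw [map_sub, h, sub_self, zero_add] at h1
  exact h1

lemma hcut_congr {a b : E} (h : T.starProjection a = T.starProjection b) (r : ℝ) :
    hcut T a r y = hcut T b r y := by unfold hcut; rw [h]

/-- sum of window functionals with disjoint windows -/
lemma sum_wf_le [IsFiniteMeasure ν] {B : Finset E} (hs : 0 < s) (hr : 0 < r)
    (hB : ∀ b ∈ B, T.starProjection b = T.starProjection x)
    (hsep : ∀ b ∈ B, ∀ b' ∈ B, b ≠ b' → 4 * s ≤ dist b b') {F : E → ℝ} (hF : Integrable F ν)
    (hF1 : ∀ y, 0 ≤ F y)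
    (hF2 : ∀ y, ∀ b ∈ B, ‖Tᗮ.starProjection (y - b)‖ < 2 * s → hcut T x r y ≤ F y) :
    ∑ b ∈ B, wf T ν b r b s / r ^ m ≤ (∫ y, F y ∂ν) / r ^ m := by
  rw [← Finset.sum_div]
  gcongr ?_ / _
  unfold wf
  rw [← integral_finsetSum _ fun b _ => integrable_tst]
  refine integral_mono (integrable_finsetSum _ fun b _ => integrable_tst) hF fun y => ?_
  have h1 : ∑ b ∈ B, tst T b r b s y = hcut T x r y * ∑ b ∈ B, vwin T b s y := by
    rw [Finset.mul_sum]
    refine Finset.sum_congr rfl fun b hb => ?_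
    unfold tst; rw [hcut_congr (hB b hb)]
  show ∑ b ∈ B, tst T b r b s y ≤ F y
  rw [h1]
  have hsep' : ∀ b ∈ B, ∀ b' ∈ B, b ≠ b' → 4 * s ≤ ‖Tᗮ.starProjection (b - b')‖ := by
    intro b hb b' hb' hne
    rw [perp_sub ((hB b hb).trans (hB b' hb').symm), ← dist_eq_norm]
    exact hsep b hb b' hb' hne
  by_cases hex : ∃ b ∈ B, ‖Tᗮ.starProjection (y - b)‖ < 2 * s
  · obtain ⟨b, hb, hyb⟩ := hex
    have h2 := sum_vwin_le (y := y) (V := 1) hs hsep' zero_le_one fun _ _ _ => le_rfl
    have h3 := hcut_nonneg (T := T) x r y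
    have h4 := hF2 y b hb hyb
    nlinarith
  · push Not at hex
    rw [Finset.sum_eq_zero fun b hb => vwin_eq_zero hs (hex b hb), mul_zero]
    exact hF1 y

lemma exists_sqrt_small {C M ε : ℝ} (hC : 0 ≤ C) (hM : 0 ≤ M) (hε : 0 < ε) :
    ∃ δ > 0, C * Real.sqrt (M * δ) ≤ ε := by
  refine ⟨(ε / (C + 1)) ^ 2 / (M + 1), by positivity, ?_⟩
  have h1 : M * ((ε / (C + 1)) ^ 2 / (M + 1)) ≤ (ε / (C + 1)) ^ 2 := by
    rw [← mul_div_assoc, div_le_iff₀ (by positivity)]
    nlinarith [sq_nonneg (ε / (C + 1))]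
  have h2 : Real.sqrt (M * ((ε / (C + 1)) ^ 2 / (M + 1))) ≤ ε / (C + 1) := by
    rw [Real.sqrt_le_left (by positivity)]; exact h1
  calc C * Real.sqrt (M * ((ε / (C + 1)) ^ 2 / (M + 1))) ≤ C * (ε / (C + 1)) := by gcongr
    _ ≤ ε := by
      rw [← mul_div_assoc, div_le_iff₀ (by positivity)]; nlinarith

/-- the clusters of a ladder: partition of `A` and the basic inequality -/
lemma cluster_sum [IsFiniteMeasure ν] (h : LocStat m O ν P) (hT : Module.finrank ℝ T = m)
    {A B : Finset E} {t : ℝ} (ht : 0 < t) {K₀ η δ₀ ε' Λ : ℝ} (hK₀ : 1 ≤ K₀) (hη : η = 1 / (16 * K₀))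
    (hBA : B ⊆ A) (hsep : Sep t B) (hcov : ∀ a ∈ A, ∃ b ∈ B, dist a b < η * t)
    {q : E → ℝ} {R M δ : ℝ} (hδ : 0 ≤ δ)
    (hbase : ∀ p ∈ A, T.starProjection p = T.starProjection x)
    (hG : ∀ p ∈ A, Good m T O ν P R M δ p (q p))
    (hS : ∀ b ∈ B, ∀ A' ⊆ A, b ∈ A' → (∀ b' ∈ B, b' ∈ A' → b' = b) →
      (∀ a ∈ A', ∀ a' ∈ A', dist a a' ≤ 2 * (η * t)) →
      ∑ a ∈ A', q a - ε' ≤ ratio m ν b (t / 8))
    (hr : 0 < r) (htr : t / 8 ≤ r) (hrR : 6 * r ≤ R) (hΛ : r / (t / 8) ≤ Λ)
    {F : E → ℝ} (hF : Integrable F ν)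
    (hF1 : ∀ y, 0 ≤ F y)
    (hF2 : ∀ y, ∀ b ∈ B, ‖Tᗮ.starProjection (y - b)‖ < 2 * (t / 8) → hcut T x r y ≤ F y) :
    ∑ a ∈ A, q a ≤ (∫ y, F y ∂ν) / r ^ m
      + B.card * (ε' + ctr m Λ * Real.sqrt (M * δ)) := by
  classical
  have hη0 : 0 < η := by rw [hη]; positivity
  have hη1 : η ≤ 1 / 16 := by
    rw [hη]
    exact one_div_le_one_div_of_le (by norm_num) (by linarith)
  choose! f hfB hfd using hcov
  have hfb : ∀ b ∈ B, f b = b := by
    intro b hb
    by_contra hne
    have h1 := hsep b hb (f b) (hfB b (hBA hb)) (fun e => hne e.symm)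
    have h2 := hfd b (hBA hb)
    nlinarith
  have hpart : ∑ a ∈ A, q a = ∑ b ∈ B, ∑ a ∈ A with f a = b, q a :=
    (Finset.sum_fiberwise_of_maps_to hfB q).symm
  have hone : ∀ b ∈ B, ∑ a ∈ A with f a = b, q a
      ≤ wf T ν b r b (t / 8) / r ^ m + (ε' + ctr m Λ * Real.sqrt (M * δ)) := by
    intro b hb
    have h1 := hS b hb (A.filter fun a => f a = b) (Finset.filter_subset _ _)
      (Finset.mem_filter.2 ⟨hBA hb, hfb b hb⟩)
      (fun b' hb' hb'A => by rw [Finset.mem_filter] at hb'A; rw [← hfb b' hb']; exact hb'A.2)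
      (fun a ha a' ha' => by
        rw [Finset.mem_filter] at ha ha'
        have e1 := hfd a ha.1
        have e2 := hfd a' ha'.1
        rw [ha.2] at e1
        rw [ha'.2] at e2
        have := dist_triangle_right a a' b
        linarith)
    have h2 := ratio_le_wf (T := T) (ν := ν) (p := b) (m := m) (r := t / 8) (s := t / 8)
      (by positivity) le_rfl
    have h3 := (hG b (hBA hb)).transport h hT hδ (by positivity : 0 < t / 8) htr hrR
    have h4 : ctr m (r / (t / 8)) * Real.sqrt (M * δ) ≤ ctr m Λ * Real.sqrt (M * δ) := by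
      have := ctr_mono (m := m) (by positivity : 0 ≤ r / (t / 8)) hΛ
      gcongr
    have h5 := (abs_le.1 h3).1
    linarith
  rw [hpart]
  calc ∑ b ∈ B, ∑ a ∈ A with f a = b, q a
      ≤ ∑ b ∈ B, (wf T ν b r b (t / 8) / r ^ m + (ε' + ctr m Λ * Real.sqrt (M * δ))) :=
        Finset.sum_le_sum hone
    _ = ∑ b ∈ B, wf T ν b r b (t / 8) / r ^ m
        + B.card * (ε' + ctr m Λ * Real.sqrt (M * δ)) := by
        rw [Finset.sum_add_distrib, Finset.sum_const, nsmul_eq_mul]
    _ ≤ _ := by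
        gcongr
        refine sum_wf_le (x := x) (by positivity) hr (fun b hb => hbase b (hBA hb)) ?_ hF hF1 hF2
        intro b hb b' hb' hne
        have := hsep b hb b' hb' hne
        linarith

end Vale.Agent.P214.INT
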