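import Vale.Agent.P214.INT.Fibre

/-!
# P214, block INT: additivity of densities in a fibre, the two inductions
-/

open Set Filter Topology MeasureTheory Metric
open scoped RealInnerProductSpace

namespace Vale.Agent.P214.INT

open Vale.Agent.P214

set_option linter.unusedSectionVars false

variable {E : Type*} [NormedAddCommGroup E] [InnerProductSpace ℝ E] [FiniteDimensional ℝ E]
  [MeasurableSpace E] [BorelSpace E]

lemma eta_bound {K₀ η t : ℝ} (hη : η = 1 / (16 * K₀)) (hK₀ : 1 ≤ K₀) :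
    K₀ * (2 * (η * t)) ≤ t / 8 := by
  rw [hη]
  apply le_of_eq
  field_simp
  ring

lemma K_bound {m : ℕ} {M ε K : ℝ} (hε : 0 < ε) (hM : 0 ≤ M)
    (hK : K = 2 + 384 * 6 ^ m * M / ε) : 8 * (2 / K) ^ 2 * (4 * 6 ^ m * M) ≤ ε / 3 := by
  have hK0 : 0 ≤ 384 * 6 ^ m * M / ε := by positivity
  have hK2 : 2 ≤ K := by linarith
  have hKp : 0 < K := by linarith
  have e3 : (2 / K) ^ 2 ≤ 4 / K := by
    rw [div_pow, div_le_div_iff₀ (by positivity) hKp]
    nlinarith
  have e4 : 384 * 6 ^ m * M ≤ K * ε := by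
    have : 384 * 6 ^ m * M / ε ≤ K := by linarith
    rwa [div_le_iff₀ hε] at this
  calc 8 * (2 / K) ^ 2 * (4 * 6 ^ m * M)
      ≤ 8 * (4 / K) * (4 * 6 ^ m * M) := by gcongr
    _ ≤ ε / 3 := by
        rw [show 8 * (4 / K) * (4 * 6 ^ m * M) = (128 * 6 ^ m * M) / K by ring,
          div_le_iff₀ hKp]
        linarith

/-- **S(k)**: the ball ratio at one point of a tight fibre cluster sees all densities -/
theorem fibre_S (m k : ℕ) : ∀ (M ε : ℝ), 0 ≤ M → 0 < ε → ∃ K δ : ℝ, 1 ≤ K ∧ 0 < δ ∧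
    ∀ (O : Set E) (ν : Measure E) (P : E → E →L[ℝ] E) (T : Submodule ℝ E) [IsFiniteMeasure ν],
      LocStat m O ν P → Module.finrank ℝ T = m → ∀ (x : E) (R : ℝ) (q : E → ℝ) (A : Finset E),
      A.card ≤ k → (∀ p ∈ A, T.starProjection p = T.starProjection x) →
      (∀ p ∈ A, Good m T O ν P R M δ p (q p)) → ∀ D, (∀ a ∈ A, ∀ b ∈ A, dist a b ≤ D) →
      ∀ r, 0 < r → K * D ≤ r → 12 * r ≤ R → ∀ p ∈ A, ∑ a ∈ A, q a - ε ≤ ratio m ν p r := by
  induction k with
  | zero =>
    intro M ε hM hε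
    refine ⟨1, 1, le_rfl, one_pos, ?_⟩
    intro O ν P T _ h hT x R q A hA _ _ D _ r _ _ _ p hp
    have : A = ∅ := Finset.card_eq_zero.1 (by omega)
    rw [this] at hp; simp at hp
  | succ k ih =>
    intro M ε hM hε
    obtain ⟨K₀, δ₀, hK₀, hδ₀, hS⟩ := ih M (ε / (3 * (k + 1))) hM (by positivity)
    set η : ℝ := 1 / (16 * K₀) with hη
    have hη0 : 0 < η := by positivity
    have hη1 : η ≤ 1 / 16 := one_div_le_one_div_of_le (by norm_num) (by linarith)
    set K : ℝ := 2 + 384 * 6 ^ m * M / ε with hK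
    have hK2 : 2 ≤ K := by
      have : 0 ≤ 384 * 6 ^ m * M / ε := by positivity
      linarith
    set Λ : ℝ := 8 * K / η ^ (k + 1) with hΛ
    have hΛ0 : 0 ≤ Λ := by positivity
    obtain ⟨δ₁, hδ₁, hC⟩ := exists_sqrt_small (C := ctr m Λ) (ctr_nonneg hΛ0) hM
      (by positivity : 0 < ε / (3 * (k + 1)))
    refine ⟨K, min δ₀ δ₁, by linarith, lt_min hδ₀ hδ₁, ?_⟩
    intro O ν P T _ h hT x R q A hA hbase hG D hD r hr hKr hrR p hp
    by_cases hex : ∃ a ∈ A, ∃ b ∈ A, a ≠ b
    swap
    · push Not at hex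
      have hAp : A = {p} := by
        ext a
        rw [Finset.mem_singleton]
        exact ⟨fun ha => hex a ha p hp, fun ha => ha ▸ hp⟩
      rw [hAp, Finset.sum_singleton]
      have := (hG p hp).low r hr (by linarith)
      linarith
    -- the diameter is attained
    obtain ⟨a₀, ha₀, b₀, hb₀, hab₀⟩ := hex
    obtain ⟨⟨a₁, b₁⟩, hab₁, hmax⟩ := Finset.exists_max_image (A ×ˢ A)
      (fun z : E × E => dist z.1 z.2) ⟨(a₀, b₀), Finset.mem_product.2 ⟨ha₀, hb₀⟩⟩
    rw [Finset.mem_product] at hab₁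
    set d := dist a₁ b₁ with hd
    have hmax' : ∀ a ∈ A, ∀ b ∈ A, dist a b ≤ d := fun a ha b hb =>
      hmax (a, b) (Finset.mem_product.2 ⟨ha, hb⟩)
    have hd0 : 0 < d := (dist_pos.2 hab₀).trans_le (hmax' a₀ ha₀ b₀ hb₀)
    have hdD : d ≤ D := hD a₁ hab₁.1 b₁ hab₁.2
    obtain ⟨l, hl, B, hBA, hBne, hsep, hcov, hcard⟩ := ladder hA ⟨p, hp⟩ hd0 hη0
      (by linarith : η ≤ 1)
    have hB2 : 2 ≤ B.card := hcard ⟨a₁, hab₁.1, b₁, hab₁.2, le_rfl⟩
    set t := η ^ l * d with ht
    have ht0 : 0 < t := by positivity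
    have htd : t ≤ d := by
      have := pow_le_one₀ hη0.le (by linarith : η ≤ 1) (n := l)
      rw [ht]; nlinarith
    set ρ := K * d with hρ
    have hρ0 : 0 < ρ := by positivity
    have hρr : ρ ≤ r := (mul_le_mul_of_nonneg_left hdD (by linarith)).trans hKr
    have htρ : t / 8 ≤ ρ := by rw [hρ]; nlinarith
    have hδmin : 0 ≤ min δ₀ δ₁ := (lt_min hδ₀ hδ₁).le
    have hΛt : ρ / (t / 8) ≤ Λ := by
      rw [hΛ, div_le_div_iff₀ (by positivity) (by positivity), hρ, ht]
      have h1 : η ^ (k + 1) ≤ η ^ l := pow_le_pow_of_le_one hη0.le (by linarith) (by omega)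
      calc K * d * η ^ (k + 1) ≤ K * d * η ^ l := by gcongr
        _ = _ := by ring
    have key := cluster_sum (x := x) (r := ρ) (R := R) (M := M) (δ := min δ₀ δ₁) (q := q)
      (ε' := ε / (3 * (k + 1))) (Λ := Λ) (δ₀ := δ₀) h hT ht0 hK₀ hη hBA hsep hcov hδmin hbase hG ?_
      hρ0 htρ (by linarith) hΛt (F := tst T p ρ p (2 * d)) integrable_tst
      (fun y => tst_nonneg) ?_
    · have hBk : (B.card : ℝ) ≤ k + 1 := by
        have := (Finset.card_le_card hBA).trans hA
        exact_mod_cast this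
      have hsq : ctr m Λ * Real.sqrt (M * min δ₀ δ₁) ≤ ε / (3 * (k + 1)) := by
        refine le_trans ?_ hC
        have := ctr_nonneg (m := m) hΛ0
        gcongr
        exact min_le_right _ _
      have h1 : (B.card : ℝ) * (ε / (3 * (k + 1)) + ctr m Λ * Real.sqrt (M * min δ₀ δ₁))
          ≤ 2 / 3 * ε := by
        calc _ ≤ (k + 1 : ℝ) * (ε / (3 * (k + 1)) + ε / (3 * (k + 1))) := by
              have : 0 ≤ ctr m Λ * Real.sqrt (M * min δ₀ δ₁) :=
                mul_nonneg (ctr_nonneg hΛ0) (Real.sqrt_nonneg _)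
              gcongr
          _ = _ := by field_simp; ring
      have h2 := wf_le_ratio (T := T) (ν := ν) (p := p) (m := m) hρ0
        (by positivity : 0 < 2 * d)
      have h3 : ν.real (reg T p ρ p (2 * d)) ≤ 4 * (2 * (3 * ρ)) ^ m * M := by
        have hsub : reg T p ρ p (2 * d) ⊆ closedBall p (3 * ρ) :=
          (reg_subset hρ0 (by positivity)).trans (closedBall_subset_closedBall (by
            rw [hρ]; nlinarith))
        calc ν.real (reg T p ρ p (2 * d)) ≤ ν.real (closedBall p (3 * ρ)) :=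
              measureReal_mono hsub
          _ ≤ _ := (hG p hp).ball_mass h (by positivity) (by linarith)
      have h4 : 8 * (2 * d / ρ) ^ 2 * (ν.real (reg T p ρ p (2 * d)) / ρ ^ m) ≤ ε / 3 := by
        have e1 : ν.real (reg T p ρ p (2 * d)) / ρ ^ m ≤ 4 * 6 ^ m * M := by
          rw [div_le_iff₀ (by positivity)]
          refine h3.trans (le_of_eq ?_)
          rw [mul_pow, mul_pow]
          have : (6:ℝ) ^ m = 2 ^ m * 3 ^ m := by rw [← mul_pow]; norm_num
          rw [this]; ring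
        have e2 : 2 * d / ρ = 2 / K := by rw [hρ]; field_simp
        rw [e2]
        exact (mul_le_mul_of_nonneg_left e1 (by positivity)).trans (K_bound hε hM hK)
      have h5 : ratio m ν p ρ ≤ ratio m ν p r :=
        h.ratio_mono hρ0 hρr ((closedBall_subset_closedBall (by linarith)).trans (hG p hp).ball)
      have h6 : (∫ y, tst T p ρ p (2 * d) y ∂ν) / ρ ^ m = wf T ν p ρ p (2 * d) / ρ ^ m := rfl
      rw [h6] at key
      linarith
    · -- clusters are smaller
      intro b hb A' hA' hbA' honly hdiam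
      obtain ⟨b', hb', hne⟩ := Finset.exists_mem_ne (by omega : 1 < B.card) b
      have hss : A' ⊂ A := by
        refine (Finset.ssubset_iff_of_subset hA').2 ⟨b', hBA hb', fun hb'A => hne ?_⟩
        exact honly b' hb' hb'A
      have hcardA' : A'.card ≤ k := by
        have := Finset.card_lt_card hss
        omega
      refine hS O ν P T h hT x R q A' hcardA' (fun a ha => hbase a (hA' ha))
        (fun a ha => (hG a (hA' ha)).mono (min_le_left _ _)) (2 * (η * t)) hdiam (t / 8)
        (by positivity) (eta_bound hη hK₀) (by linarith) b hbA'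
    · -- the big window
      intro y b hb hyb
      unfold tst
      rw [hcut_congr (hbase p hp)]
      have h1 : Tᗮ.starProjection (y - p) = Tᗮ.starProjection (y - b)
          + Tᗮ.starProjection (b - p) := by rw [← map_add]; congr 1; abel
      have h2 : ‖Tᗮ.starProjection (b - p)‖ ≤ d := by
        refine (Tᗮ.norm_starProjection_apply_le _).trans ?_
        rw [← dist_eq_norm]; exact hmax' b (hBA hb) p hp
      have h3 : ‖Tᗮ.starProjection (y - p)‖ ≤ 2 * d := by
        rw [h1]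
        refine (norm_add_le _ _).trans ?_
        linarith
      rw [vwin_eq_one (by positivity) h3, mul_one]

end Vale.Agent.P214.INT
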