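import Vale.Agent.P214.INT.I1
import Vale.Agent.P214.INT.Loc

/-!
# P214, block INT: transport of the mass fraction `htot` in the scale and in the base centre
-/

open Set Filter Topology MeasureTheory Metric
open scoped RealInnerProductSpace ENNReal

set_option linter.all false

namespace Vale.Agent.P214.INT

open Vale.Agent.P214 Vale.Agent.P214.FV

variable {E : Type*} [NormedAddCommGroup E] [InnerProductSpace ℝ E] [FiniteDimensional ℝ E]
  [MeasurableSpace E] [BorelSpace E]

variable {T : Submodule ℝ E} {G : Set E} {h : ℝ} {z x v : E} {r s : ℝ} {m : ℕ} {ν : Measure E}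
  {P : E → E →L[ℝ] E}

lemma htot_eq (x : E) (s : ℝ) : htot m T ν x s = (∫ y, hcut T x s y ∂ν) / s ^ m := rfl

lemma htot_nonneg (hs : 0 < s) : 0 ≤ htot m T ν x s := by
  rw [htot_eq]
  have : 0 ≤ ∫ y, hcut T x s y ∂ν := integral_nonneg fun y => hcut_nonneg x s y
  positivity

/-- a.e. point lies in the slab -/
lemma ae_slab (hC : CylStat m T G h ν P) (hb : ν (T.starProjection ⁻¹' G)ᶜ = 0) :
    ∀ᵐ y ∂ν, ‖Tᗮ.starProjection y‖ ≤ h := by
  have h1 : ∀ᵐ y ∂ν, y ∈ T.starProjection ⁻¹' G := by
    rw [ae_iff]; exact hb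
  filter_upwards [hC.slab, h1] with y hy hyG
  rw [Submodule.starProjection_orthogonal_val]
  exact hy hyG

lemma wf_eq (hC : CylStat m T G h ν P) (hb : ν (T.starProjection ⁻¹' G)ᶜ = 0) (hs : 0 < s)
    (hhs : h ≤ s) : wf T ν z r 0 s = ∫ y, hcut T z r y ∂ν := by
  unfold wf
  refine integral_congr_ae ?_
  filter_upwards [ae_slab hC hb] with y hy
  unfold tst
  rw [vwin_eq_one hs (by rw [sub_zero]; exact hy.trans hhs), mul_one]

lemma fderiv_tst_radial (z c y : E) (r s : ℝ) :
    fderiv ℝ (tst T z r c s) y (T.starProjection (y - z)) =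
      -(dcut (T.starProjection z) r (T.starProjection y) *
        (2 * ‖T.starProjection (y - z)‖ ^ 2 / r ^ 2) * vwin T c s y) := by
  rw [fderiv_tst, fderiv_vwin_horizontal c s y (T.starProjection_apply_mem _), mul_zero, zero_add,
    fderiv_hcut']
  have : T.starProjection (T.starProjection (y - z)) = T.starProjection (y - z) :=
    Submodule.starProjection_eq_self_iff.2 (T.starProjection_apply_mem _)
  rw [this, real_inner_self_eq_norm_sq]
  ring

/-- derivative of the normalised window functional in the scale -/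
lemma hasDerivAt_wf_ratio [IsFiniteMeasure ν] (hr : 0 < r) (hs : 0 < s) (z c : E) (m : ℕ) :
    HasDerivAt (fun t => wf T ν z t c s / t ^ m)
      (-(∫ y, ((m : ℝ) * tst T z r c s y
        + fderiv ℝ (tst T z r c s) y (T.starProjection (y - z))) ∂ν) / r ^ (m + 1)) r := by
  have h1 := hasDerivAt_wf (ν := ν) (T := T) (z := z) (c := c) (s := s) hr
  have h2 := hasDerivAt_pow m r
  have h3 := h1.div h2 (by positivity)
  refine h3.congr_deriv ?_
  have hcd : Continuous fun y : E => dcut (T.starProjection z) r (T.starProjection y) :=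
    (continuous_dcut _ _).comp T.starProjection.continuous
  have hcv : Continuous (vwin T c s) := (contDiff_vwin c s).continuous
  -- integrability of the radial term
  have hR : Integrable (fun y => dcut (T.starProjection z) r (T.starProjection y) *
        (2 * ‖T.starProjection (y - z)‖ ^ 2 / r ^ 2) * vwin T c s y) ν := by
    refine (integrable_const (2 * (2 * r ^ 2 / r ^ 2) * 1)).mono'
      (by fun_prop : Continuous _).aestronglyMeasurable ?_
    refine Eventually.of_forall fun y => ?_
    by_cases hy : r ≤ ‖T.starProjection (y - z)‖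
    · rw [dcut_eq_zero hr (by rwa [← map_sub])]; simp; positivity
    · have h4 := dcut_le_two (T.starProjection z) r (T.starProjection y)
      have h5 := dcut_nonneg (T.starProjection z) r (T.starProjection y)
      rw [norm_mul, norm_mul, Real.norm_of_nonneg h5, Real.norm_of_nonneg (by positivity),
        Real.norm_of_nonneg (vwin_nonneg _ _ _)]
      have h6 := vwin_le_one (T := T) c s y
      have h7 := vwin_nonneg (T := T) c s y
      have h8 : ‖T.starProjection (y - z)‖ ≤ r := (not_le.1 hy).le
      gcongr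
  have e1 : ∫ y, ((m : ℝ) * tst T z r c s y
        + fderiv ℝ (tst T z r c s) y (T.starProjection (y - z))) ∂ν
      = m * wf T ν z r c s - ∫ y, dcut (T.starProjection z) r (T.starProjection y) *
        (2 * ‖T.starProjection (y - z)‖ ^ 2 / r ^ 2) * vwin T c s y ∂ν := by
    simp only [fderiv_tst_radial, ← sub_eq_add_neg]
    rw [integral_sub (integrable_tst.const_mul _) hR, integral_const_mul]
    rfl
  have e2 : ∫ y, dcut (T.starProjection z) r (T.starProjection y) *
        (2 * ‖T.starProjection (y - z)‖ ^ 2 / r ^ 3) * vwin T c s y ∂ν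
      = (∫ y, dcut (T.starProjection z) r (T.starProjection y) *
        (2 * ‖T.starProjection (y - z)‖ ^ 2 / r ^ 2) * vwin T c s y ∂ν) / r := by
    rw [← integral_div]
    refine integral_congr_ae (Eventually.of_forall fun y => ?_)
    simp only
    field_simp
  rw [e1, e2]
  generalize (∫ y, dcut (T.starProjection z) r (T.starProjection y) *
        (2 * ‖T.starProjection (y - z)‖ ^ 2 / r ^ 2) * vwin T c s y ∂ν) = A
  generalize wf T ν z r c s = B
  rcases Nat.eq_zero_or_pos m with rfl | hm
  · simp
  · have : r ^ m = r ^ (m - 1) * r := by rw [← pow_succ]; congr 1; omega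
    have h5 : r ^ (m + 1) = r ^ (m - 1) * r ^ 2 := by rw [← pow_add]; congr 1; omega
    rw [this, h5]
    field_simp
    ring

lemma reg_subset_cyl {R : ℝ} (hrR : r < R) : reg T z r x s ⊆ cyl T z R := by
  intro y hy
  rw [cyl, mem_preimage, mem_ball, dist_eq_norm, ← map_sub]
  exact hy.1.trans_lt hrR

lemma measurableSet_cyl {R : ℝ} : MeasurableSet (cyl T z R) :=
  (isOpen_ball.preimage T.starProjection.continuous).measurableSet

/-- **transport in the scale** -/
theorem wf_scale [IsFiniteMeasure ν] {O : Set E} (hL : LocStat m O ν P)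
    (hT : Module.finrank ℝ T = m) {r₁ r₂ R : ℝ} (h1 : 0 < r₁) (h12 : r₁ ≤ r₂) (h2R : r₂ < R)
    (hs : r₂ ≤ s) (c : E) (hO : cyl T z R ⊆ O) :
    |wf T ν z r₂ c s / r₂ ^ m - wf T ν z r₁ c s / r₁ ^ m| ≤
      21 * m * (r₂ - r₁) / r₁ ^ (m + 1) * ∫ y in cyl T z R, tilt P T y ∂ν := by
  have hs0 : 0 < s := h1.trans_le (h12.trans hs)
  set I := ∫ y in cyl T z R, tilt P T y ∂ν with hI
  have hI0 : 0 ≤ I := integral_nonneg fun y => tilt_nonneg
  have hd : ∀ t ∈ Icc r₁ r₂, HasDerivWithinAt (fun t => wf T ν z t c s / t ^ m)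
      (-(∫ y, ((m : ℝ) * tst T z t c s y
        + fderiv ℝ (tst T z t c s) y (T.starProjection (y - z))) ∂ν) / t ^ (m + 1))
        (Icc r₁ r₂) t := fun t ht =>
    (hasDerivAt_wf_ratio (h1.trans_le ht.1) hs0 z c m).hasDerivWithinAt
  have hb : ∀ t ∈ Icc r₁ r₂, ‖-(∫ y, ((m : ℝ) * tst T z t c s y
        + fderiv ℝ (tst T z t c s) y (T.starProjection (y - z))) ∂ν) / t ^ (m + 1)‖
        ≤ 21 * m / r₁ ^ (m + 1) * I := by
    intro t ht
    have ht0 : 0 < t := h1.trans_le ht.1
    have hreg : reg T z t c s ⊆ cyl T z R := reg_subset_cyl (ht.2.trans_lt h2R)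
    have h3 := abs_scale_err (T := T) (z := z) (c := c) hL hT ht0 hs0 (hreg.trans hO)
    have h4 : ∫ y in reg T z t c s, tilt P T y ∂ν ≤ I :=
      setIntegral_mono_set (integrable_tilt hL).integrableOn
        (Eventually.of_forall fun y => tilt_nonneg) hreg.eventuallyLE
    have h5 : (5 + 16 * t / s) ≤ 21 := by
      have : 16 * t / s ≤ 16 := by
        rw [div_le_iff₀ hs0]
        have := ht.2
        nlinarith
      linarith
    have h6 : 0 ≤ ∫ y in reg T z t c s, tilt P T y ∂ν := integral_nonneg fun y => tilt_nonneg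
    rw [norm_div, norm_neg, Real.norm_of_nonneg (by positivity : (0:ℝ) ≤ t ^ (m + 1)),
      Real.norm_eq_abs]
    calc _ ≤ (m * (5 + 16 * t / s) * ∫ y in reg T z t c s, tilt P T y ∂ν) / t ^ (m + 1) := by
          gcongr
      _ ≤ (m * 21 * I) / r₁ ^ (m + 1) := by
          have := ht.1
          gcongr
      _ = _ := by ring
  have key := (convex_Icc r₁ r₂).norm_image_sub_le_of_norm_hasDerivWithin_le hd hb
    ⟨le_rfl, h12⟩ ⟨h12, le_rfl⟩
  rw [Real.norm_eq_abs, Real.norm_eq_abs, abs_of_nonneg (sub_nonneg.2 h12)] at key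
  refine key.trans (le_of_eq ?_)
  ring

/-- the window functional after a horizontal translation of the centre -/
lemma hasDerivAt_wf_trans [IsFiniteMeasure ν] (hr : 0 < r) (hs : 0 < s) (z c : E) (hv : v ∈ T)
    (t : ℝ) : HasDerivAt (fun t : ℝ => wf T ν (z + t • v) r c s)
      (-∫ y, fderiv ℝ (tst T (z + t • v) r c s) y v ∂ν) t := by
  have hpv : T.starProjection v = v := Submodule.starProjection_eq_self_iff.2 hv
  -- translation formula
  have htr : ∀ (t : ℝ) (y : E), tst T (z + t • v) r c s y = tst T z r c s (y - t • v) := by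
    intro t y
    unfold tst
    congr 1
    · rw [hcut_eq, hcut_eq, show y - (z + t • v) = y - t • v - z from by
        rw [sub_sub, add_comm z]]
    · unfold vwin
      congr 4
      have : y - t • v - c = (y - c) - t • v := by abel
      rw [this, map_sub (Tᗮ.starProjection) (y - c), map_smul,
        Submodule.starProjection_orthogonal_apply_eq_zero hv, smul_zero, sub_zero]
  have hfd : ∀ (t : ℝ) (y : E), fderiv ℝ (tst T (z + t • v) r c s) y
      = fderiv ℝ (tst T z r c s) (y - t • v) := by
    intro t y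
    have : tst T (z + t • v) r c s = fun y => tst T z r c s (y - t • v) := funext (htr t)
    rw [this, fderiv_comp_sub]
  have hdiff : Differentiable ℝ (tst T z r c s) := contDiff_tst.differentiable (by norm_num)
  have hder : ∀ (y : E) (t : ℝ), HasDerivAt (fun t : ℝ => tst T (z + t • v) r c s y)
      (-(fderiv ℝ (tst T (z + t • v) r c s) y v)) t := by
    intro y t
    have h1 : (fun t : ℝ => tst T (z + t • v) r c s y) = fun t : ℝ => tst T z r c s (y - t • v) :=
      funext fun t => htr t y
    rw [h1, hfd]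
    have h2 : HasDerivAt (fun t : ℝ => y - t • v) (-v) t := by
      have := ((hasDerivAt_id t).smul_const v).const_sub y
      simpa using this
    have h3 := (hdiff (y - t • v)).hasFDerivAt.comp_hasDerivAt t h2
    refine h3.congr_deriv ?_
    rw [map_neg]
  have key := hasDerivAt_integral_of_dominated_loc_of_deriv_le (μ := ν) (𝕜 := ℝ)
    (F := fun (t : ℝ) y => tst T (z + t • v) r c s y)
    (F' := fun (t : ℝ) y => -(fderiv ℝ (tst T (z + t • v) r c s) y v)) (x₀ := t)
    (s := univ) (bound := fun _ => (4 / r + 16 / s) * ‖v‖) univ_mem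
    (Eventually.of_forall fun s => contDiff_tst.continuous.aestronglyMeasurable)
    integrable_tst ?_ ?_ (integrable_const _) ?_
  · rw [← integral_neg]; exact key.2
  · refine Continuous.aestronglyMeasurable ?_
    exact ((contDiff_tst.continuous_fderiv (by norm_num)).clm_apply continuous_const).neg
  · refine Eventually.of_forall fun y t _ => ?_
    rw [norm_neg, Real.norm_eq_abs]
    exact abs_fderiv_tst_le hr hs y v
  · exact Eventually.of_forall fun y t _ => hder y t

/-- **transport in the base centre** -/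
theorem wf_translate [IsFiniteMeasure ν] {O : Set E} (hL : LocStat m O ν P)
    (hT : Module.finrank ℝ T = m) {R : ℝ} (hr : 0 < r) (hs : r ≤ s) (c : E) (hx : x - z ∈ T)
    (hR : ‖x - z‖ + r < R) (hO : cyl T z R ⊆ O) :
    |wf T ν x r c s - wf T ν z r c s| ≤
      20 / r * ‖x - z‖ * ∫ y in cyl T z R, tilt P T y ∂ν := by
  have hs0 : 0 < s := hr.trans_le hs
  set I := ∫ y in cyl T z R, tilt P T y ∂ν with hI
  have hI0 : 0 ≤ I := integral_nonneg fun y => tilt_nonneg
  set v := x - z with hv
  have hpv : T.starProjection v = v := Submodule.starProjection_eq_self_iff.2 hx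
  have hd : ∀ t ∈ Icc (0:ℝ) 1, HasDerivWithinAt (fun t : ℝ => wf T ν (z + t • v) r c s)
      (-∫ y, fderiv ℝ (tst T (z + t • v) r c s) y v ∂ν) (Icc 0 1) t := fun t _ =>
    (hasDerivAt_wf_trans hr hs0 z c hx t).hasDerivWithinAt
  have hb : ∀ t ∈ Icc (0:ℝ) 1, ‖-∫ y, fderiv ℝ (tst T (z + t • v) r c s) y v ∂ν‖
      ≤ 20 / r * ‖v‖ * I := by
    intro t ht
    have hreg : reg T (z + t • v) r c s ⊆ cyl T z R := by
      intro y hy
      rw [cyl, mem_preimage, mem_ball, dist_eq_norm, ← map_sub]
      have e : y - z = (y - (z + t • v)) + t • v := by abel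
      rw [e, map_add, map_smul, hpv]
      calc ‖T.starProjection (y - (z + t • v)) + t • v‖
          ≤ ‖T.starProjection (y - (z + t • v))‖ + ‖t • v‖ := norm_add_le _ _
        _ ≤ r + 1 * ‖v‖ := by
            rw [norm_smul, Real.norm_of_nonneg ht.1]
            gcongr
            · exact hy.1
            · exact ht.2
        _ < R := by linarith
    have h3 := abs_integral_fderiv_le (T := T) (v := v) hL
      (contDiff_tst (T := T) (z := z + t • v) (r := r) (c := c) (s := s))
      (hasCompactSupport_tst hr hs0) ((tsupport_tst hr hs0).trans (hreg.trans hO)) hx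
      (isClosed_reg (T := T) (z := z + t • v) (r := r) (c := c) (s := s)).measurableSet
      (C := 4 / r + 16 / s) (by positivity) (abs_fderiv_tst_le hr hs0)
      (fun y hy => fderiv_tst_eq_zero hr hs0 hy)
    have h4 : ∫ y in reg T (z + t • v) r c s, tilt P T y ∂ν ≤ I :=
      setIntegral_mono_set (integrable_tilt hL).integrableOn
        (Eventually.of_forall fun y => tilt_nonneg) hreg.eventuallyLE
    have h5 : 4 / r + 16 / s ≤ 20 / r := by
      have : 16 / s ≤ 16 / r := by gcongr
      calc 4 / r + 16 / s ≤ 4 / r + 16 / r := by linarith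
        _ = 20 / r := by ring
    have h6 : 0 ≤ ∫ y in reg T (z + t • v) r c s, tilt P T y ∂ν :=
      integral_nonneg fun y => tilt_nonneg
    rw [norm_neg, Real.norm_eq_abs]
    refine h3.trans ?_
    gcongr
  have key := (convex_Icc (0:ℝ) 1).norm_image_sub_le_of_norm_hasDerivWithin_le hd hb
    ⟨le_rfl, zero_le_one⟩ ⟨zero_le_one, le_rfl⟩
  simp only [one_smul, zero_smul, add_zero, sub_zero, norm_one, mul_one] at key
  rw [Real.norm_eq_abs] at key
  have e : z + v = x := by rw [hv]; abel
  rwa [e] at key

end Vale.Agent.P214.INT
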