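import Vale.Agent.P214.INT.FibreT
import Vale.Agent.P214.INT.Loc

/-!
# P214, block INT: transport of the full cylinder functional, sheets over a good base point
-/

open Set Filter Topology MeasureTheory Metric
open scoped RealInnerProductSpace ENNReal

namespace Vale.Agent.P214.INT.HL

open Vale.Agent.P214 Vale.Agent.P214.FV Vale.Agent.P214.INT

set_option linter.unusedSectionVars false

variable {E : Type*} [NormedAddCommGroup E] [InnerProductSpace ℝ E] [FiniteDimensional ℝ E]
  [MeasurableSpace E] [BorelSpace E]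

variable {T : Submodule ℝ E} {G : Set E} {h : ℝ} {z x y v p : E} {r s ρ : ℝ} {m : ℕ}
  {ν : Measure E} {P : E → E →L[ℝ] E}

lemma measurableSet_cyl (x : E) (s : ℝ) : MeasurableSet (cyl T x s) :=
  (isOpen_ball.preimage T.starProjection.continuous).measurableSet

lemma mem_cyl : y ∈ cyl T x s ↔ ‖T.starProjection (y - x)‖ < s := by
  unfold cyl; rw [mem_preimage, mem_ball, dist_eq_norm, map_sub]

lemma cyl_mono {s' : ℝ} (h : s ≤ s') : cyl T x s ⊆ cyl T x s' :=
  preimage_mono (ball_subset_ball h)

lemma closedBall_subset_cyl (hp : T.starProjection p = T.starProjection x) (h : s < ρ) :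
    closedBall p s ⊆ cyl T x ρ := by
  intro y hy
  rw [mem_cyl, map_sub, ← hp, ← map_sub]
  rw [mem_closedBall, dist_eq_norm] at hy
  exact ((T.norm_starProjection_apply_le _).trans hy).trans_lt h

lemma reg_subset_cyl {c : E} (h : r < ρ) : reg T z r c s ⊆ cyl T z ρ := by
  intro y hy
  rw [mem_cyl]
  exact hy.1.trans_lt h

/-- over a slab the window is invisible -/
lemma wf_eq_htot (hC : CylStat m T G h ν P) (hr : 0 < r) (hs : 0 < s) (hhs : h ≤ s)
    (hG : closedBall (T.starProjection z) r ⊆ G) :
    wf T ν z r 0 s = ∫ y, hcut T z r y ∂ν := by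
  unfold wf
  refine integral_congr_ae ?_
  filter_upwards [hC.slab] with y hy
  by_cases hyr : r ≤ ‖T.starProjection (y - z)‖
  · unfold tst; rw [hcut_eq_zero hr hyr, zero_mul]
  · have h1 : T.starProjection y ∈ G := hG (by
      rw [mem_closedBall, dist_eq_norm, ← map_sub]; exact (not_le.1 hyr).le)
    have h2 := hy h1
    have h3 : ‖Tᗮ.starProjection (y - 0)‖ ≤ s := by
      have : Tᗮ.starProjection (y - 0) = y - T.starProjection y := by
        rw [sub_zero]
        have := T.starProjection_add_starProjection_orthogonal y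
        rw [← this]; simp [this]
      rw [this]; exact h2.trans hhs
    unfold tst
    rw [vwin_eq_one hs h3, mul_one]

lemma htot_eq : htot m T ν z r = (∫ y, hcut T z r y ∂ν) / r ^ m := rfl

/-- `L^1` tilt over a cylinder -/
noncomputable def tl (T : Submodule ℝ E) (ν : Measure E) (P : E → E →L[ℝ] E) (z : E) (ρ : ℝ) : ℝ :=
  ∫ y in cyl T z ρ, tilt P T y ∂ν

lemma tl_nonneg : 0 ≤ tl T ν P z ρ := integral_nonneg fun _ => tilt_nonneg

lemma tl_le [IsFiniteMeasure ν] {O : Set E} (hl : LocStat m O ν P) : tl T ν P z ρ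
    ≤ Real.sqrt (ν.real (cyl T z ρ)) * Real.sqrt (∫ y in cyl T z ρ, tilt P T y ^ 2 ∂ν) :=
  setIntegral_tilt_le hl _

/-- **scale transport of the mass fraction** -/
lemma htot_scale (hC : CylStat m T G h ν P) {r₁ r₂ : ℝ} (h1 : 0 < r₁) (h12 : r₁ ≤ r₂)
    (h2ρ : r₂ < ρ) (hG : ball (T.starProjection z) ρ ⊆ G) :
    |htot m T ν z r₂ - htot m T ν z r₁| ≤ 21 * m * tl T ν P z ρ / r₁ ^ (m + 1) * (r₂ - r₁) := by
  have := hC.fin
  have hl := locStat_of_cylStat hC
  have h2 : 0 < r₂ := h1.trans_le h12
  set s := max (max h r₂) 1 with hs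
  have hs0 : 0 < s := lt_of_lt_of_le one_pos (le_max_right _ _)
  have hhs : h ≤ s := (le_max_left _ _).trans (le_max_left _ _)
  have hrs : r₂ ≤ s := (le_max_right _ _).trans (le_max_left _ _)
  have hG2 : closedBall (T.starProjection z) r₂ ⊆ G :=
    (closedBall_subset_ball h2ρ).trans hG
  have hG1 : closedBall (T.starProjection z) r₁ ⊆ G :=
    (closedBall_subset_closedBall h12).trans hG2
  have hO : reg T z r₂ 0 s ⊆ T.starProjection ⁻¹' G := by
    intro y hy
    refine hG2 ?_
    rw [mem_closedBall, dist_eq_norm, ← map_sub]; exact hy.1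
  have key := scale_transport (T := T) (z := z) (c := 0) hl hC.dimT h1 h12 hs0 hO
  rw [wf_eq_htot hC h2 hs0 hhs hG2, wf_eq_htot hC h1 hs0 hhs hG1] at key
  refine key.trans ?_
  have h3 : ∫ y in reg T z r₂ 0 s, tilt P T y ∂ν ≤ tl T ν P z ρ :=
    setIntegral_mono_set (integrable_tilt hl).integrableOn
      (Eventually.of_forall fun _ => tilt_nonneg) (Eventually.of_forall (reg_subset_cyl h2ρ))
  have h4 : 0 ≤ ∫ y in reg T z r₂ 0 s, tilt P T y ∂ν := integral_nonneg fun _ => tilt_nonneg
  have h5 : 5 + 16 * r₂ / s ≤ 21 := by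
    have : r₂ / s ≤ 1 := by rw [div_le_one hs0]; exact hrs
    rw [mul_div_assoc]; linarith
  have h6 : 0 ≤ r₂ - r₁ := by linarith
  have h7 := tl_nonneg (T := T) (ν := ν) (P := P) (z := z) (ρ := ρ)
  have h8 : (m : ℝ) * (5 + 16 * r₂ / s) * (∫ y in reg T z r₂ 0 s, tilt P T y ∂ν)
      ≤ 21 * m * tl T ν P z ρ := by
    have : 0 ≤ 5 + 16 * r₂ / s := by positivity
    calc _ ≤ (m : ℝ) * 21 * tl T ν P z ρ := by gcongr
      _ = _ := by ring
  gcongr

/-- derivative of the window functional in a horizontal direction -/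
lemma hasDerivAt_wf_translate [IsFiniteMeasure ν] (hr : 0 < r) (hs : 0 < s) {c : E} (t : ℝ) :
    HasDerivAt (fun t : ℝ => wf T ν (z + t • v) r c s)
      (-(∫ y, fderiv ℝ (hcut T (z + t • v) r) y v * vwin T c s y ∂ν)) t := by
  have hval : ∀ (t : ℝ) (y : E), hcut T (z + t • v) r y = hcut T z r (y - t • v) := by
    intro t y
    rw [hcut_eq, hcut_eq]
    congr 3
    congr 1
    abel_nf
  have hd : ∀ (t : ℝ) (y : E), HasDerivAt (fun t : ℝ => tst T (z + t • v) r c s y)
      (-(fderiv ℝ (hcut T (z + t • v) r) y v * vwin T c s y)) t := by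
    intro t y
    unfold tst
    have h1 : HasDerivAt (fun t : ℝ => hcut T (z + t • v) r y)
        (-(fderiv ℝ (hcut T (z + t • v) r) y v)) t := by
      have h2 : HasFDerivAt (hcut T z r) (fderiv ℝ (hcut T z r) (y - t • v)) (y - t • v) :=
        ((contDiff_hcut z r).differentiable (by norm_num) _).hasFDerivAt
      have h3 : HasDerivAt (fun t : ℝ => y - t • v) (-v) t := by
        have := ((hasDerivAt_id t).smul_const v).const_sub y
        simpa using this
      have h4 := h2.comp_hasDerivAt t h3
      have h5 : (fun t : ℝ => hcut T (z + t • v) r y) = hcut T z r ∘ fun t : ℝ => y - t • v := by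
        funext t; exact hval t y
      rw [h5]
      refine h4.congr_deriv ?_
      rw [map_neg]
      congr 1
      rw [fderiv_hcut', fderiv_hcut']
      have h6 : T.starProjection (y - t • v - z) = T.starProjection (y - (z + t • v)) := by
        congr 1; abel
      have h7 : dcut (T.starProjection z) r (T.starProjection (y - t • v))
          = dcut (T.starProjection (z + t • v)) r (T.starProjection y) := by
        unfold dcut
        rw [← map_sub, ← map_sub, h6]
      rw [h6, h7]
    refine (h1.mul_const (vwin T c s y)).congr_deriv ?_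
    ring
  have key := hasDerivAt_integral_of_dominated_loc_of_deriv_le (μ := ν) (𝕜 := ℝ)
    (F := fun t y => tst T (z + t • v) r c s y)
    (F' := fun t y => -(fderiv ℝ (hcut T (z + t • v) r) y v * vwin T c s y)) (x₀ := t)
    (s := univ) (bound := fun _ => 4 / r * ‖v‖ * 1)
    univ_mem ?_ ?_ ?_ ?_ ?_ ?_
  · rw [← integral_neg]; exact key.2
  · exact Eventually.of_forall fun t => contDiff_tst.continuous.aestronglyMeasurable
  · exact integrable_tst
  · have h1 : Continuous (fun y => fderiv ℝ (hcut T (z + t • v) r) y v) :=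
      ((contDiff_hcut _ r).continuous_fderiv (by norm_num)).clm_apply continuous_const
    exact (h1.mul (contDiff_vwin c s).continuous).neg.aestronglyMeasurable
  · refine Eventually.of_forall fun y t _ => ?_
    rw [norm_neg, norm_mul, Real.norm_eq_abs, Real.norm_of_nonneg (vwin_nonneg _ _ _)]
    have h1 := abs_fderiv_hcut_le (T := T) hr (z + t • v) y v
    have h2 := vwin_le_one (T := T) c s y
    have h3 := vwin_nonneg (T := T) c s y
    gcongr
  · exact integrable_const _
  · exact Eventually.of_forall fun y t _ => hd t y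

/-- **horizontal transport of the window functional** -/
lemma wf_translate [IsFiniteMeasure ν] {O : Set E} (hl : LocStat m O ν P) (hr : 0 < r)
    (hs : 0 < s) (hv : v ∈ T) {c : E} (hO : ∀ t ∈ Icc (0:ℝ) 1, reg T (z + t • v) r c s ⊆ O)
    {C : ℝ} (hC : ∀ t ∈ Icc (0:ℝ) 1, ∫ y in reg T (z + t • v) r c s, tilt P T y ∂ν ≤ C) :
    |wf T ν (z + v) r c s - wf T ν z r c s| ≤ (4 / r + 16 / s) * ‖v‖ * C := by
  have key := (convex_Icc (0:ℝ) 1).norm_image_sub_le_of_norm_hasDerivWithin_le
    (f := fun t : ℝ => wf T ν (z + t • v) r c s)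
    (f' := fun t : ℝ => -(∫ y, fderiv ℝ (hcut T (z + t • v) r) y v * vwin T c s y ∂ν))
    (C := (4 / r + 16 / s) * ‖v‖ * C) (x := 0) (y := 1)
    (fun t _ => (hasDerivAt_wf_translate hr hs t).hasDerivWithinAt) ?_
    ⟨le_rfl, zero_le_one⟩ ⟨zero_le_one, le_rfl⟩
  · simpa using key
  · intro t ht
    rw [norm_neg, Real.norm_eq_abs]
    have h1 : ∀ y, fderiv ℝ (hcut T (z + t • v) r) y v * vwin T c s y
        = fderiv ℝ (tst T (z + t • v) r c s) y v := by
      intro y
      rw [fderiv_tst, fderiv_vwin_horizontal _ _ _ hv, mul_zero, zero_add]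
    simp only [h1]
    have h2 := abs_integral_fderiv_le (T := T) (v := v) hl (f := tst T (z + t • v) r c s)
      contDiff_tst (hasCompactSupport_tst hr hs)
      ((tsupport_tst hr hs).trans (hO t ht)) hv
      (isClosed_reg (T := T) (z := z + t • v) (r := r) (c := c) (s := s)).measurableSet
      (C := 4 / r + 16 / s) (by positivity) (abs_fderiv_tst_le hr hs)
      (fun y hy => fderiv_tst_eq_zero hr hs hy)
    refine h2.trans ?_
    have := hC t ht
    gcongr

/-- **horizontal transport of the mass fraction** -/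
lemma htot_translate (hC : CylStat m T G h ν P) {z' : E} (hr : 0 < r)
    (hρ : ‖T.starProjection (z' - z)‖ + r < ρ) (hG : ball (T.starProjection z) ρ ⊆ G) :
    |htot m T ν z' r - htot m T ν z r|
      ≤ 20 * ‖T.starProjection (z' - z)‖ * tl T ν P z ρ / r ^ (m + 1) := by
  have := hC.fin
  have hl := locStat_of_cylStat hC
  set s := max (max h r) 1 with hs
  have hs0 : 0 < s := lt_of_lt_of_le one_pos (le_max_right _ _)
  have hhs : h ≤ s := (le_max_left _ _).trans (le_max_left _ _)
  have hrs : r ≤ s := (le_max_right _ _).trans (le_max_left _ _)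
  set v := T.starProjection (z' - z) with hv
  have hvT : v ∈ T := T.starProjection_apply_mem _
  have hvv : T.starProjection v = v := Submodule.starProjection_eq_self_iff.2 hvT
  have hz' : T.starProjection z' = T.starProjection (z + v) := by
    rw [map_add, hvv, hv, map_sub]; abel
  have hhz' : htot m T ν z' r = htot m T ν (z + v) r := by unfold htot; rw [hz']
  have hsub : ∀ t ∈ Icc (0:ℝ) 1, reg T (z + t • v) r 0 s ⊆ cyl T z ρ := by
    intro t ht y hy
    rw [mem_cyl]
    have h1 : T.starProjection (y - z) = T.starProjection (y - (z + t • v)) + t • v := by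
      have e1 : T.starProjection (t • v) = t • v := by rw [map_smul, hvv]
      have e2 : y - z = (y - (z + t • v)) + t • v := by abel
      calc T.starProjection (y - z) = T.starProjection ((y - (z + t • v)) + t • v) := by
            rw [← e2]
        _ = T.starProjection (y - (z + t • v)) + T.starProjection (t • v) := map_add _ _ _
        _ = _ := by rw [e1]
    rw [h1]
    refine (norm_add_le _ _).trans_lt ?_
    have h2 : ‖t • v‖ ≤ ‖v‖ := by
      rw [norm_smul, Real.norm_of_nonneg ht.1]
      exact mul_le_of_le_one_left (norm_nonneg _) ht.2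
    have := hy.1
    linarith
  have hcG : cyl T z ρ ⊆ T.starProjection ⁻¹' G := preimage_mono hG
  have key := wf_translate (T := T) (z := z) (v := v) (c := 0) hl hr hs0 hvT
    (fun t ht => (hsub t ht).trans hcG) (C := tl T ν P z ρ) (fun t ht =>
      setIntegral_mono_set (integrable_tilt hl).integrableOn
        (Eventually.of_forall fun _ => tilt_nonneg) (Eventually.of_forall (hsub t ht)))
  have hG1 : closedBall (T.starProjection z) r ⊆ G := by
    refine (closedBall_subset_ball ?_).trans hG
    have := norm_nonneg v; linarith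
  have hG2 : closedBall (T.starProjection (z + v)) r ⊆ G := by
    intro w hw
    refine hG ?_
    rw [mem_closedBall] at hw
    rw [mem_ball]
    have hdv : dist (T.starProjection (z + v)) (T.starProjection z) = ‖v‖ := by
      rw [map_add, hvv, dist_eq_norm, add_sub_cancel_left]
    have := dist_triangle w (T.starProjection (z + v)) (T.starProjection z)
    linarith
  rw [wf_eq_htot hC hr hs0 hhs hG1, wf_eq_htot hC hr hs0 hhs hG2] at key
  rw [hhz', htot_eq, htot_eq, ← sub_div, abs_div, abs_of_pos (by positivity : 0 < r ^ m)]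
  have h7 := tl_nonneg (T := T) (ν := ν) (P := P) (z := z) (ρ := ρ)
  have h5 : 4 / r + 16 / s ≤ 20 / r := by
    have : 16 / s ≤ 16 / r := by gcongr
    have : 4 / r + 16 / r = 20 / r := by ring
    linarith
  calc _ ≤ ((4 / r + 16 / s) * ‖v‖ * tl T ν P z ρ) / r ^ m := by gcongr
    _ ≤ (20 / r * ‖v‖ * tl T ν P z ρ) / r ^ m := by gcongr
    _ = _ := by rw [pow_succ]; field_simp

/-- mass and ball ratio inside a cylinder -/
lemma ratio_le_mass [IsFiniteMeasure ν] (hp : T.starProjection p = T.starProjection x)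
    (hr : 0 < r) (hρ : r ≤ ρ) : ratio m ν p r ≤ ν.real (cyl T x ρ) / r ^ m := by
  unfold ratio
  gcongr
  refine (cut_integral_le hr).trans (measureReal_mono ?_)
  intro y hy
  rw [mem_cyl, map_sub, ← hp, ← map_sub]
  rw [mem_ball, dist_eq_norm] at hy
  exact ((T.norm_starProjection_apply_le _).trans_lt hy).trans_le hρ

lemma htot_le_mass [IsFiniteMeasure ν] (hr : 0 < r) (hρ : r ≤ ρ) :
    htot m T ν x r ≤ ν.real (cyl T x ρ) / r ^ m := by
  rw [htot_eq]
  gcongr
  have h1 : ∀ y, hcut T x r y ≤ (cyl T x ρ).indicator (fun _ => (1:ℝ)) y := by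
    intro y
    by_cases hy : y ∈ cyl T x ρ
    · rw [indicator_of_mem hy]; exact hcut_le_one _ _ _
    · rw [indicator_of_notMem hy]
      rw [mem_cyl, not_lt] at hy
      exact (hcut_eq_zero hr (hρ.trans hy)).le
  calc ∫ y, hcut T x r y ∂ν ≤ ∫ y, (cyl T x ρ).indicator (fun _ => (1:ℝ)) y ∂ν :=
        integral_mono (integrable_hcut x r)
          ((integrable_const (1:ℝ)).indicator (measurableSet_cyl x ρ)) h1
    _ = _ := by rw [integral_indicator (measurableSet_cyl x ρ)]; simp

/-- a fibre sum in `ENNReal` is bounded by finite real sums -/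
lemma sheets_le {S : Set E} {θ : E → ℕ} {B : Set E} {b : ℝ} (hb : 0 ≤ b)
    (H : ∀ A : Finset E, (∀ p ∈ A, p ∈ S ∧ p ∈ B ∧ T.starProjection p = x) →
      ∑ p ∈ A, (θ p : ℝ) ≤ b) : sheets T S θ B x ≤ ENNReal.ofReal b := by
  unfold sheets
  rw [ENNReal.tsum_eq_iSup_sum]
  refine iSup_le fun A => ?_
  classical
  have h1 := H (A.map (Function.Embedding.subtype _)) (by
    intro p hp
    rw [Finset.mem_map] at hp
    obtain ⟨a, -, rfl⟩ := hp
    exact a.2)
  rw [Finset.sum_map] at h1
  have h2 : ∑ a ∈ A, ((θ a : ℕ) : ℝ≥0∞) = ENNReal.ofReal (∑ a ∈ A, (θ a : ℝ)) := by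
    rw [ENNReal.ofReal_sum_of_nonneg (fun _ _ => Nat.cast_nonneg _)]
    refine Finset.sum_congr rfl fun a _ => ?_
    rw [ENNReal.ofReal_natCast]
  rw [h2]
  exact ENNReal.ofReal_le_ofReal h1

end Vale.Agent.P214.INT.HL
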