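import Vale.Agent.P214.Bdl.B1

/-! Window functionals: horizontal cut-offs times vertical windows, and their transport in the
horizontal centre and in the scale, with an error controlled by the tilt. -/

open Set Filter Topology MeasureTheory Metric
open scoped RealInnerProductSpace

namespace Vale.Agent.P214.INT

open Vale.Agent.P214

set_option linter.unusedSectionVars false

/-! ### the window profile -/

/-- window profile: `1` for `t ≤ 1`, `0` for `t ≥ 2`, `C^1` -/
noncomputable def wprof (t : ℝ) : ℝ := prof ((max (t - 1) 0) ^ 2)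

/-- minus its derivative -/
noncomputable def dwprof (t : ℝ) : ℝ := dprof ((max (t - 1) 0) ^ 2) * (2 * max (t - 1) 0)

lemma wprof_nonneg (t : ℝ) : 0 ≤ wprof t := prof_nonneg _

lemma wprof_le_one (t : ℝ) : wprof t ≤ 1 := prof_le_one (sq_nonneg _)

lemma wprof_of_le {t : ℝ} (h : t ≤ 1) : wprof t = 1 := by
  unfold wprof prof
  rw [max_eq_right (by linarith : t - 1 ≤ 0)]; norm_num

lemma wprof_of_ge {t : ℝ} (h : 2 ≤ t) : wprof t = 0 := by
  unfold wprof
  apply prof_of_one_le
  have : 1 ≤ max (t - 1) 0 := le_max_of_le_left (by linarith)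
  nlinarith

lemma dwprof_nonneg (t : ℝ) : 0 ≤ dwprof t := by
  unfold dwprof
  have := dprof_nonneg ((max (t - 1) 0) ^ 2)
  have : 0 ≤ max (t - 1) 0 := le_max_right _ _
  positivity

lemma dwprof_of_ge {t : ℝ} (h : 2 ≤ t) : dwprof t = 0 := by
  unfold dwprof
  have : 1 ≤ max (t - 1) 0 := le_max_of_le_left (by linarith)
  rw [dprof_of_one_le (by nlinarith)]; simp

lemma dwprof_le (t : ℝ) : dwprof t ≤ 4 := by
  by_cases h : 2 ≤ t
  · rw [dwprof_of_ge h]; norm_num
  · unfold dwprof
    have h0 : 0 ≤ max (t - 1) 0 := le_max_right _ _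
    have h1 : max (t - 1) 0 ≤ 1 := max_le (by linarith) (by norm_num)
    have h2 := dprof_le_two (sq_nonneg (max (t - 1) 0))
    have h3 := dprof_nonneg ((max (t - 1) 0) ^ 2)
    nlinarith

lemma hasDerivAt_maxsq (t : ℝ) :
    HasDerivAt (fun t : ℝ => (max (t - 1) 0) ^ 2) (2 * max (t - 1) 0) t := by
  have h1 : (fun t : ℝ => (max (t - 1) 0) ^ 2) = fun t => prof (2 - t) := by
    funext u; unfold prof; congr 2; ring
  rw [h1]
  have h2 := (hasDerivAt_prof (2 - t)).comp t ((hasDerivAt_id t).const_sub 2)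
  refine h2.congr_deriv ?_
  unfold dprof
  have : (1:ℝ) - (2 - t) = t - 1 := by ring
  rw [this]; ring

lemma hasDerivAt_wprof (t : ℝ) : HasDerivAt wprof (-dwprof t) t := by
  have h := (hasDerivAt_prof ((max (t - 1) 0) ^ 2)).comp t (hasDerivAt_maxsq t)
  refine h.congr_deriv ?_
  unfold dwprof; ring

lemma continuous_wprof : Continuous wprof := by
  unfold wprof; exact continuous_prof.comp (by fun_prop)

lemma continuous_dwprof : Continuous dwprof := by
  unfold dwprof; exact (continuous_dprof.comp (by fun_prop)).mul (by fun_prop)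

lemma contDiff_wprof : ContDiff ℝ 1 wprof := by
  rw [contDiff_one_iff_deriv]
  refine ⟨fun t => (hasDerivAt_wprof t).differentiableAt, ?_⟩
  have : deriv wprof = fun t => -dwprof t := funext fun t => (hasDerivAt_wprof t).deriv
  rw [this]; exact continuous_dwprof.neg

/-! ### horizontal cut-off and vertical window -/

variable {E : Type*} [NormedAddCommGroup E] [InnerProductSpace ℝ E] [FiniteDimensional ℝ E]
  [MeasurableSpace E] [BorelSpace E]

variable {T : Submodule ℝ E} {z c x y : E} {r s : ℝ} {m : ℕ} {O : Set E} {ν : Measure E}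
  {P : E → E →L[ℝ] E}

/-- horizontal cut-off at scale `r` around `z` -/
noncomputable def hcut (T : Submodule ℝ E) (z : E) (r : ℝ) (y : E) : ℝ :=
  cut (T.starProjection z) r (T.starProjection y)

/-- vertical window of size `s` around the height of `c` -/
noncomputable def vwin (T : Submodule ℝ E) (c : E) (s : ℝ) (y : E) : ℝ :=
  wprof (‖Tᗮ.starProjection (y - c)‖ ^ 2 / s ^ 2)

lemma hcut_eq (z : E) (r : ℝ) (y : E) :
    hcut T z r y = prof (‖T.starProjection (y - z)‖ ^ 2 / r ^ 2) := by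
  unfold hcut cut; rw [map_sub]

lemma hcut_nonneg (z : E) (r : ℝ) (y : E) : 0 ≤ hcut T z r y := cut_nonneg _ _ _
lemma hcut_le_one (z : E) (r : ℝ) (y : E) : hcut T z r y ≤ 1 := cut_le_one _ _ _
lemma vwin_nonneg (c : E) (s : ℝ) (y : E) : 0 ≤ vwin T c s y := wprof_nonneg _
lemma vwin_le_one (c : E) (s : ℝ) (y : E) : vwin T c s y ≤ 1 := wprof_le_one _

lemma hcut_eq_zero (hr : 0 < r) (h : r ≤ ‖T.starProjection (y - z)‖) : hcut T z r y = 0 := by
  unfold hcut; apply cut_eq_zero hr; rwa [← map_sub]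

lemma vwin_eq_zero (hs : 0 < s) (h : 2 * s ≤ ‖Tᗮ.starProjection (y - c)‖) :
    vwin T c s y = 0 := by
  unfold vwin
  apply wprof_of_ge
  rw [le_div_iff₀ (by positivity)]
  nlinarith [norm_nonneg (Tᗮ.starProjection (y - c))]

lemma vwin_eq_one (hs : 0 < s) (h : ‖Tᗮ.starProjection (y - c)‖ ≤ s) :
    vwin T c s y = 1 := by
  unfold vwin
  apply wprof_of_le
  rw [div_le_one (by positivity)]
  gcongr

lemma contDiff_hcut (z : E) (r : ℝ) : ContDiff ℝ 1 (hcut T z r) := by
  unfold hcut; exact (contDiff_cut _ _).comp T.starProjection.contDiff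

lemma contDiff_vwin (c : E) (s : ℝ) : ContDiff ℝ 1 (vwin T c s) := by
  unfold vwin
  refine contDiff_wprof.comp (ContDiff.div_const ?_ _)
  exact (Tᗮ.starProjection.contDiff.comp (contDiff_id.sub contDiff_const)).norm_sq ℝ

lemma fderiv_hcut (z : E) (r : ℝ) (y w : E) : fderiv ℝ (hcut T z r) y w =
    fderiv ℝ (cut (T.starProjection z) r) (T.starProjection y) (T.starProjection w) := by
  have h1 : HasFDerivAt (cut (T.starProjection z) r)
      (fderiv ℝ (cut (T.starProjection z) r) (T.starProjection y)) (T.starProjection y) :=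
    ((contDiff_cut _ _).differentiable (by norm_num) _).hasFDerivAt
  have h2 := h1.comp y T.starProjection.hasFDerivAt
  have h3 : fderiv ℝ (hcut T z r) y = _ := h2.fderiv
  rw [h3]; rfl

lemma fderiv_hcut' (z : E) (r : ℝ) (y w : E) : fderiv ℝ (hcut T z r) y w =
    -(dcut (T.starProjection z) r (T.starProjection y)) * (2 / r ^ 2)
      * ⟪T.starProjection (y - z), T.starProjection w⟫ := by
  rw [fderiv_hcut, fderiv_cut, map_sub]

lemma abs_fderiv_hcut_le (hr : 0 < r) (z y w : E) :
    |fderiv ℝ (hcut T z r) y w| ≤ 4 / r * ‖w‖ := by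
  rw [fderiv_hcut]
  refine (abs_fderiv_cut_le hr _ _ _).trans ?_
  gcongr
  exact T.norm_starProjection_apply_le w

lemma fderiv_vwin (c : E) (s : ℝ) (y w : E) : fderiv ℝ (vwin T c s) y w =
    -(dwprof (‖Tᗮ.starProjection (y - c)‖ ^ 2 / s ^ 2)) * (2 / s ^ 2)
      * ⟪Tᗮ.starProjection (y - c), Tᗮ.starProjection w⟫ := by
  have h1 : HasFDerivAt (fun y : E => ‖Tᗮ.starProjection (y - c)‖ ^ 2)
      (((2 : ℝ) • innerSL ℝ (Tᗮ.starProjection (y - c))).comp Tᗮ.starProjection) y := by
    have h := (hasStrictFDerivAt_norm_sq (Tᗮ.starProjection (y - c))).hasFDerivAt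
    have h3 : HasFDerivAt (fun y : E => Tᗮ.starProjection (y - c)) Tᗮ.starProjection y := by
      have := Tᗮ.starProjection.hasFDerivAt (x := y - c)
      exact this.comp y ((hasFDerivAt_id y).sub_const c)
    refine (h.comp y h3).congr_fderiv ?_
    ext w
    simp only [ContinuousLinearMap.comp_apply, _root_.smul_apply, smul_eq_mul, nsmul_eq_mul]
    norm_num
  have h2 : HasFDerivAt (fun y : E => ‖Tᗮ.starProjection (y - c)‖ ^ 2 / s ^ 2)
      ((s ^ 2)⁻¹ • (((2 : ℝ) • innerSL ℝ (Tᗮ.starProjection (y - c))).comp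
        Tᗮ.starProjection)) y := by
    have := h1.const_mul ((s ^ 2)⁻¹)
    refine (this.congr_of_eventuallyEq ?_)
    exact Eventually.of_forall fun z => by simp [div_eq_mul_inv, mul_comm]
  have h3 := (hasDerivAt_wprof (‖Tᗮ.starProjection (y - c)‖ ^ 2 / s ^ 2)).comp_hasFDerivAt y h2
  have h4 : fderiv ℝ (vwin T c s) y = _ := h3.fderiv
  rw [h4]
  simp only [ContinuousLinearMap.comp_apply, _root_.smul_apply, smul_eq_mul, innerSL_apply_apply]
  field_simp

lemma abs_fderiv_vwin_le (hs : 0 < s) (c y w : E) :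
    |fderiv ℝ (vwin T c s) y w| ≤ 16 / s * ‖w‖ := by
  rw [fderiv_vwin]
  by_cases h : 2 * s ≤ ‖Tᗮ.starProjection (y - c)‖
  · rw [dwprof_of_ge]
    · simp; positivity
    · rw [le_div_iff₀ (by positivity)]
      nlinarith [norm_nonneg (Tᗮ.starProjection (y - c))]
  · have h2 := (not_le.1 h).le
    have h1 : |⟪Tᗮ.starProjection (y - c), Tᗮ.starProjection w⟫|
        ≤ ‖Tᗮ.starProjection (y - c)‖ * ‖w‖ :=
      (abs_real_inner_le_norm _ _).trans (by gcongr; exact Tᗮ.norm_starProjection_apply_le w)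
    have h3 := dwprof_le (‖Tᗮ.starProjection (y - c)‖ ^ 2 / s ^ 2)
    have h4 := dwprof_nonneg (‖Tᗮ.starProjection (y - c)‖ ^ 2 / s ^ 2)
    rw [abs_mul, abs_mul, abs_neg, abs_of_nonneg h4, abs_of_pos (by positivity : (0:ℝ) < 2 / s ^ 2)]
    calc _ ≤ 4 * (2 / s ^ 2) * ((2 * s) * ‖w‖) := by
          gcongr
          exact h1.trans (by gcongr)
      _ = 16 / s * ‖w‖ := by field_simp; ring

/-- the vertical window does not change in horizontal directions -/
lemma fderiv_vwin_horizontal (c : E) (s : ℝ) (y : E) {w : E} (hw : w ∈ T) :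
    fderiv ℝ (vwin T c s) y w = 0 := by
  rw [fderiv_vwin]
  have : Tᗮ.starProjection w = 0 := by
    rw [Submodule.starProjection_orthogonal_apply_eq_zero hw]
  rw [this]; simp

/-- the test function -/
noncomputable def tst (T : Submodule ℝ E) (z : E) (r : ℝ) (c : E) (s : ℝ) (y : E) : ℝ :=
  hcut T z r y * vwin T c s y

/-- its region -/
def reg (T : Submodule ℝ E) (z : E) (r : ℝ) (c : E) (s : ℝ) : Set E :=
  {y | ‖T.starProjection (y - z)‖ ≤ r ∧ ‖Tᗮ.starProjection (y - c)‖ ≤ 2 * s}

lemma isClosed_reg : IsClosed (reg T z r c s) := by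
  have h1 : IsClosed {y : E | ‖T.starProjection (y - z)‖ ≤ r} :=
    isClosed_le (by fun_prop) continuous_const
  have h2 : IsClosed {y : E | ‖Tᗮ.starProjection (y - c)‖ ≤ 2 * s} :=
    isClosed_le (by fun_prop) continuous_const
  exact h1.inter h2

lemma isCompact_reg : IsCompact (reg T z r c s) := by
  have hsub : reg T z r c s ⊆ closedBall z (r + (2 * s + ‖c - z‖)) := by
    intro y hy
    rw [mem_closedBall, dist_eq_norm]
    have h1 : y - z = T.starProjection (y - z) + Tᗮ.starProjection (y - z) :=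
      (T.starProjection_add_starProjection_orthogonal (y - z)).symm
    have h2 : Tᗮ.starProjection (y - z) = Tᗮ.starProjection (y - c) + Tᗮ.starProjection (c - z) := by
      rw [← map_add]; congr 1; abel
    rw [h1, h2]
    refine (norm_add_le _ _).trans ?_
    gcongr
    · exact hy.1
    · exact (norm_add_le _ _).trans (by gcongr; exacts [hy.2, Tᗮ.norm_starProjection_apply_le _])
  exact (isCompact_closedBall _ _).of_isClosed_subset isClosed_reg hsub

lemma tst_eq_zero (hr : 0 < r) (hs : 0 < s) (hy : y ∉ reg T z r c s) : tst T z r c s y = 0 := by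
  unfold tst
  by_cases h : ‖T.starProjection (y - z)‖ ≤ r
  · have h2 : 2 * s ≤ ‖Tᗮ.starProjection (y - c)‖ := by
      by_contra hcon; exact hy ⟨h, (not_le.1 hcon).le⟩
    rw [vwin_eq_zero hs h2, mul_zero]
  · rw [hcut_eq_zero hr (not_le.1 h).le, zero_mul]

lemma contDiff_tst : ContDiff ℝ 1 (tst T z r c s) := (contDiff_hcut z r).mul (contDiff_vwin c s)

lemma tst_nonneg : 0 ≤ tst T z r c s y := mul_nonneg (hcut_nonneg _ _ _) (vwin_nonneg _ _ _)

lemma tst_le_one : tst T z r c s y ≤ 1 :=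
  mul_le_one₀ (hcut_le_one _ _ _) (vwin_nonneg _ _ _) (vwin_le_one _ _ _)

lemma tsupport_tst (hr : 0 < r) (hs : 0 < s) : tsupport (tst T z r c s) ⊆ reg T z r c s := by
  refine closure_minimal ?_ isClosed_reg
  intro y hy
  by_contra h
  exact hy (tst_eq_zero hr hs h)

lemma hasCompactSupport_tst (hr : 0 < r) (hs : 0 < s) : HasCompactSupport (tst T z r c s) :=
  isCompact_reg.of_isClosed_subset (isClosed_tsupport _) (tsupport_tst hr hs)

lemma fderiv_tst (y w : E) : fderiv ℝ (tst T z r c s) y w =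
    hcut T z r y * fderiv ℝ (vwin T c s) y w + fderiv ℝ (hcut T z r) y w * vwin T c s y := by
  have h1 : HasFDerivAt (hcut T z r) (fderiv ℝ (hcut T z r) y) y :=
    ((contDiff_hcut z r).differentiable (by norm_num) y).hasFDerivAt
  have h2 : HasFDerivAt (vwin T c s) (fderiv ℝ (vwin T c s) y) y :=
    ((contDiff_vwin c s).differentiable (by norm_num) y).hasFDerivAt
  have h3 : fderiv ℝ (tst T z r c s) y = _ := (h1.mul h2).fderiv
  rw [h3]
  simp
  ring

lemma abs_fderiv_tst_le (hr : 0 < r) (hs : 0 < s) (y w : E) :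
    |fderiv ℝ (tst T z r c s) y w| ≤ (4 / r + 16 / s) * ‖w‖ := by
  rw [fderiv_tst]
  have h1 := abs_fderiv_hcut_le (T := T) hr z y w
  have h2 := abs_fderiv_vwin_le (T := T) hs c y w
  have h3 := hcut_nonneg (T := T) z r y
  have h4 := hcut_le_one (T := T) z r y
  have h5 := vwin_nonneg (T := T) c s y
  have h6 := vwin_le_one (T := T) c s y
  calc _ ≤ |hcut T z r y * fderiv ℝ (vwin T c s) y w| + |fderiv ℝ (hcut T z r) y w * vwin T c s y| :=
        abs_add_le _ _
    _ = hcut T z r y * |fderiv ℝ (vwin T c s) y w| + |fderiv ℝ (hcut T z r) y w| * vwin T c s y := by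
        rw [abs_mul, abs_mul, abs_of_nonneg h3, abs_of_nonneg h5]
    _ ≤ 1 * (16 / s * ‖w‖) + (4 / r * ‖w‖) * 1 := by gcongr
    _ = _ := by ring

lemma fderiv_tst_eq_zero (hr : 0 < r) (hs : 0 < s) (hy : y ∉ reg T z r c s) :
    fderiv ℝ (tst T z r c s) y = 0 := by
  by_contra h
  exact hy (tsupport_tst hr hs (support_fderiv_subset ℝ h))

end Vale.Agent.P214.INT
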