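import Vale.Agent.P214.INT.I1

/-! Transport of window functionals (scale and centre), comparison with ball ratios. -/

open Set Filter Topology MeasureTheory Metric
open scoped RealInnerProductSpace

namespace Vale.Agent.P214.INT

open Vale.Agent.P214

set_option linter.unusedSectionVars false

variable {E : Type*} [NormedAddCommGroup E] [InnerProductSpace ℝ E] [FiniteDimensional ℝ E]
  [MeasurableSpace E] [BorelSpace E]

variable {T : Submodule ℝ E} {z c x y v p : E} {r s : ℝ} {m : ℕ} {O : Set E} {ν : Measure E}
  {P : E → E →L[ℝ] E}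

/-- derivative of the scale invariant window functional -/
lemma hasDerivAt_wfr [IsFiniteMeasure ν] (hr : 0 < r) :
    HasDerivAt (fun r => wf T ν z r c s / r ^ m)
      (-(∫ y, ((m : ℝ) * tst T z r c s y
        + fderiv ℝ (tst T z r c s) y (T.starProjection (y - z))) ∂ν) / r ^ (m + 1)) r := by
  have h1 := hasDerivAt_wf (T := T) (ν := ν) (z := z) (c := c) (s := s) hr
  have h2 : HasDerivAt (fun r : ℝ => r ^ m) (m * r ^ (m - 1)) r := hasDerivAt_pow m r
  have h3 := h1.div h2 (by positivity)
  refine h3.congr_deriv ?_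
  have hval : ∀ y, fderiv ℝ (tst T z r c s) y (T.starProjection (y - z))
      = -(r * (dcut (T.starProjection z) r (T.starProjection y)
        * (2 * ‖T.starProjection (y - z)‖ ^ 2 / r ^ 3) * vwin T c s y)) := by
    intro y
    rw [fderiv_tst, fderiv_vwin_horizontal _ _ _ (T.starProjection_apply_mem _), fderiv_hcut']
    have e1 : T.starProjection (T.starProjection (y - z)) = T.starProjection (y - z) :=
      Submodule.starProjection_eq_self_iff.2 (T.starProjection_apply_mem _)
    rw [e1, real_inner_self_eq_norm_sq]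
    field_simp
    ring
  have hint : Integrable (fun y => dcut (T.starProjection z) r (T.starProjection y)
        * (2 * ‖T.starProjection (y - z)‖ ^ 2 / r ^ 3) * vwin T c s y) ν := by
    have hcd : Continuous fun y : E => dcut (T.starProjection z) r (T.starProjection y) :=
      (continuous_dcut _ _).comp T.starProjection.continuous
    have hcv : Continuous (vwin T c s) := (contDiff_vwin c s).continuous
    have hcont : Continuous fun y => dcut (T.starProjection z) r (T.starProjection y)
        * (2 * ‖T.starProjection (y - z)‖ ^ 2 / r ^ 3) * vwin T c s y := by fun_prop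
    refine (integrable_const (2 * (2 * r ^ 2 / r ^ 3) * 1 : ℝ)).mono'
      hcont.aestronglyMeasurable ?_
    refine Eventually.of_forall fun y => ?_
    by_cases h : r ≤ ‖T.starProjection (y - z)‖
    · rw [dcut_eq_zero hr (by rwa [← map_sub])]; simp; positivity
    · have h3 := dcut_le_two (T.starProjection z) r (T.starProjection y)
      have h4 := dcut_nonneg (T.starProjection z) r (T.starProjection y)
      rw [norm_mul, norm_mul, Real.norm_of_nonneg h4, Real.norm_of_nonneg (by positivity),
        Real.norm_of_nonneg (vwin_nonneg _ _ _)]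
      have h7 := vwin_le_one (T := T) c s y
      have h8 := vwin_nonneg (T := T) c s y
      have h9 : ‖T.starProjection (y - z)‖ ≤ r := (not_le.1 h).le
      gcongr
  have e2 : ∫ y, ((m : ℝ) * tst T z r c s y
        + fderiv ℝ (tst T z r c s) y (T.starProjection (y - z))) ∂ν
      = m * wf T ν z r c s - r * ∫ y, dcut (T.starProjection z) r (T.starProjection y)
        * (2 * ‖T.starProjection (y - z)‖ ^ 2 / r ^ 3) * vwin T c s y ∂ν := by
    simp only [hval, ← sub_eq_add_neg]
    rw [integral_sub (integrable_tst.const_mul _) (hint.const_mul r),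
      integral_const_mul, integral_const_mul]
    rfl
  rw [e2]
  generalize (∫ y, dcut (T.starProjection z) r (T.starProjection y)
        * (2 * ‖T.starProjection (y - z)‖ ^ 2 / r ^ 3) * vwin T c s y ∂ν) = D
  generalize wf T ν z r c s = W
  cases m with
  | zero => simp; field_simp
  | succ k =>
    simp only [Nat.add_sub_cancel]
    field_simp
    ring

/-- **scale transport** -/
lemma scale_transport [IsFiniteMeasure ν] (h : LocStat m O ν P) (hT : Module.finrank ℝ T = m)
    {r₁ r₂ : ℝ} (h1 : 0 < r₁) (h12 : r₁ ≤ r₂) (hs : 0 < s) (hO : reg T z r₂ c s ⊆ O) :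
    |wf T ν z r₂ c s / r₂ ^ m - wf T ν z r₁ c s / r₁ ^ m|
      ≤ (m * (5 + 16 * r₂ / s) * ∫ y in reg T z r₂ c s, tilt P T y ∂ν) / r₁ ^ (m + 1)
        * (r₂ - r₁) := by
  set I := ∫ y in reg T z r₂ c s, tilt P T y ∂ν with hI
  have hI0 : 0 ≤ I := integral_nonneg fun _ => tilt_nonneg
  have key := (convex_Icc r₁ r₂).norm_image_sub_le_of_norm_hasDerivWithin_le
    (f := fun r => wf T ν z r c s / r ^ m)
    (f' := fun r => -(∫ y, ((m : ℝ) * tst T z r c s y
        + fderiv ℝ (tst T z r c s) y (T.starProjection (y - z))) ∂ν) / r ^ (m + 1))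
    (C := (m * (5 + 16 * r₂ / s) * I) / r₁ ^ (m + 1)) (x := r₁) (y := r₂)
    (fun t ht => (hasDerivAt_wfr (h1.trans_le ht.1)).hasDerivWithinAt) ?_
    ⟨le_rfl, h12⟩ ⟨h12, le_rfl⟩
  · rw [Real.norm_eq_abs, Real.norm_eq_abs, abs_of_nonneg (sub_nonneg.2 h12)] at key
    exact key
  · intro t ht
    have ht0 : 0 < t := h1.trans_le ht.1
    have hsub : reg T z t c s ⊆ reg T z r₂ c s := reg_mono ht.2
    have he := abs_scale_err (T := T) (z := z) (c := c) h hT ht0 hs (hsub.trans hO)
    rw [Real.norm_eq_abs, abs_div, abs_neg, abs_of_pos (by positivity : 0 < t ^ (m + 1))]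
    have hI2 : ∫ y in reg T z t c s, tilt P T y ∂ν ≤ I :=
      setIntegral_mono_set (integrable_tilt h).integrableOn
        (Eventually.of_forall fun _ => tilt_nonneg) (Eventually.of_forall hsub)
    have hI3 : 0 ≤ ∫ y in reg T z t c s, tilt P T y ∂ν := integral_nonneg fun _ => tilt_nonneg
    have ht1 := ht.1
    have ht2 := ht.2
    have hr2 : 0 < r₂ := h1.trans_le h12
    have hp1 : 0 ≤ (m : ℝ) * (5 + 16 * r₂ / s) := by positivity
    have hp2 : 0 ≤ (m : ℝ) * (5 + 16 * r₂ / s) * I := by positivity
    have hp3 : 0 ≤ (m : ℝ) * (5 + 16 * t / s) := by positivity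
    calc _ ≤ (m * (5 + 16 * t / s) * ∫ y in reg T z t c s, tilt P T y ∂ν) / t ^ (m + 1) := by
          gcongr
      _ ≤ _ := by gcongr

/-- the window functional dominates the ball functional -/
lemma ratio_le_wf [IsFiniteMeasure ν] (hr : 0 < r) (hrs : r ≤ s) :
    ratio m ν p r ≤ wf T ν p r p s / r ^ m := by
  unfold ratio wf
  have hs : 0 < s := hr.trans_le hrs
  gcongr ?_ / _
  refine integral_mono ?_ integrable_tst fun y => ?_
  · exact integrable_of_ball (x := p) (continuous_cut p r) hr fun y hy => cut_eq_zero hr hy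
  · by_cases hy : r ≤ ‖y - p‖
    · rw [cut_eq_zero hr hy]; exact tst_nonneg
    · have hy' : ‖y - p‖ ≤ r := (not_le.1 hy).le
      have h1 : ‖Tᗮ.starProjection (y - p)‖ ≤ s :=
        (Tᗮ.norm_starProjection_apply_le _).trans (hy'.trans hrs)
      show cut p r y ≤ hcut T p r y * vwin T p s y
      rw [vwin_eq_one hs h1, mul_one, hcut_eq]
      unfold cut
      have h2 : ‖T.starProjection (y - p)‖ ≤ ‖y - p‖ := T.norm_starProjection_apply_le _
      have h3 : ‖T.starProjection (y - p)‖ ^ 2 / r ^ 2 ≤ ‖y - p‖ ^ 2 / r ^ 2 := by gcongr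
      unfold prof
      gcongr

lemma prof_add_le {u v : ℝ} (hv : 0 ≤ v) (hu : 0 ≤ u) : prof u ≤ prof (u + v) + 2 * v := by
  unfold prof
  rcases le_total 1 u with h | h
  · rw [max_eq_right (by linarith : 1 - u ≤ 0), max_eq_right (by linarith : 1 - (u + v) ≤ 0)]
    nlinarith
  · rw [max_eq_left (by linarith : 0 ≤ 1 - u)]
    rcases le_total 1 (u + v) with h2 | h2
    · rw [max_eq_right (by linarith : 1 - (u + v) ≤ 0)]
      nlinarith
    · rw [max_eq_left (by linarith : 0 ≤ 1 - (u + v))]
      nlinarith

lemma norm_sq_split (T : Submodule ℝ E) (w : E) :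
    ‖w‖ ^ 2 = ‖T.starProjection w‖ ^ 2 + ‖Tᗮ.starProjection w‖ ^ 2 := by
  have h1 : w = T.starProjection w + Tᗮ.starProjection w :=
    (T.starProjection_add_starProjection_orthogonal w).symm
  have h2 : ⟪T.starProjection w, Tᗮ.starProjection w⟫ = 0 :=
    Submodule.inner_right_of_mem_orthogonal (T.starProjection_apply_mem w)
      (Tᗮ.starProjection_apply_mem w)
  calc ‖w‖ ^ 2 = ‖T.starProjection w + Tᗮ.starProjection w‖ ^ 2 := by rw [← h1]
    _ = _ := by
      have := norm_add_sq_eq_norm_sq_add_norm_sq_of_inner_eq_zero _ _ h2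
      simpa [sq] using this

/-- the ball functional nearly dominates the window functional of small relative width -/
lemma wf_le_ratio [IsFiniteMeasure ν] (hr : 0 < r) (hs : 0 < s) :
    wf T ν p r p s / r ^ m ≤ ratio m ν p r
      + 8 * (s / r) ^ 2 * (ν.real (reg T p r p s) / r ^ m) := by
  unfold ratio wf
  rw [← mul_div_assoc, ← add_div]
  gcongr ?_ / _
  have hR : MeasurableSet (reg T p r p s) := isClosed_reg.measurableSet
  have hic : Integrable (fun y => cut p r y) ν :=
    integrable_of_ball (x := p) (continuous_cut p r) hr fun y hy => cut_eq_zero hr hy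
  have hii : Integrable ((reg T p r p s).indicator fun _ => 8 * (s / r) ^ 2) ν :=
    (integrable_const _).indicator hR
  calc ∫ y, tst T p r p s y ∂ν
      ≤ ∫ y, (cut p r y + (reg T p r p s).indicator (fun _ => 8 * (s / r) ^ 2) y) ∂ν := by
        refine integral_mono integrable_tst (hic.add hii) fun y => ?_
        by_cases hy : y ∈ reg T p r p s
        · simp only [indicator_of_mem hy]
          have h1 : tst T p r p s y ≤ hcut T p r y := by
            unfold tst
            have := hcut_nonneg (T := T) p r y
            have := vwin_le_one (T := T) p s y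
            nlinarith
          refine h1.trans ?_
          rw [hcut_eq]
          have h2 := prof_add_le (u := ‖T.starProjection (y - p)‖ ^ 2 / r ^ 2)
            (v := ‖Tᗮ.starProjection (y - p)‖ ^ 2 / r ^ 2) (by positivity) (by positivity)
          rw [← add_div, ← norm_sq_split] at h2
          refine h2.trans ?_
          unfold cut
          have h3 : ‖Tᗮ.starProjection (y - p)‖ ^ 2 / r ^ 2 ≤ (2 * s) ^ 2 / r ^ 2 := by
            have := hy.2
            gcongr
          have h4 : 2 * ((2 * s) ^ 2 / r ^ 2) = 8 * (s / r) ^ 2 := by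
            rw [div_pow]; ring
          linarith
        · simp only [indicator_of_notMem hy, add_zero]
          rw [tst_eq_zero hr hs hy]; exact cut_nonneg _ _ _
    _ = _ := by
        rw [integral_add hic hii, integral_indicator hR]
        simp
        ring

end Vale.Agent.P214.INT
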