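import Vale.Agent.P214.INT.MBad

/-!
# P214, block INT, theorem M (iv): the projected measure is `Q` times the plane up to the excess
-/

open Set Filter Topology MeasureTheory Metric
open scoped RealInnerProductSpace ENNReal

set_option linter.all false

namespace Vale.Agent.P214.INT

open Vale.Agent.P214 Vale.Agent.P214.FV Vale.Agent.P214.INT.NI

variable {E : Type*} [NormedAddCommGroup E] [InnerProductSpace ℝ E] [FiniteDimensional ℝ E]
  [MeasurableSpace E] [BorelSpace E]

variable {m Q : ℕ} {δ : ℝ} {T : Submodule ℝ E} {G : Set E} {h : ℝ} {ν : Measure E}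
  {P : E → E →L[ℝ] E} {S : Set E} {θ : E → ℕ} {J : E → ℝ} {z x : E} {r s τ : ℝ}

lemma goodSet_subset_T : goodSet m T ν P z r τ ⊆ (T : Set E) := fun _ hx => hx.1

lemma goodSet_subset_ball : goodSet m T ν P z r τ ⊆ ball z r := fun _ hx => hx.2.1

lemma goodSet_mono {τ' : ℝ} (h : τ ≤ τ') : goodSet m T ν P z r τ ⊆ goodSet m T ν P z r τ' :=
  fun _ hx => ⟨hx.1, hx.2.1, fun s hs hsr => (hx.2.2 s hs hsr).trans h⟩

/-- if there are exactly `Q` sheets over `X` then the projected measure, weighted with the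
Jacobian, is `Q` times the plane -/
lemma map_eq_of_sheets (hI : IntCyl m T G h ν P S θ J) {X : Set E} (hX : MeasurableSet X)
    (hXT : X ⊆ (T : Set E)) (hN : ∀ᵐ x ∂(μH[m].restrict X), sheets T S θ univ x = Q) :
    ((ν.restrict (T.starProjection ⁻¹' X)).withDensity fun y => ENNReal.ofReal (J y)).map
      T.starProjection = (Q : ℝ≥0∞) • (μH[m] : Measure E).restrict X := by
  have hTm : Measurable (T.starProjection : E → E) := T.starProjection.continuous.measurable
  have hTs : MeasurableSet (T : Set E) := (Submodule.closed_of_finiteDimensional T).measurableSet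
  ext B hB
  rw [Measure.map_apply hTm hB, withDensity_apply _ (hTm hB), Measure.restrict_restrict (hTm hB),
    Measure.smul_apply, Measure.restrict_apply hB, smul_eq_mul]
  have h1 := hI.area univ MeasurableSet.univ ((B ∩ X).indicator fun _ => (1 : ℝ≥0∞))
    (measurable_const.indicator (hB.inter hX))
  rw [Measure.restrict_univ] at h1
  have h2 : ∫⁻ y, (B ∩ X).indicator (fun _ => (1 : ℝ≥0∞)) (T.starProjection y) *
      ENNReal.ofReal (J y) ∂ν =
      ∫⁻ y in T.starProjection ⁻¹' B ∩ T.starProjection ⁻¹' X, ENNReal.ofReal (J y) ∂ν := by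
    rw [← lintegral_indicator ((hTm hB).inter (hTm hX))]
    refine lintegral_congr fun y => ?_
    by_cases hy : T.starProjection y ∈ B ∩ X
    · rw [indicator_of_mem hy, indicator_of_mem (show y ∈ _ ∩ _ from ⟨hy.1, hy.2⟩), one_mul]
    · rw [indicator_of_notMem hy, indicator_of_notMem (fun h => hy ⟨h.1, h.2⟩), zero_mul]
  rw [h2] at h1
  rw [h1]
  have h3 : ∫⁻ x in (T : Set E), (B ∩ X).indicator (fun _ => (1 : ℝ≥0∞)) x *
      sheets T S θ univ x ∂μH[m] = ∫⁻ x in B ∩ X, sheets T S θ univ x ∂μH[m] := by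
    have h4 : (fun x => (B ∩ X).indicator (fun _ => (1 : ℝ≥0∞)) x * sheets T S θ univ x) =
        (B ∩ X).indicator (fun x => sheets T S θ univ x) := by
      ext x
      by_cases hx : x ∈ B ∩ X
      · rw [indicator_of_mem hx, indicator_of_mem hx, one_mul]
      · rw [indicator_of_notMem hx, indicator_of_notMem hx, zero_mul]
    rw [h4, lintegral_indicator (hB.inter hX), Measure.restrict_restrict (hB.inter hX)]
    congr 2
    exact inter_eq_left.2 fun x hx => hXT hx.2
  rw [h3]
  have h5 : ∀ᵐ x ∂((μH[m] : Measure E).restrict (B ∩ X)), sheets T S θ univ x = Q :=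
    ae_mono (Measure.restrict_mono inter_subset_right le_rfl) hN
  rw [lintegral_congr_ae h5, lintegral_const, Measure.restrict_apply_univ]

/-- exact area formula over a set with `Q` sheets, for real functions -/
lemma integral_of_sheets (hI : IntCyl m T G h ν P S θ J) {X : Set E} (hX : MeasurableSet X)
    (hXT : X ⊆ (T : Set E)) (hN : ∀ᵐ x ∂(μH[m].restrict X), sheets T S θ univ x = Q)
    {g : E → ℝ} (hg : Measurable g) :
    ∫ y in T.starProjection ⁻¹' X, g (T.starProjection y) * J y ∂ν = Q * ∫ x in X, g x ∂μH[m] := by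
  have hTm : Measurable (T.starProjection : E → E) := T.starProjection.continuous.measurable
  have h1 := map_eq_of_sheets hI hX hXT hN
  have h2 : ∫ x, g x ∂(((ν.restrict (T.starProjection ⁻¹' X)).withDensity
      fun y => ENNReal.ofReal (J y)).map T.starProjection) = Q * ∫ x in X, g x ∂μH[m] := by
    rw [h1, integral_smul_measure, ENNReal.toReal_natCast, smul_eq_mul]
  rw [← h2, integral_map hTm.aemeasurable hg.aestronglyMeasurable]
  rw [integral_withDensity_eq_integral_toReal_smul₀
    (hI.measJ.restrict.ennreal_ofReal) (Eventually.of_forall fun y => ENNReal.ofReal_lt_top)]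
  refine integral_congr_ae ?_
  filter_upwards [ae_restrict_of_ae hI.J_nonneg] with y hy
  rw [ENNReal.toReal_ofReal hy, smul_eq_mul, mul_comm]

/-- **area formula with `Q` sheets up to the excess** -/
theorem area_approx {m : ℕ} (hMS : MassStable E m) (hSE : SheetsEq E m) (Q : ℕ) :
    ∃ δ C : ℝ, 0 < δ ∧ 0 < C ∧ ∀ (T : Submodule ℝ E) (G : Set E) (h : ℝ)
    (ν : Measure E) (P : E → E →L[ℝ] E) (S : Set E) (θ : E → ℕ) (J : E → ℝ) (z : E) (r : ℝ),
    Win m Q δ T G h ν P S θ J z r → ∀ (κ : ℝ) (e : E → ℝ), C * κ ≤ δ →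
    (∀ y, 0 ≤ e y) → IntegrableOn e (cyl T z (2 * r)) ν →
    (∀ᵐ y ∂ν, y ∈ cyl T z (2 * r) → tilt P T y ^ 2 ≤ κ + e y) →
    ∀ (K : ℝ) (g : E → ℝ), Measurable g → (∀ x, |g x| ≤ K) →
    |∫ y in cyl T z r, g (T.starProjection y) * J y ∂ν -
      Q * ∫ x in (T : Set E) ∩ ball z r, g x ∂μH[m]| ≤ C * K * ∫ y in cyl T z (2 * r), e y ∂ν := by
  obtain ⟨δ₁, C₁, hδ₁, hC₁, hB⟩ := bad_le' hMS Q
  obtain ⟨δ₂, hδ₂, hS⟩ := hSE Q
  set δ := min δ₁ δ₂ with hδdef
  have hδ : 0 < δ := lt_min hδ₁ hδ₂
  set C := C₁ + (1 + Q) * (C₁ / δ) with hC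
  have hC0 : 0 < C := by positivity
  refine ⟨δ, C, hδ, hC0, ?_⟩
  intro T G h ν P S θ J z r hW κ e hκ he hei hte K g hg hgK
  have hfin := hW.int.finite
  have hL := hW.int.loc
  have hr := hW.pos
  have hI := hW.int
  have hcg := cg_pos m
  have hTm : Measurable (T.starProjection : E → E) := T.starProjection.continuous.measurable
  have hTs : MeasurableSet (T : Set E) := (Submodule.closed_of_finiteDimensional T).measurableSet
  have hpz : T.starProjection z = z := Submodule.starProjection_eq_self_iff.2 hW.mem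
  have hK : 0 ≤ K := (abs_nonneg _).trans (hgK 0)
  have hei0 : 0 ≤ ∫ y in cyl T z (2 * r), e y ∂ν := setIntegral_nonneg measurableSet_cyl
    fun y _ => he y
  have hκ' : C₁ * κ ≤ δ := by
    rcases le_or_gt κ 0 with h0 | h0
    · nlinarith
    · have : C₁ ≤ C := by rw [hC]; have : 0 ≤ (1 + (Q:ℝ)) * (C₁ / δ) := by positivity
                          linarith
      nlinarith
  have hbad := hB T G h ν P S θ J z r (hW.mono (min_le_left _ _)) δ κ e hδ (min_le_left _ _)
    hκ' he hei hte
  set X := goodSet m T ν P z r δ with hXdef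
  have hXm : MeasurableSet X := measurableSet_goodSet hL
  have hN : ∀ᵐ x ∂((μH[m] : Measure E).restrict X), sheets T S θ univ x = Q := by
    have := hS T G h ν P S θ J z r (hW.mono (min_le_right _ _))
    exact ae_mono (Measure.restrict_mono (goodSet_mono (min_le_right _ _)) le_rfl) this
  set Y := ((T : Set E) ∩ ball z r) \ X with hYdef
  have hYm : MeasurableSet Y := (hTs.inter measurableSet_ball).diff hXm
  set D := ∫ y in cyl T z (2 * r), e y ∂ν with hD
  have hY1 : μH[m] Y ≤ ENNReal.ofReal (C₁ / δ * D) := le_self_add.trans hbad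
  have hYp : T.starProjection ⁻¹' Y = T.starProjection ⁻¹' (ball z r \ X) := by
    ext y
    simp only [hYdef, mem_preimage, mem_diff, mem_inter_iff, SetLike.mem_coe,
      Submodule.starProjection_apply_mem, true_and]
  have hY2 : ν (T.starProjection ⁻¹' Y) ≤ ENNReal.ofReal (C₁ / δ * D) := by
    rw [hYp]; exact le_add_self.trans hbad
  have hY1' : (μH[m] Y).toReal ≤ C₁ / δ * D :=
    ENNReal.toReal_le_of_le_ofReal (by positivity) hY1
  have hY2' : (ν (T.starProjection ⁻¹' Y)).toReal ≤ C₁ / δ * D :=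
    ENNReal.toReal_le_of_le_ofReal (by positivity) hY2
  have hY1f : μH[m] Y < ∞ := hY1.trans_lt ENNReal.ofReal_lt_top
  -- integrability
  have hbf : μH[m] ((T : Set E) ∩ ball z r) < ∞ :=
    (plane_ball_le hI.stat.dimT hW.mem hr).trans_lt ENNReal.ofReal_lt_top
  have hgi : IntegrableOn g ((T : Set E) ∩ ball z r) (μH[m] : Measure E) := by
    haveI : IsFiniteMeasure ((μH[m] : Measure E).restrict ((T : Set E) ∩ ball z r)) :=
      ⟨by rw [Measure.restrict_apply_univ]; exact hbf⟩
    exact Integrable.of_bound hg.aestronglyMeasurable K (Eventually.of_forall hgK)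
  have hgJ : Integrable (fun y => g (T.starProjection y) * J y) ν := by
    refine Integrable.of_bound ((hg.comp hTm).aestronglyMeasurable.mul
      hI.measJ.aestronglyMeasurable) K ?_
    filter_upwards [hI.J_nonneg, hI.J_le] with y h1 h2
    rw [norm_mul, Real.norm_eq_abs, Real.norm_eq_abs, abs_of_nonneg h1]
    calc _ ≤ K * 1 := mul_le_mul (hgK _) h2 h1 hK
      _ = K := mul_one K
  -- split
  have hcyl : cyl T z r = T.starProjection ⁻¹' X ∪ T.starProjection ⁻¹' Y := by
    ext y
    simp only [cyl, hYdef, mem_preimage, mem_union, mem_diff, mem_inter_iff, SetLike.mem_coe,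
      Submodule.starProjection_apply_mem, true_and, hpz]
    constructor
    · intro h; by_cases hy : T.starProjection y ∈ X
      · exact Or.inl hy
      · exact Or.inr ⟨h, hy⟩
    · rintro (h | h)
      · exact goodSet_subset_ball h
      · exact h.1
  have hsplit : (T : Set E) ∩ ball z r = X ∪ Y := by
    rw [hYdef, union_diff_cancel]
    exact fun x hx => ⟨goodSet_subset_T hx, goodSet_subset_ball hx⟩
  have hdisj : Disjoint X Y := disjoint_sdiff_right
  have e1 : ∫ y in cyl T z r, g (T.starProjection y) * J y ∂ν =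
      (∫ y in T.starProjection ⁻¹' X, g (T.starProjection y) * J y ∂ν) +
      ∫ y in T.starProjection ⁻¹' Y, g (T.starProjection y) * J y ∂ν := by
    rw [hcyl]
    exact setIntegral_union (hdisj.preimage _) (hTm hYm) hgJ.integrableOn hgJ.integrableOn
  have e2 : ∫ x in (T : Set E) ∩ ball z r, g x ∂μH[m] =
      (∫ x in X, g x ∂μH[m]) + ∫ x in Y, g x ∂μH[m] := by
    rw [hsplit] at hgi ⊢
    exact setIntegral_union hdisj hYm (hgi.mono_set subset_union_left)
      (hgi.mono_set subset_union_right)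
  have e3 := integral_of_sheets hI hXm goodSet_subset_T hN hg
  have b1 : |∫ y in T.starProjection ⁻¹' Y, g (T.starProjection y) * J y ∂ν| ≤
      K * (C₁ / δ * D) := by
    have := norm_setIntegral_le_of_norm_le_const_ae' (μ := ν) (s := T.starProjection ⁻¹' Y)
      (f := fun y => g (T.starProjection y) * J y) (C := K) (measure_lt_top _ _) (by
        filter_upwards [hI.J_nonneg, hI.J_le] with y h1 h2 _
        rw [norm_mul, Real.norm_eq_abs, Real.norm_eq_abs, abs_of_nonneg h1]
        calc _ ≤ K * 1 := mul_le_mul (hgK _) h2 h1 hK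
          _ = K := mul_one K)
    rw [Real.norm_eq_abs] at this
    refine this.trans ?_
    rw [measureReal_def]
    gcongr
  have b2 : |∫ x in Y, g x ∂μH[m]| ≤ K * (C₁ / δ * D) := by
    have := norm_setIntegral_le_of_norm_le_const (μ := (μH[m] : Measure E)) (s := Y)
      (f := g) (C := K) hY1f (fun x _ => hgK x)
    rw [Real.norm_eq_abs] at this
    refine this.trans ?_
    rw [measureReal_def]
    gcongr
  rw [e1, e2, e3]
  have e4 : (Q * ∫ x in X, g x ∂μH[m]) +
      (∫ y in T.starProjection ⁻¹' Y, g (T.starProjection y) * J y ∂ν) -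
      Q * ((∫ x in X, g x ∂μH[m]) + ∫ x in Y, g x ∂μH[m]) =
      (∫ y in T.starProjection ⁻¹' Y, g (T.starProjection y) * J y ∂ν) -
      Q * ∫ x in Y, g x ∂μH[m] := by ring
  rw [e4]
  have hQ0 : (0:ℝ) ≤ Q := Nat.cast_nonneg Q
  calc _ ≤ |∫ y in T.starProjection ⁻¹' Y, g (T.starProjection y) * J y ∂ν| +
        |Q * ∫ x in Y, g x ∂μH[m]| := abs_sub _ _
    _ ≤ K * (C₁ / δ * D) + Q * (K * (C₁ / δ * D)) := by
        rw [abs_mul, abs_of_nonneg hQ0]
        gcongr
    _ = ((1 + Q) * (C₁ / δ)) * K * D := by ring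
    _ ≤ C * K * D := by
        gcongr
        rw [hC]; linarith

/-- **(INT-M)(iv)** -/
theorem plane_approx {m : ℕ} (hMS : MassStable E m) (hSE : SheetsEq E m) (Q : ℕ) :
    ∃ δ C : ℝ, 0 < δ ∧ 0 < C ∧ ∀ (T : Submodule ℝ E) (G : Set E) (h : ℝ)
    (ν : Measure E) (P : E → E →L[ℝ] E) (S : Set E) (θ : E → ℕ) (J : E → ℝ) (z : E) (r : ℝ),
    Win m Q δ T G h ν P S θ J z r →
    ∀ (K : ℝ) (g : E → ℝ), Measurable g → (∀ x, |g x| ≤ K) →
    |∫ y in cyl T z r, g (T.starProjection y) ∂ν -
      Q * ∫ x in (T : Set E) ∩ ball z r, g x ∂μH[m]| ≤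
      C * K * ∫ y in cyl T z (2 * r), tilt P T y ^ 2 ∂ν := by
  obtain ⟨δ, C, hδ, hC, hA⟩ := area_approx hMS hSE Q
  refine ⟨δ, C + m, hδ, by positivity, ?_⟩
  intro T G h ν P S θ J z r hW K g hg hgK
  have hfin := hW.int.finite
  have hL := hW.int.loc
  have hI := hW.int
  have hr := hW.pos
  have hTm : Measurable (T.starProjection : E → E) := T.starProjection.continuous.measurable
  have hK : 0 ≤ K := (abs_nonneg _).trans (hgK 0)
  have hti := integrable_tilt_sq (T := T) hL
  have h1 := hA T G h ν P S θ J z r hW 0 _ (by simpa using hδ.le) (fun y => sq_nonneg _)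
    hti.integrableOn (Eventually.of_forall fun y _ => by simp) K g hg hgK
  set D := ∫ y in cyl T z (2 * r), tilt P T y ^ 2 ∂ν with hD
  have hgJ : Integrable (fun y => g (T.starProjection y) * J y) ν := by
    refine Integrable.of_bound ((hg.comp hTm).aestronglyMeasurable.mul
      hI.measJ.aestronglyMeasurable) K ?_
    filter_upwards [hI.J_nonneg, hI.J_le] with y h1 h2
    rw [norm_mul, Real.norm_eq_abs, Real.norm_eq_abs, abs_of_nonneg h1]
    calc _ ≤ K * 1 := mul_le_mul (hgK _) h2 h1 hK
      _ = K := mul_one K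
  have hg1 : Integrable (fun y => g (T.starProjection y)) ν :=
    Integrable.of_bound (hg.comp hTm).aestronglyMeasurable K (Eventually.of_forall fun y => hgK _)
  have h2 : |∫ y in cyl T z r, g (T.starProjection y) ∂ν -
      ∫ y in cyl T z r, g (T.starProjection y) * J y ∂ν| ≤ m * K * D := by
    rw [← integral_sub hg1.integrableOn hgJ.integrableOn, ← Real.norm_eq_abs]
    have h3 : ‖∫ y in cyl T z r, (g (T.starProjection y) - g (T.starProjection y) * J y) ∂ν‖ ≤
        ∫ y in cyl T z r, m * K * tilt P T y ^ 2 ∂ν := by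
      refine norm_integral_le_of_norm_le (hti.integrableOn.const_mul _) ?_
      filter_upwards [ae_restrict_of_ae hI.J_nonneg, ae_restrict_of_ae hI.J_le,
        ae_restrict_of_ae hI.J_ge] with y h1 h2 h3
      have e : g (T.starProjection y) - g (T.starProjection y) * J y =
        g (T.starProjection y) * (1 - J y) := by ring
      rw [e, norm_mul, Real.norm_eq_abs, Real.norm_eq_abs, abs_of_nonneg (sub_nonneg.2 h2)]
      calc _ ≤ K * (m * tilt P T y ^ 2) := mul_le_mul (hgK _) h3 (sub_nonneg.2 h2) hK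
        _ = _ := by ring
    refine h3.trans ?_
    rw [integral_const_mul]
    gcongr
    refine setIntegral_mono_set hti.integrableOn (Eventually.of_forall fun _ => sq_nonneg _) ?_
    exact (cyl_mono (by linarith)).eventuallyLE
  calc _ = |(∫ y in cyl T z r, g (T.starProjection y) ∂ν -
          ∫ y in cyl T z r, g (T.starProjection y) * J y ∂ν) +
        (∫ y in cyl T z r, g (T.starProjection y) * J y ∂ν -
          Q * ∫ x in (T : Set E) ∩ ball z r, g x ∂μH[m])| := by congr 1; ring
    _ ≤ _ := abs_add_le _ _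
    _ ≤ m * K * D + C * K * D := add_le_add h2 h1
    _ = _ := by ring

end Vale.Agent.P214.INT
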