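import Vale.Agent.P214.INT.MGood

/-!
# P214, block INT, theorem M (iii), (iii'): the bad base points have small measure
-/

open Set Filter Topology MeasureTheory Metric
open scoped RealInnerProductSpace ENNReal

set_option linter.all false

namespace Vale.Agent.P214.INT

open Vale.Agent.P214 Vale.Agent.P214.FV Vale.Agent.P214.INT.NI

variable {E : Type*} [NormedAddCommGroup E] [InnerProductSpace ℝ E] [FiniteDimensional ℝ E]
  [MeasurableSpace E] [BorelSpace E]

/-- **Vitali covering of a set of bad base points**, abstract form: the disjoint balls carry a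
fixed fraction of everything -/
theorem vitali_bad {m : ℕ} {T : Submodule ℝ E} (hT : Module.finrank ℝ T = m) {ν : Measure E}
    [IsFiniteMeasure ν] {A : Set E} (hAT : A ⊆ (T : Set E)) {s : E → ℝ} {R C₁ K : ℝ}
    (hC₁ : 0 ≤ C₁) (hK : 0 ≤ K) {e : E → ℝ} (he : ∀ y, 0 ≤ e y)
    (hs : ∀ x ∈ A, 0 < s x) (hsR : ∀ x ∈ A, s x ≤ R)
    (hei : ∀ x ∈ A, IntegrableOn e (cyl T x (s x)) ν)
    (hmass : ∀ x ∈ A, ν.real (T.starProjection ⁻¹' (A ∩ ball x (5 * s x))) ≤ C₁ * s x ^ m)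
    (hmass1 : ∀ x ∈ A, ν.real (cyl T x (s x)) ≤ C₁ * s x ^ m)
    (hse : ∀ x ∈ A, s x ^ m ≤ K * ∫ y in cyl T x (s x), e y ∂ν) :
    ∃ u : Set E, u ⊆ A ∧ u.Countable ∧ (u.PairwiseDisjoint fun a => closedBall a (s a)) ∧
      (∀ x ∈ A, ∃ b ∈ u, x ∈ ball b (5 * s b)) ∧
      μH[m] A + ν (T.starProjection ⁻¹' A) +
        ν (T.starProjection ⁻¹' (⋃ b ∈ u, ball b (s b))) ≤
        ENNReal.ofReal ((2 * 2 ^ m * cg m * 5 ^ m + 2 * C₁) * K) *
          ∫⁻ y in T.starProjection ⁻¹' (⋃ b ∈ u, ball b (s b)), ENNReal.ofReal (e y) ∂ν := by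
  have hcg := cg_pos m
  set C₂ : ℝ := 2 * 2 ^ m * cg m * 5 ^ m + 2 * C₁ with hC₂
  have hC₂0 : 0 < C₂ := by positivity
  obtain ⟨u, hu, hdis, hcov⟩ := Vitali.exists_disjoint_subfamily_covering_enlargement_closedBall
    A (fun x => x) s R hsR 4 (by norm_num)
  have huc : u.Countable := by
    refine hdis.countable_of_nonempty_interior fun x hx => ?_
    exact ⟨x, ball_subset_interior_closedBall (mem_ball_self (hs x (hu hx)))⟩
  haveI := huc.to_subtype
  have hmem : ∀ x ∈ A, ∃ b ∈ u, x ∈ ball b (5 * s b) := by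
    intro x hx
    obtain ⟨b, hb, hsub⟩ := hcov x hx
    refine ⟨b, hb, ?_⟩
    have h1 := hsub (mem_closedBall_self (hs x hx).le)
    have := hs b (hu hb)
    exact closedBall_subset_ball (by linarith) h1
  refine ⟨u, hu, huc, hdis, hmem, ?_⟩
  have hpt : ∀ b : E, b ∈ T → T.starProjection b = b := fun b hb =>
    Submodule.starProjection_eq_self_iff.2 hb
  have hcov1 : A ⊆ ⋃ b : u, (T : Set E) ∩ ball (b : E) (5 * s b) := by
    intro x hx
    obtain ⟨b, hb, hxb⟩ := hmem x hx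
    exact mem_iUnion.2 ⟨⟨b, hb⟩, hAT hx, hxb⟩
  have hcyl : ∀ (b : u) (t : ℝ), cyl T (b : E) t = T.starProjection ⁻¹' (ball (b : E) t) := by
    intro b t
    rw [cyl, hpt b (hAT (hu b.2))]
  have hcov2 : T.starProjection ⁻¹' A ⊆
      ⋃ b : u, T.starProjection ⁻¹' (A ∩ ball (b : E) (5 * s b)) := by
    intro y hy
    obtain ⟨b, hb, hxb⟩ := hmem (T.starProjection y) hy
    exact mem_iUnion.2 ⟨⟨b, hb⟩, hy, hxb⟩
  have hW : T.starProjection ⁻¹' (⋃ b ∈ u, ball b (s b)) = ⋃ b : u, cyl T (b : E) (s b) := by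
    rw [biUnion_eq_iUnion, preimage_iUnion]
    exact iUnion_congr fun b => (hcyl b _).symm
  rw [hW]
  -- one ball
  have hone : ∀ b : u, μH[m] ((T : Set E) ∩ ball (b : E) (5 * s b)) +
      ν (T.starProjection ⁻¹' (A ∩ ball (b : E) (5 * s b))) + ν (cyl T (b : E) (s b)) ≤
        ENNReal.ofReal (C₂ * K) * ∫⁻ y in cyl T (b : E) (s b), ENNReal.ofReal (e y) ∂ν := by
    rintro ⟨b, hb⟩
    have hbB := hu hb
    have hsb := hs b hbB
    have h1 := plane_ball_le hT (hAT hbB) (s := 5 * s b) (by linarith)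
    have h2 : ν (T.starProjection ⁻¹' (A ∩ ball b (5 * s b))) ≤ ENNReal.ofReal (C₁ * s b ^ m) := by
      rw [← ENNReal.ofReal_toReal (measure_ne_top ν (T.starProjection ⁻¹' (A ∩ ball b (5 * s b))))]
      exact ENNReal.ofReal_le_ofReal (hmass b hbB)
    have h2' : ν (cyl T b (s b)) ≤ ENNReal.ofReal (C₁ * s b ^ m) := by
      rw [← ENNReal.ofReal_toReal (measure_ne_top ν (cyl T b (s b)))]
      exact ENNReal.ofReal_le_ofReal (hmass1 b hbB)
    have h3 : ∫⁻ y in cyl T b (s b), ENNReal.ofReal (e y) ∂ν =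
        ENNReal.ofReal (∫ y in cyl T b (s b), e y ∂ν) := by
      rw [ofReal_integral_eq_lintegral_ofReal (hei b hbB) (Eventually.of_forall fun y => he y)]
    show μH[m] ((T : Set E) ∩ ball b (5 * s b)) +
      ν (T.starProjection ⁻¹' (A ∩ ball b (5 * s b))) + ν (cyl T b (s b)) ≤
      ENNReal.ofReal (C₂ * K) * ∫⁻ y in cyl T b (s b), ENNReal.ofReal (e y) ∂ν
    rw [h3, ← ENNReal.ofReal_mul (by positivity)]
    calc _ ≤ ENNReal.ofReal (2 * 2 ^ m * cg m * (5 * s b) ^ m) + ENNReal.ofReal (C₁ * s b ^ m) +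
          ENNReal.ofReal (C₁ * s b ^ m) := add_le_add (add_le_add h1 h2) h2'
      _ = ENNReal.ofReal (C₂ * s b ^ m) := by
          rw [← ENNReal.ofReal_add (by positivity) (by positivity),
            ← ENNReal.ofReal_add (by positivity) (by positivity)]
          congr 1
          rw [hC₂, mul_pow]; ring
      _ ≤ _ := by
          refine ENNReal.ofReal_le_ofReal ?_
          calc C₂ * s b ^ m ≤ C₂ * (K * ∫ y in cyl T b (s b), e y ∂ν) := by
                gcongr; exact hse b hbB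
            _ = _ := by ring
  calc μH[m] A + ν (T.starProjection ⁻¹' A) + ν (⋃ b : u, cyl T (b : E) (s b))
      ≤ (∑' b : u, μH[m] ((T : Set E) ∩ ball (b : E) (5 * s b))) +
          (∑' b : u, ν (T.starProjection ⁻¹' (A ∩ ball (b : E) (5 * s b)))) +
            ∑' b : u, ν (cyl T (b : E) (s b)) :=
        add_le_add (add_le_add ((measure_mono hcov1).trans (measure_iUnion_le _))
          ((measure_mono hcov2).trans (measure_iUnion_le _))) (measure_iUnion_le _)
    _ = ∑' b : u, (μH[m] ((T : Set E) ∩ ball (b : E) (5 * s b)) +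
          ν (T.starProjection ⁻¹' (A ∩ ball (b : E) (5 * s b))) + ν (cyl T (b : E) (s b))) := by
        rw [ENNReal.tsum_add, ENNReal.tsum_add]
    _ ≤ ∑' b : u, ENNReal.ofReal (C₂ * K) *
          ∫⁻ y in cyl T (b : E) (s b), ENNReal.ofReal (e y) ∂ν := ENNReal.tsum_le_tsum hone
    _ = _ := by
        rw [ENNReal.tsum_mul_left, lintegral_iUnion (fun b => measurableSet_cyl)]
        intro a b hab
        have hab' : (a : E) ≠ b := fun h => hab (Subtype.ext h)
        have := hdis a.2 b.2 hab'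
        refine disjoint_left.2 fun y hya hyb => ?_
        replace hya : y ∈ cyl T (a : E) (s a) := hya
        replace hyb : y ∈ cyl T (b : E) (s b) := hyb
        rw [hcyl] at hya hyb
        exact disjoint_left.1 this (ball_subset_closedBall hya) (ball_subset_closedBall hyb)

/-- **the bad scale of a bad base point** -/
theorem bad_scale {m : ℕ} (hMS : MassStable E m) (Q : ℕ) :
    ∃ δ C : ℝ, 0 < δ ∧ 0 < C ∧ ∀ (T : Submodule ℝ E) (G : Set E) (h : ℝ)
    (ν : Measure E) (P : E → E →L[ℝ] E) (S : Set E) (θ : E → ℕ) (J : E → ℝ) (z : E) (r : ℝ),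
    Win m Q δ T G h ν P S θ J z r → ∀ (τ κ : ℝ) (e : E → ℝ), 0 < τ → τ ≤ δ → C * κ ≤ τ →
    (∀ y, 0 ≤ e y) → IntegrableOn e (cyl T z (2 * r)) ν →
    (∀ᵐ y ∂ν, y ∈ cyl T z (2 * r) → tilt P T y ^ 2 ≤ κ + e y) →
    ∀ x ∈ T, x ∈ ball z r → x ∉ goodSet m T ν P z r τ →
      ∃ s, 0 < s ∧ s ≤ r ∧ τ < exc m T ν P x s ∧
        (∀ s', 2 * s ≤ s' → s' ≤ r → exc m T ν P x s' ≤ τ) ∧
        cyl T x s ⊆ cyl T z (2 * r) ∧
        (∀ t, t ≤ 5 * s → t ≤ 2 * r → ν.real (cyl T x t) ≤ C * s ^ m) ∧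
        s ^ m ≤ 2 / τ * ∫ y in cyl T x s, e y ∂ν := by
  obtain ⟨δ₁, C₁, hδ₁, hC₁, hI⟩ := hMS Q 1 one_pos
  refine ⟨δ₁ / 8 ^ m, 2 * C₁, by positivity, by positivity, ?_⟩
  intro T G h ν P S θ J z r hW τ κ e hτ hτδ hκ he hei hte x hxT hxz hxg
  have hfin := hW.int.finite
  have hL := hW.int.loc
  have hr := hW.pos
  have h8 : (1:ℝ) ≤ 8 ^ m := one_le_pow₀ (by norm_num)
  have h28 : (2:ℝ) ^ m ≤ 8 ^ m := by gcongr; norm_num
  have hκ' : C₁ * κ ≤ τ / 2 := by linarith
  have hW' : Win m Q δ₁ T G h ν P S θ J z r := hW.mono (by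
    rw [div_le_iff₀ (by positivity)]; nlinarith)
  have hxz' : ‖x - z‖ < r := by rwa [mem_ball, dist_eq_norm] at hxz
  obtain ⟨s, hs, hsr, hse, hs'⟩ := exists_bad_scale hτ.le hxT hxz hxg
  have hsm : ∀ s', s ≤ s' → s' ≤ r → exc m T ν P x s' ≤ δ₁ := by
    intro s' h1 h2
    have hs'0 : 0 < s' := hs.trans_le h1
    rcases le_or_gt (2 * s) r with h3 | h3
    · rcases le_or_gt (2 * s) s' with h4 | h4
      · refine (hs' s' h4 h2).trans (hτδ.trans ?_)
        rw [div_le_iff₀ (by positivity)]; nlinarith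
      · have h5 := exc_le_of_subset (m := m) (T := T) hL (x := x) (x' := x) (s := s')
          (s' := 2 * s) (c := 2) hs'0 (by linarith) (cyl_mono h4.le) (by linarith)
        calc _ ≤ _ := h5
          _ ≤ 2 ^ m * τ := by gcongr; exact hs' _ le_rfl h3
          _ ≤ 8 ^ m * (δ₁ / 8 ^ m) := by gcongr
          _ = δ₁ := by field_simp
    · have h5 := exc_le_of_subset (m := m) (T := T) hL (x := x) (x' := z) (s := s')
          (s' := 4 * r) (c := 8) hs'0 (by linarith) (cyl_subset_cyl' (by linarith)) (by linarith)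
      calc _ ≤ _ := h5
          _ ≤ 8 ^ m * (δ₁ / 8 ^ m) := by gcongr; exact hW.small
          _ = δ₁ := by field_simp
  have hmass := (hI T G h ν P S θ J z r hW' x hxT hxz s hs hsr hsm).2
  have hsub : cyl T x s ⊆ cyl T z (2 * r) := cyl_subset_cyl' (by linarith)
  have hsm0 : 0 < s ^ m := by positivity
  refine ⟨s, hs, hsr, hse, hs', hsub,
    fun t h1 h2 => (hmass t h1 h2).trans (by nlinarith), ?_⟩
  unfold exc at hse
  rw [lt_div_iff₀ (by positivity)] at hse
  have h6 : ∫ y in cyl T x s, tilt P T y ^ 2 ∂ν ≤ ∫ y in cyl T x s, (κ + e y) ∂ν := by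
    refine setIntegral_mono_on_ae (integrable_tilt_sq hL).integrableOn
      ((integrable_const _).integrableOn.add (hei.mono_set hsub)) measurableSet_cyl ?_
    filter_upwards [hte] with y hy hy' using hy (hsub hy')
  rw [integral_add (integrable_const _) (hei.mono_set hsub), setIntegral_const,
    smul_eq_mul] at h6
  have h7 : ν.real (cyl T x s) ≤ C₁ * s ^ m := hmass s (by linarith) (by linarith)
  have h8' : ν.real (cyl T x s) * κ ≤ τ / 2 * s ^ m := by
    rcases le_or_gt κ 0 with h0 | h0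
    · have : 0 ≤ ν.real (cyl T x s) := measureReal_nonneg
      have h9 : 0 ≤ τ / 2 * s ^ m := by positivity
      nlinarith
    · calc _ ≤ C₁ * s ^ m * κ := by gcongr
        _ = C₁ * κ * s ^ m := by ring
        _ ≤ _ := by gcongr
  rw [div_mul_eq_mul_div, le_div_iff₀ hτ]
  nlinarith

/-- **(INT-M)(iii), local form**: the bad points in `A` are controlled by the energy over an open
set `W` which is a disjoint union of balls centred in `A` -/
theorem bad_local {m : ℕ} (hMS : MassStable E m) (Q : ℕ) :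
    ∃ δ C : ℝ, 0 < δ ∧ 0 < C ∧ ∀ (T : Submodule ℝ E) (G : Set E) (h : ℝ)
    (ν : Measure E) (P : E → E →L[ℝ] E) (S : Set E) (θ : E → ℕ) (J : E → ℝ) (z : E) (r : ℝ),
    Win m Q δ T G h ν P S θ J z r → ∀ (τ κ : ℝ) (e : E → ℝ), 0 < τ → τ ≤ δ → C * κ ≤ τ →
    (∀ y, 0 ≤ e y) → IntegrableOn e (cyl T z (2 * r)) ν →
    (∀ᵐ y ∂ν, y ∈ cyl T z (2 * r) → tilt P T y ^ 2 ≤ κ + e y) →
    ∀ A : Set E, A ⊆ (T : Set E) → A ⊆ ball z r → Disjoint A (goodSet m T ν P z r τ) →
      ∃ (s : E → ℝ) (u : Set E), u ⊆ A ∧ u.Countable ∧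
        (u.PairwiseDisjoint fun a => closedBall a (s a)) ∧
        (∀ x ∈ A, 0 < s x ∧ s x ≤ r ∧ τ < exc m T ν P x (s x) ∧
          (∀ s', 2 * s x ≤ s' → s' ≤ r → exc m T ν P x s' ≤ τ)) ∧
        μH[m] A + ν (T.starProjection ⁻¹' A) +
          ν (T.starProjection ⁻¹' (⋃ b ∈ u, ball b (s b))) ≤
          ENNReal.ofReal (C / τ) *
            ∫⁻ y in T.starProjection ⁻¹' (⋃ b ∈ u, ball b (s b)), ENNReal.ofReal (e y) ∂ν := by
  obtain ⟨δ, C, hδ, hC, hB⟩ := bad_scale hMS Q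
  have hcg := cg_pos m
  refine ⟨δ, max C ((2 * 2 ^ m * cg m * 5 ^ m + 2 * C) * 2), hδ, lt_max_of_lt_left hC, ?_⟩
  intro T G h ν P S θ J z r hW τ κ e hτ hτδ hκ he hei hte A hAT hAz hAg
  have hfin := hW.int.finite
  have hκ' : C * κ ≤ τ := by
    rcases le_or_gt κ 0 with h0 | h0
    · nlinarith
    · exact (mul_le_mul_of_nonneg_right (le_max_left _ _) h0.le).trans hκ
  have hex := fun x (hx : x ∈ A) => hB T G h ν P S θ J z r hW τ κ e hτ hτδ hκ' he hei hte x
    (hAT hx) (hAz hx) (disjoint_left.1 hAg hx)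
  choose! s hs hsr hse hs' hsub hmass hen using hex
  have hm5 : ∀ x ∈ A, ν.real (T.starProjection ⁻¹' (A ∩ ball x (5 * s x))) ≤ C * s x ^ m := by
    intro x hx
    refine (measureReal_mono ?_).trans (hmass x hx (min (5 * s x) (2 * r))
      (min_le_left _ _) (min_le_right _ _))
    rintro y ⟨hyA, hyb⟩
    have hxx : T.starProjection x = x := Submodule.starProjection_eq_self_iff.2 (hAT hx)
    show T.starProjection y ∈ ball (T.starProjection x) (min (5 * s x) (2 * r))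
    rw [hxx, mem_ball, lt_min_iff]
    refine ⟨hyb, ?_⟩
    have h1 := hAz hyA
    have h2 := hAz hx
    rw [mem_ball] at h1 h2
    calc dist (T.starProjection y) x ≤ dist (T.starProjection y) z + dist z x := dist_triangle _ _ _
      _ < 2 * r := by rw [dist_comm z x]; linarith
  obtain ⟨u, hu, huc, hdis, -, hmain⟩ := vitali_bad hW.int.stat.dimT (ν := ν) hAT hC.le
    (by positivity : 0 ≤ 2 / τ) he hs hsr (fun x hx => hei.mono_set (hsub x hx)) hm5
    (fun x hx => hmass x hx (s x) (by linarith [hs x hx]) (by linarith [hsr x hx, hW.pos])) hen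
  refine ⟨s, u, hu, huc, hdis, fun x hx => ⟨hs x hx, hsr x hx, hse x hx, hs' x hx⟩, ?_⟩
  refine hmain.trans ?_
  gcongr
  rw [mul_div_assoc']
  gcongr
  exact le_max_right _ _

/-- **(INT-M)(iii')**: the bad base points, when `tilt² ≤ κ + e` with a small constant `κ` -/
theorem bad_le' {m : ℕ} (hMS : MassStable E m) (Q : ℕ) :
    ∃ δ C : ℝ, 0 < δ ∧ 0 < C ∧ ∀ (T : Submodule ℝ E) (G : Set E) (h : ℝ)
    (ν : Measure E) (P : E → E →L[ℝ] E) (S : Set E) (θ : E → ℕ) (J : E → ℝ) (z : E) (r : ℝ),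
    Win m Q δ T G h ν P S θ J z r → ∀ (τ κ : ℝ) (e : E → ℝ), 0 < τ → τ ≤ δ → C * κ ≤ τ →
    (∀ y, 0 ≤ e y) → IntegrableOn e (cyl T z (2 * r)) ν →
    (∀ᵐ y ∂ν, y ∈ cyl T z (2 * r) → tilt P T y ^ 2 ≤ κ + e y) →
    μH[m] (((T : Set E) ∩ ball z r) \ goodSet m T ν P z r τ) +
      ν (T.starProjection ⁻¹' (ball z r \ goodSet m T ν P z r τ)) ≤
        ENNReal.ofReal (C / τ * ∫ y in cyl T z (2 * r), e y ∂ν) := by
  obtain ⟨δ, C, hδ, hC, hB⟩ := bad_local hMS Q
  refine ⟨δ, C, hδ, hC, ?_⟩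
  intro T G h ν P S θ J z r hW τ κ e hτ hτδ hκ he hei hte
  have hfin := hW.int.finite
  obtain ⟨s, u, hu, huc, hdis, hs, hmain⟩ := hB T G h ν P S θ J z r hW τ κ e hτ hτδ hκ he hei hte
    (((T : Set E) ∩ ball z r) \ goodSet m T ν P z r τ) (fun x hx => hx.1.1) (fun x hx => hx.1.2)
    disjoint_sdiff_left
  have hpre : T.starProjection ⁻¹' (((T : Set E) ∩ ball z r) \ goodSet m T ν P z r τ) =
      T.starProjection ⁻¹' (ball z r \ goodSet m T ν P z r τ) := by
    ext y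
    simp only [mem_preimage, mem_diff, mem_inter_iff, SetLike.mem_coe,
      Submodule.starProjection_apply_mem, true_and]
  rw [hpre] at hmain
  refine (le_self_add.trans hmain).trans ?_
  rw [ENNReal.ofReal_mul (by positivity), ofReal_integral_eq_lintegral_ofReal hei
    (Eventually.of_forall fun y => he y)]
  gcongr
  intro y hy
  rw [mem_preimage, mem_iUnion₂] at hy
  obtain ⟨b, hb, hyb⟩ := hy
  have hbA := hu hb
  have hbz : ‖b - z‖ < r := by
    have := hbA.1.2; rwa [mem_ball, dist_eq_norm] at this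
  refine (cyl_subset_cyl' (by linarith [(hs b hbA).2.1]) : cyl T b (s b) ⊆ cyl T z (2 * r)) ?_
  rw [cyl, mem_preimage, Submodule.starProjection_eq_self_iff.2 (show b ∈ T from hbA.1.1)]
  exact hyb

/-- **(INT-M)(iii)**: the bad base points -/
theorem bad_le {m : ℕ} (hMS : MassStable E m) (Q : ℕ) :
    ∃ δ C : ℝ, 0 < δ ∧ 0 < C ∧ ∀ (T : Submodule ℝ E) (G : Set E) (h : ℝ)
    (ν : Measure E) (P : E → E →L[ℝ] E) (S : Set E) (θ : E → ℕ) (J : E → ℝ) (z : E) (r : ℝ),
    Win m Q δ T G h ν P S θ J z r → ∀ τ : ℝ, 0 < τ → τ ≤ δ →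
    μH[m] (((T : Set E) ∩ ball z r) \ goodSet m T ν P z r τ) +
      ν (T.starProjection ⁻¹' (ball z r \ goodSet m T ν P z r τ)) ≤
        ENNReal.ofReal (C / τ * ∫ y in cyl T z (2 * r), tilt P T y ^ 2 ∂ν) := by
  obtain ⟨δ, C, hδ, hC, hB⟩ := bad_le' hMS Q
  refine ⟨δ, C, hδ, hC, ?_⟩
  intro T G h ν P S θ J z r hW τ hτ hτδ
  have hfin := hW.int.finite
  exact hB T G h ν P S θ J z r hW τ 0 _ hτ hτδ (by simpa using hτ.le) (fun y => sq_nonneg _)
    (integrable_tilt_sq hW.int.loc).integrableOn (Eventually.of_forall fun y _ => by simp)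

end Vale.Agent.P214.INT
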