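import Vale.Agent.P214.INT.NearMain

/-!
# P214, block INT, theorem M: the good base points and the Vitali covering of the bad ones

`goodSet` = base points all of whose cylinders up to scale `r` have small tilt excess.
-/

open Set Filter Topology MeasureTheory Metric
open scoped RealInnerProductSpace ENNReal

set_option linter.all false

namespace Vale.Agent.P214.INT

open Vale.Agent.P214 Vale.Agent.P214.FV Vale.Agent.P214.INT.NI

variable {E : Type*} [NormedAddCommGroup E] [InnerProductSpace ℝ E] [FiniteDimensional ℝ E]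
  [MeasurableSpace E] [BorelSpace E]

/-- the base points of `ball z r` all of whose excesses at scales `≤ r` are `≤ τ` -/
def goodSet (m : ℕ) (T : Submodule ℝ E) (ν : Measure E) (P : E → E →L[ℝ] E) (z : E) (r τ : ℝ) :
    Set E :=
  {x | x ∈ T ∧ x ∈ ball z r ∧ ∀ s, 0 < s → s ≤ r → exc m T ν P x s ≤ τ}

/-- the standard hypotheses of theorem M: `Q` sheets (up to `1/3`) at scale `2r`, small excess at
scale `4r` -/
structure Win (m Q : ℕ) (δ : ℝ) (T : Submodule ℝ E) (G : Set E) (h : ℝ) (ν : Measure E)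
    (P : E → E →L[ℝ] E) (S : Set E) (θ : E → ℕ) (J : E → ℝ) (z : E) (r : ℝ) : Prop where
  int : IntCyl m T G h ν P S θ J
  mem : z ∈ T
  pos : 0 < r
  sub : cyl T z (4 * r) ⊆ T.starProjection ⁻¹' G
  near : |htot m T ν z (2 * r) / cg m - Q| ≤ 1 / 3
  small : exc m T ν P z (4 * r) ≤ δ

/-- (INT-M)(i) -/
def MassStable (E : Type*) [NormedAddCommGroup E] [InnerProductSpace ℝ E]
    [FiniteDimensional ℝ E] [MeasurableSpace E] [BorelSpace E] (m : ℕ) : Prop :=
  ∀ (Q : ℕ) (ε : ℝ), 0 < ε → ∃ δ C : ℝ, 0 < δ ∧ 0 < C ∧ ∀ (T : Submodule ℝ E) (G : Set E) (h : ℝ)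
    (ν : Measure E) (P : E → E →L[ℝ] E) (S : Set E) (θ : E → ℕ) (J : E → ℝ) (z : E) (r : ℝ),
    Win m Q δ T G h ν P S θ J z r → ∀ x ∈ T, x ∈ ball z r → ∀ s, 0 < s → s ≤ r →
    (∀ s', s ≤ s' → s' ≤ r → exc m T ν P x s' ≤ δ) →
    (∀ s', s / 10 ≤ s' → s' ≤ r → |htot m T ν x s' / cg m - Q| ≤ ε) ∧
      ∀ t, t ≤ 5 * s → t ≤ 2 * r → ν.real (cyl T x t) ≤ C * s ^ m

/-- (INT-M)(ii) -/
def SheetsEq (E : Type*) [NormedAddCommGroup E] [InnerProductSpace ℝ E]
    [FiniteDimensional ℝ E] [MeasurableSpace E] [BorelSpace E] (m : ℕ) : Prop :=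
  ∀ (Q : ℕ), ∃ δ : ℝ, 0 < δ ∧ ∀ (T : Submodule ℝ E) (G : Set E) (h : ℝ)
    (ν : Measure E) (P : E → E →L[ℝ] E) (S : Set E) (θ : E → ℕ) (J : E → ℝ) (z : E) (r : ℝ),
    Win m Q δ T G h ν P S θ J z r →
    ∀ᵐ x ∂(μH[m].restrict (goodSet m T ν P z r δ)), sheets T S θ univ x = Q

variable {m Q : ℕ} {δ : ℝ} {T : Submodule ℝ E} {G : Set E} {h : ℝ} {ν : Measure E}
  {P : E → E →L[ℝ] E} {S : Set E} {θ : E → ℕ} {J : E → ℝ} {z x : E} {r s τ : ℝ}

lemma Win.mono {δ' : ℝ} (hW : Win m Q δ T G h ν P S θ J z r) (h' : δ ≤ δ') :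
    Win m Q δ' T G h ν P S θ J z r :=
  { hW with small := hW.small.trans h' }

lemma cyl_eq_iUnion (T : Submodule ℝ E) (x : E) (s : ℝ) :
    cyl T x s = ⋃ n : ℕ, cyl T x (s - 1 / (n + 1)) := by
  ext y
  simp only [cyl, mem_preimage, mem_ball, mem_iUnion]
  constructor
  · intro hy
    obtain ⟨n, hn⟩ := exists_nat_one_div_lt (sub_pos.2 hy)
    exact ⟨n, by linarith⟩
  · rintro ⟨n, hn⟩
    have : (0:ℝ) < 1 / (n + 1) := by positivity
    linarith

lemma exists_smaller {f : E → ℝ} (hf : Integrable f ν) {c : ℝ}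
    (hc : c < ∫ y in cyl T x s, f y ∂ν) : ∃ t < s, c < ∫ y in cyl T x t, f y ∂ν := by
  have hmono : Monotone fun n : ℕ => cyl T x (s - 1 / ((n:ℝ) + 1)) := by
    intro a b hab
    refine cyl_mono ?_
    have : 1 / ((b:ℝ) + 1) ≤ 1 / ((a:ℝ) + 1) := by
      have : (a:ℝ) ≤ b := by exact_mod_cast hab
      gcongr
    linarith
  have h1 := tendsto_setIntegral_of_monotone (μ := ν) (f := f)
    (s := fun n : ℕ => cyl T x (s - 1 / ((n:ℝ) + 1))) (fun n => measurableSet_cyl) hmono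
    hf.integrableOn
  rw [← cyl_eq_iUnion] at h1
  obtain ⟨n, hn⟩ := (h1.eventually (lt_mem_nhds hc)).exists
  refine ⟨_, ?_, hn⟩
  have : (0:ℝ) < 1 / ((n:ℝ) + 1) := by positivity
  linarith

lemma cyl_subset_cyl {x x' : E} {t s : ℝ} (h : ‖T.starProjection (x - x')‖ + t ≤ s) :
    cyl T x t ⊆ cyl T x' s := by
  intro y hy
  rw [cyl, mem_preimage, mem_ball, dist_eq_norm, ← map_sub] at hy ⊢
  have e : y - x' = (y - x) + (x - x') := by abel
  rw [e, map_add]
  calc _ ≤ ‖T.starProjection (y - x)‖ + ‖T.starProjection (x - x')‖ := norm_add_le _ _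
    _ < s := by linarith

lemma cyl_subset_cyl' {x x' : E} {t s : ℝ} (h : ‖x - x'‖ + t ≤ s) :
    cyl T x t ⊆ cyl T x' s :=
  cyl_subset_cyl (by have := norm_star_le T (x - x'); linarith)

lemma isClosed_exc_le [IsFiniteMeasure ν] {O : Set E} (hL : LocStat m O ν P) (hs : 0 < s) :
    IsClosed {x | exc m T ν P x s ≤ τ} := by
  rw [← isOpen_compl_iff, Metric.isOpen_iff]
  intro x hx
  rw [mem_compl_iff, mem_setOf_eq, not_le] at hx
  unfold exc at hx
  rw [lt_div_iff₀ (by positivity)] at hx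
  obtain ⟨t, hts, ht⟩ := exists_smaller (integrable_tilt_sq (T := T) hL) hx
  refine ⟨s - t, sub_pos.2 hts, ?_⟩
  intro x' hx'
  rw [mem_compl_iff, mem_setOf_eq, not_le]
  unfold exc
  rw [lt_div_iff₀ (by positivity)]
  refine ht.trans_le ?_
  refine setIntegral_mono_set (integrable_tilt_sq hL).integrableOn
    (Eventually.of_forall fun y => sq_nonneg _) ?_
  refine (cyl_subset_cyl' ?_).eventuallyLE
  rw [mem_ball, dist_eq_norm, ← norm_neg, neg_sub] at hx'
  linarith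

lemma measurableSet_goodSet [IsFiniteMeasure ν] {O : Set E} (hL : LocStat m O ν P) :
    MeasurableSet (goodSet m T ν P z r τ) := by
  have e : goodSet m T ν P z r τ = (T : Set E) ∩ (ball z r ∩
      ⋂ s : {s : ℝ // 0 < s ∧ s ≤ r}, {x | exc m T ν P x s ≤ τ}) := by
    ext x
    simp only [goodSet, mem_setOf_eq, mem_inter_iff, SetLike.mem_coe, mem_iInter, Subtype.forall,
      and_imp]
  rw [e]
  refine (Submodule.closed_of_finiteDimensional T).measurableSet.inter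
    (measurableSet_ball.inter (IsClosed.measurableSet ?_))
  exact isClosed_iInter fun s => isClosed_exc_le hL s.2.1

lemma exists_bad_scale (hτ : 0 ≤ τ) (hx : x ∈ T) (hxz : x ∈ ball z r)
    (hxg : x ∉ goodSet m T ν P z r τ) :
    ∃ s, 0 < s ∧ s ≤ r ∧ τ < exc m T ν P x s ∧ ∀ s', 2 * s ≤ s' → s' ≤ r → exc m T ν P x s' ≤ τ := by
  simp only [goodSet, mem_setOf_eq, not_and, not_forall, not_le] at hxg
  obtain ⟨s₀, hs₀, hs₀r, hs₀e⟩ := hxg hx hxz
  set A := {s : ℝ | 0 < s ∧ s ≤ r ∧ τ < exc m T ν P x s} with hA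
  have hne : A.Nonempty := ⟨s₀, hs₀, hs₀r, hs₀e⟩
  have hbd : BddAbove A := ⟨r, fun s hs => hs.2.1⟩
  have hpos : 0 < sSup A := hs₀.trans_le (le_csSup hbd ⟨hs₀, hs₀r, hs₀e⟩)
  obtain ⟨s, hs, hlt⟩ := exists_lt_of_lt_csSup hne (by linarith : sSup A / 2 < sSup A)
  refine ⟨s, hs.1, hs.2.1, hs.2.2, fun s' h1 h2 => ?_⟩
  by_contra hcon
  have : s' ∈ A := ⟨by linarith [hs.1], h2, not_le.1 hcon⟩
  have := le_csSup hbd this
  linarith

/-- the measure of a plane ball -/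
lemma plane_ball_le (hT : Module.finrank ℝ T = m) (hx : x ∈ T) (hs : 0 < s) :
    μH[m] ((T : Set E) ∩ ball x s) ≤ ENNReal.ofReal (2 * 2 ^ m * cg m * s ^ m) := by
  have h1 := lintegral_cut_plane hT hx (r := 2 * s) (by linarith)
  have h2 : ENNReal.ofReal (1 / 2) * μH[m] ((T : Set E) ∩ ball x s) ≤
      ∫⁻ y in (T : Set E), ENNReal.ofReal (cut x (2 * s) y) ∂μH[m] := by
    calc _ = ∫⁻ y in (T : Set E) ∩ ball x s, ENNReal.ofReal (1 / 2) ∂μH[m] := by
          rw [setLIntegral_const]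
      _ ≤ ∫⁻ y in (T : Set E) ∩ ball x s, ENNReal.ofReal (cut x (2 * s) y) ∂μH[m] := by
          refine setLIntegral_mono' ((Submodule.closed_of_finiteDimensional T).measurableSet.inter
            measurableSet_ball) fun y hy => ?_
          refine ENNReal.ofReal_le_ofReal ?_
          have := cut_ge (by linarith : 0 < 2 * s) (x := x) (y := y) (by
            have := hy.2; rw [mem_ball, dist_eq_norm] at this; linarith)
          linarith
      _ ≤ _ := lintegral_mono_set inter_subset_left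
  rw [h1] at h2
  have h3 : μH[m] ((T : Set E) ∩ ball x s) = ENNReal.ofReal 2 *
      (ENNReal.ofReal (1 / 2) * μH[m] ((T : Set E) ∩ ball x s)) := by
    rw [← mul_assoc, ← ENNReal.ofReal_mul (by norm_num)]
    norm_num
  rw [h3]
  calc _ ≤ ENNReal.ofReal 2 * ENNReal.ofReal (cg m * (2 * s) ^ m) := by gcongr
    _ = _ := by
        rw [← ENNReal.ofReal_mul (by norm_num)]
        congr 1
        rw [mul_pow]; ring

/-- excess of a cylinder inside a larger one -/
lemma exc_le_of_subset [IsFiniteMeasure ν] {O : Set E} (hL : LocStat m O ν P) {x' : E} {s' c : ℝ}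
    (hs : 0 < s) (hs' : 0 < s') (hsub : cyl T x s ⊆ cyl T x' s') (hc : s' ≤ c * s) :
    exc m T ν P x s ≤ c ^ m * exc m T ν P x' s' := by
  unfold exc
  rw [div_le_iff₀ (by positivity)]
  have h1 : ∫ y in cyl T x s, tilt P T y ^ 2 ∂ν ≤ ∫ y in cyl T x' s', tilt P T y ^ 2 ∂ν :=
    setIntegral_mono_set (integrable_tilt_sq hL).integrableOn
      (Eventually.of_forall fun _ => sq_nonneg _) hsub.eventuallyLE
  have h0 : 0 ≤ ∫ y in cyl T x' s', tilt P T y ^ 2 ∂ν := integral_nonneg fun _ => sq_nonneg _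
  refine h1.trans ?_
  have h2 : s' ^ m ≤ (c * s) ^ m := by gcongr
  calc ∫ y in cyl T x' s', tilt P T y ^ 2 ∂ν
      = (∫ y in cyl T x' s', tilt P T y ^ 2 ∂ν) / s' ^ m * s' ^ m := by field_simp
    _ ≤ (∫ y in cyl T x' s', tilt P T y ^ 2 ∂ν) / s' ^ m * (c * s) ^ m := by gcongr
    _ = _ := by rw [mul_pow]; ring

lemma exc_nonneg (hs : 0 < s) : 0 ≤ exc m T ν P x s :=
  div_nonneg (integral_nonneg fun _ => sq_nonneg _) (by positivity)

end Vale.Agent.P214.INT
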