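import Vale.Agent.P214.INT.HtotW
import Vale.Agent.P214.INT.CutPlane
import Vale.Agent.P214.BES.Basic

/-!
# P214, block INT: the mass fraction is nearly an integer at small excess

`FibreSumLe` is the multilayer monotonicity (proved elsewhere); `near_integer` is its consequence
(INT-N): for every `M, ε` there is `δ` such that for cylinder data with integer multiplicity over
`ball z (2r)`, mass `≤ M r^m` and excess `≤ δ`, the mass fraction `htot m T ν z r / cg m` is
`ε`-close to a natural number.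
-/

open Set Filter Topology MeasureTheory Metric
open scoped RealInnerProductSpace ENNReal

set_option linter.all false

namespace Vale.Agent.P214.INT.NI

open Vale.Agent.P214 Vale.Agent.P214.FV Vale.Agent.P214.INT

/-- multilayer monotonicity: the densities of finitely many good points over (essentially) one base
point add up to at most the mass fraction of the cylinder, up to `ε`. -/
def FibreSumLe (E : Type*) [NormedAddCommGroup E] [InnerProductSpace ℝ E] [FiniteDimensional ℝ E]
    [MeasurableSpace E] [BorelSpace E] (m : ℕ) : Prop :=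
  ∀ c₀ M ε : ℝ, 0 < c₀ → 0 < M → 0 < ε → ∃ δ > 0, ∀ (T : Submodule ℝ E) (O : Set E)
    (ν : Measure E) [IsFiniteMeasure ν] (P : E → E →L[ℝ] E) (x : E) (r : ℝ) (A : Finset E)
    (q : E → ℝ), Module.finrank ℝ T = m → LocStat m O ν P → 0 < r →
    (∀ p ∈ A, T.starProjection p = T.starProjection x ∧ closedBall p (12 * r) ⊆ O ∧
      ratio m ν p (12 * r) ≤ M ∧
      (∀ s, 0 < s → s ≤ 12 * r → ∫ y in closedBall p s, tilt P T y ^ 2 ∂ν ≤ δ * s ^ m) ∧
      (∀ s, 0 < s → s ≤ 12 * r → q p ≤ ratio m ν p s) ∧ c₀ ≤ q p) →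
    htot m T ν x r ≤ M → ∑ p ∈ A, q p ≤ htot m T ν x r + ε

variable {E : Type*} [NormedAddCommGroup E] [InnerProductSpace ℝ E] [FiniteDimensional ℝ E]
  [MeasurableSpace E] [BorelSpace E]

variable {T : Submodule ℝ E} {G : Set E} {h : ℝ} {z x v p : E} {r s M δ : ℝ} {m : ℕ}
  {ν : Measure E} {P : E → E →L[ℝ] E} {S : Set E} {θ : E → ℕ} {J : E → ℝ}

lemma closedBall_subset_cyl {R t : ℝ} (hp : p ∈ cyl T z R) (h : s ≤ t) :
    closedBall p s ⊆ cyl T z (R + t) := by
  intro y hy
  rw [cyl, mem_preimage, mem_ball, dist_eq_norm, ← map_sub] at hp ⊢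
  rw [mem_closedBall, dist_eq_norm] at hy
  have e : y - z = (y - p) + (p - z) := by abel
  rw [e, map_add]
  calc ‖T.starProjection (y - p) + T.starProjection (p - z)‖
      ≤ ‖T.starProjection (y - p)‖ + ‖T.starProjection (p - z)‖ := norm_add_le _ _
    _ ≤ s + ‖T.starProjection (p - z)‖ := by
        gcongr
        exact (T.norm_starProjection_apply_le _).trans hy
    _ < R + t := by linarith

lemma cyl_mono {R t : ℝ} (h : R ≤ t) : cyl T z R ⊆ cyl T z t :=
  preimage_mono (ball_subset_ball h)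

/-- the smoothed mass ratio of a ball inside the cylinder -/
lemma ratio_le_of_cyl [IsFiniteMeasure ν] (hM : ν.real (cyl T z (2 * r)) ≤ M * r ^ m)
    (hp : p ∈ cyl T z r) (hs : 0 < s) (hsr : s ≤ r) : ratio m ν p s ≤ M * (r / s) ^ m := by
  have hr : 0 < r := hs.trans_le hsr
  have h1 : ∫ y, cut p s y ∂ν ≤ ν.real (ball p s) := cut_integral_le hs
  have h2 : ν.real (ball p s) ≤ ν.real (cyl T z (2 * r)) := by
    refine measureReal_mono ?_
    refine ball_subset_closedBall.trans ((closedBall_subset_cyl hp hsr).trans (cyl_mono ?_))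
    linarith
  unfold ratio
  rw [div_le_iff₀ (by positivity)]
  calc _ ≤ M * r ^ m := h1.trans (h2.trans hM)
    _ = _ := by rw [div_pow]; field_simp

lemma measure_closedBall_le (hL : LocStat m (T.starProjection ⁻¹' G) ν P) [IsFiniteMeasure ν]
    (hO : cyl T z (2 * r) ⊆ T.starProjection ⁻¹' G)
    (hM : ν.real (cyl T z (2 * r)) ≤ M * r ^ m) (hp : p ∈ cyl T z r) (hs : 0 < s)
    (hsr : s ≤ r / 2) : ν.real (closedBall p s) ≤ 4 * 2 ^ m * M * s ^ m := by
  have hr : 0 < r := by linarith
  have hsub : closedBall p r ⊆ T.starProjection ⁻¹' G :=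
    ((closedBall_subset_cyl hp le_rfl).trans (cyl_mono (by linarith))).trans hO
  have h1 := measureReal_ball_le (ν := ν) (x := p) hs
  have h2 : ratio m ν p (2 * s) ≤ ratio m ν p r :=
    hL.ratio_mono (by positivity) (by linarith) hsub
  have h3 : ratio m ν p r ≤ M := by
    have := ratio_le_of_cyl (T := T) hM hp hr le_rfl
    rwa [div_self hr.ne', one_pow, mul_one] at this
  have h4 : ∫ y, cut p (2 * s) y ∂ν = ratio m ν p (2 * s) * (2 * s) ^ m := by
    unfold ratio; field_simp
  rw [h4] at h1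
  calc ν.real (closedBall p s) ≤ 4 * (ratio m ν p (2 * s) * (2 * s) ^ m) := h1
    _ ≤ 4 * (M * (2 * s) ^ m) := by
        have := h2.trans h3
        gcongr
    _ = _ := by rw [mul_pow]; ring

/-- points with a ball of large excess -/
def badSet (T : Submodule ℝ E) (ν : Measure E) (P : E → E →L[ℝ] E) (m : ℕ) (S : Set E) (z : E)
    (r δ : ℝ) : Set E :=
  {p | p ∈ S ∧ p ∈ cyl T z r ∧ ∃ s, 0 < s ∧ s ≤ r / 2 ∧
    δ * s ^ m < ∫ y in closedBall p s, tilt P T y ^ 2 ∂ν}

/-- **the bad set is small** (Besicovitch) -/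
lemma measure_badSet_le [IsFiniteMeasure ν] (hL : LocStat m (T.starProjection ⁻¹' G) ν P)
    (hO : cyl T z (2 * r) ⊆ T.starProjection ⁻¹' G) (hM0 : 0 < M)
    (hM : ν.real (cyl T z (2 * r)) ≤ M * r ^ m) (hr : 0 < r) (hδ : 0 < δ) :
    ν.real (badSet T ν P m S z r δ) ≤
      BES.nB E * (4 * 2 ^ m * M / δ) * ∫ y in cyl T z (2 * r), tilt P T y ^ 2 ∂ν := by
  set A := badSet T ν P m S z r δ with hA
  set w : E → ℝ≥0∞ := fun y => ENNReal.ofReal (tilt P T y ^ 2) with hw
  have hint := integrable_tilt_sq (T := T) hL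
  have hlin : ∀ B : Set E, ∫⁻ y in B, w y ∂ν = ENNReal.ofReal (∫ y in B, tilt P T y ^ 2 ∂ν) := by
    intro B
    rw [ofReal_integral_eq_lintegral_ofReal hint.integrableOn
      (Eventually.of_forall fun y => sq_nonneg _)]
  set c : ℝ := δ / (4 * 2 ^ m * M) with hc
  have hc0 : 0 < c := by positivity
  have key := BES.weak_type_fun ν w (r / 2) (ENNReal.ofReal c)
    (by simpa using hc0) ENNReal.ofReal_ne_top (cyl T z (2 * r)) measurableSet_cyl A ?_
  · have h2 : (ν A).toReal ≤ ((BES.nB E : ℝ≥0∞) *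
        ((∫⁻ y in cyl T z (2 * r), w y ∂ν) / ENNReal.ofReal c)).toReal := by
      refine ENNReal.toReal_mono ?_ key
      rw [hlin]
      refine ENNReal.mul_ne_top (ENNReal.natCast_ne_top _) ?_
      exact ENNReal.div_ne_top ENNReal.ofReal_ne_top (by simpa using hc0)
    rw [hlin, ENNReal.toReal_mul, ENNReal.toReal_div, ENNReal.toReal_ofReal hc0.le,
      ENNReal.toReal_ofReal (integral_nonneg fun y => sq_nonneg _), ENNReal.toReal_natCast] at h2
    refine h2.trans (le_of_eq ?_)
    rw [hc]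
    field_simp
  · rintro p ⟨-, hp, s, hs, hsr, hex⟩
    refine ⟨s, hs, hsr, ?_, ?_⟩
    · exact (closedBall_subset_cyl hp (by linarith : s ≤ r)).trans (cyl_mono (by linarith))
    · rw [hlin]
      have h1 := measure_closedBall_le hL hO hM hp hs hsr
      have h3 : ν (closedBall p s) = ENNReal.ofReal (ν.real (closedBall p s)) := by
        rw [measureReal_def, ENNReal.ofReal_toReal (measure_ne_top _ _)]
      rw [h3, ← ENNReal.ofReal_mul hc0.le]
      refine ENNReal.ofReal_le_ofReal ?_
      calc c * ν.real (closedBall p s) ≤ c * (4 * 2 ^ m * M * s ^ m) := by gcongr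
        _ = δ * s ^ m := by rw [hc]; field_simp
        _ ≤ _ := hex.le

/-- `L¹` bound of the tilt by the excess -/
lemma tilt_L1_le [IsFiniteMeasure ν] (hL : LocStat m (T.starProjection ⁻¹' G) ν P)
    (hM0 : 0 ≤ M) (hM : ν.real (cyl T z (2 * r)) ≤ M * r ^ m) (hr : 0 < r) (hδ : 0 ≤ δ)
    (hex : exc m T ν P z (2 * r) ≤ δ) :
    ∫ y in cyl T z (2 * r), tilt P T y ∂ν ≤ r ^ m * √(2 ^ m * M * δ) := by
  have h1 := setIntegral_tilt_le (T := T) hL (cyl T z (2 * r))
  have h2 : ∫ y in cyl T z (2 * r), tilt P T y ^ 2 ∂ν ≤ δ * (2 * r) ^ m := by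
    unfold exc at hex
    rwa [div_le_iff₀ (by positivity)] at hex
  calc _ ≤ √(ν.real (cyl T z (2 * r))) * √(∫ y in cyl T z (2 * r), tilt P T y ^ 2 ∂ν) := h1
    _ ≤ √(M * r ^ m) * √(δ * (2 * r) ^ m) := by gcongr
    _ = √((r ^ m) ^ 2 * (2 ^ m * M * δ)) := by
        rw [← Real.sqrt_mul (by positivity)]
        congr 1
        rw [mul_pow]; ring
    _ = _ := by
        rw [Real.sqrt_mul (by positivity), Real.sqrt_sq (by positivity)]

/-- **transport from `(z, r)` to `(x, r/24)`** -/
lemma htot_transport (hI : IntCyl m T G h ν P S θ J)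
    (hO : cyl T z (2 * r) ⊆ T.starProjection ⁻¹' G) (hz : z ∈ T) (hx : x ∈ T) (hr : 0 < r)
    (hxz : ‖x - z‖ < r) :
    |htot m T ν x (r / 24) - htot m T ν z r| ≤
      (20 + 21 * m * 24 ^ (m + 1)) * ((∫ y in cyl T z (2 * r), tilt P T y ∂ν) / r ^ m) := by
  have hfin := hI.finite
  have hL := hI.loc
  set s := max h r with hs
  have hrs : r ≤ s := le_max_right _ _
  have hhs : h ≤ s := le_max_left _ _
  have hs0 : 0 < s := hr.trans_le hrs
  set I := ∫ y in cyl T z (2 * r), tilt P T y ∂ν with hIdef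
  have hI0 : 0 ≤ I := integral_nonneg fun y => tilt_nonneg
  have hpx : T.starProjection (x - z) = x - z :=
    Submodule.starProjection_eq_self_iff.2 (T.sub_mem hx hz)
  have e1 : ∀ (c : E) (t : ℝ), htot m T ν c t = wf T ν c t 0 s / t ^ m := by
    intro c t
    rw [wf_eq hI.stat hI.base hs0 hhs, htot_eq]
  have h1 := wf_translate (s := s) (r := r) (x := x) (z := z) hL hI.stat.dimT hr hrs 0
    (T.sub_mem hx hz) (R := 2 * r) (by linarith) hO
  -- scale
  have hsub : cyl T x (2 * r - ‖x - z‖) ⊆ cyl T z (2 * r) := by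
    intro y hy
    rw [cyl, mem_preimage, mem_ball, dist_eq_norm, ← map_sub] at hy ⊢
    have e : y - z = (y - x) + (x - z) := by abel
    rw [e, map_add, hpx]
    calc ‖T.starProjection (y - x) + (x - z)‖ ≤ ‖T.starProjection (y - x)‖ + ‖x - z‖ :=
          norm_add_le _ _
      _ < 2 * r := by linarith
  have h2 := wf_scale (z := x) (s := s) (r₁ := r / 24) (r₂ := r) hL hI.stat.dimT (by positivity)
    (by linarith) (R := 2 * r - ‖x - z‖) (by linarith) hrs 0 (hsub.trans hO)
  have h3 : ∫ y in cyl T x (2 * r - ‖x - z‖), tilt P T y ∂ν ≤ I :=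
    setIntegral_mono_set (integrable_tilt hL).integrableOn
      (Eventually.of_forall fun y => tilt_nonneg) hsub.eventuallyLE
  have h4 : |htot m T ν x r - htot m T ν z r| ≤ 20 * (I / r ^ m) := by
    rw [e1, e1, ← sub_div, abs_div, abs_of_pos (by positivity : 0 < r ^ m)]
    rw [div_le_iff₀ (by positivity)]
    refine h1.trans ?_
    calc 20 / r * ‖x - z‖ * I ≤ 20 / r * r * I := by gcongr
      _ = 20 * (I / r ^ m) * r ^ m := by field_simp
  have h5 : |htot m T ν x r - htot m T ν x (r / 24)| ≤ 21 * m * 24 ^ (m + 1) * (I / r ^ m) := by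
    rw [e1, e1]
    refine h2.trans ?_
    calc 21 * m * (r - r / 24) / (r / 24) ^ (m + 1) *
          ∫ y in cyl T x (2 * r - ‖x - z‖), tilt P T y ∂ν
        ≤ 21 * m * r / (r / 24) ^ (m + 1) * I := by
          have : 0 ≤ r - r / 24 := by linarith
          have h0 : 0 ≤ ∫ y in cyl T x (2 * r - ‖x - z‖), tilt P T y ∂ν :=
            integral_nonneg fun y => tilt_nonneg
          have h00 : r - r / 24 ≤ r := by linarith
          gcongr
      _ = _ := by
          rw [div_pow]; field_simp; ring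
  have h6 : htot m T ν x (r / 24) - htot m T ν z r =
      (htot m T ν x r - htot m T ν z r) - (htot m T ν x r - htot m T ν x (r / 24)) := by ring
  rw [h6]
  refine (abs_sub _ _).trans ?_
  rw [add_mul]
  exact add_le_add h4 h5

/-- counting good points over `x` -/
lemma sheets_le (hI : IntCyl m T G h ν P S θ J)
    (hO : cyl T z (2 * r) ⊆ T.starProjection ⁻¹' G) (hz : z ∈ T) (hx : x ∈ T) (hr : 0 < r)
    (hxz : ‖x - z‖ < r) (hM0 : 0 < M) (hM : ν.real (cyl T z (2 * r)) ≤ M * r ^ m) {ε : ℝ}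
    (hδ : ∀ (A : Finset E) (q : E → ℝ),
      (∀ p ∈ A, T.starProjection p = T.starProjection x ∧
        closedBall p (12 * (r / 24)) ⊆ T.starProjection ⁻¹' G ∧
        ratio m ν p (12 * (r / 24)) ≤ M * 24 ^ m ∧
      (∀ s, 0 < s → s ≤ 12 * (r / 24) → ∫ y in closedBall p s, tilt P T y ^ 2 ∂ν ≤ δ * s ^ m) ∧
      (∀ s, 0 < s → s ≤ 12 * (r / 24) → q p ≤ ratio m ν p s) ∧ cg m ≤ q p) →
      htot m T ν x (r / 24) ≤ M * 24 ^ m → ∑ p ∈ A, q p ≤ htot m T ν x (r / 24) + ε)
    {B : Set E} (hB : ∀ p ∈ B, p ∉ badSet T ν P m S z r δ) {k : ℕ}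
    (hk : ∀ n : ℕ, n * cg m ≤ htot m T ν x (r / 24) + ε → n ≤ k) :
    sheets T S θ B x ≤ k := by
  classical
  have hfin := hI.finite
  have hL := hI.loc
  have hcg := cg_pos m
  have hpz : T.starProjection z = z := Submodule.starProjection_eq_self_iff.2 hz
  have hpx : T.starProjection x = x := Submodule.starProjection_eq_self_iff.2 hx
  unfold sheets
  rw [ENNReal.tsum_eq_iSup_sum]
  refine iSup_le fun F => ?_
  rw [← Nat.cast_sum]
  refine Nat.cast_le.2 (hk _ ?_)
  -- the finite set of points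
  set A : Finset E := F.map (Function.Embedding.subtype _) with hA
  have hsum : ((∑ y ∈ F, θ (y : E) : ℕ) : ℝ) * cg m = ∑ p ∈ A, (θ p : ℝ) * cg m := by
    rw [hA, Finset.sum_map, ← Finset.sum_mul]
    push_cast
    rfl
  rw [hsum]
  refine hδ A _ ?_ ?_
  · intro p hp
    obtain ⟨y, -, rfl⟩ := Finset.mem_map.1 hp
    obtain ⟨p, hpS, hpB, hpx'⟩ := y
    simp only [Function.Embedding.subtype_apply]
    have hpc : p ∈ cyl T z r := by
      rw [cyl, mem_preimage, mem_ball, dist_eq_norm, hpz, hpx']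
      exact hxz
    have h8 : 12 * (r / 24) = r / 2 := by ring
    rw [h8]
    have hsubO : ∀ t, t ≤ r / 2 → closedBall p t ⊆ T.starProjection ⁻¹' G := fun t ht =>
      ((closedBall_subset_cyl hpc (by linarith : t ≤ r)).trans (cyl_mono (by linarith))).trans hO
    refine ⟨by rw [hpx', hpx], hsubO _ le_rfl, ?_, ?_, ?_, ?_⟩
    · have := ratio_le_of_cyl (T := T) (s := r / 2) hM hpc (by positivity) (by linarith)
      refine this.trans ?_
      have h2 : r / (r / 2) = 2 := by field_simp
      rw [h2]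
      gcongr
      norm_num
    · intro s hs hsr
      by_contra hcon
      exact hB p hpB ⟨hpS, hpc, s, hs, hsr, not_le.1 hcon⟩
    · intro s hs hsr
      exact hI.theta_le_ratio hpS hs (hsubO s hsr)
    · have : (1 : ℝ) ≤ θ p := by exact_mod_cast hI.one_le p hpS
      nlinarith
  · rw [htot_eq, div_le_iff₀ (by positivity)]
    have h1 : ∫ y, hcut T x (r / 24) y ∂ν ≤ ν.real (cyl T z (2 * r)) := by
      have h2 : ∀ y, hcut T x (r / 24) y ≤ (cyl T z (2 * r)).indicator (fun _ => (1:ℝ)) y := by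
        intro y
        by_cases hy : y ∈ cyl T z (2 * r)
        · rw [indicator_of_mem hy]; exact hcut_le_one _ _ _
        · rw [indicator_of_notMem hy, hcut_eq_zero (by positivity)]
          by_contra hcon
          apply hy
          rw [cyl, mem_preimage, mem_ball, dist_eq_norm, ← map_sub]
          have e : y - z = (y - x) + (x - z) := by abel
          rw [e, map_add, map_sub _ x, hpx, hpz]
          calc ‖T.starProjection (y - x) + (x - z)‖ ≤ ‖T.starProjection (y - x)‖ + ‖x - z‖ :=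
                norm_add_le _ _
            _ < 2 * r := by have := not_le.1 hcon; linarith
      have hc : Continuous (hcut T x (r / 24)) := (contDiff_hcut x (r / 24)).continuous
      calc ∫ y, hcut T x (r / 24) y ∂ν
          ≤ ∫ y, (cyl T z (2 * r)).indicator (fun _ => (1:ℝ)) y ∂ν := by
            refine integral_mono ?_ ((integrable_const (1:ℝ)).indicator measurableSet_cyl) h2
            refine (integrable_const (1:ℝ)).mono' hc.aestronglyMeasurable
              (Eventually.of_forall fun y => ?_)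
            rw [Real.norm_of_nonneg (hcut_nonneg _ _ _)]; exact hcut_le_one _ _ _
        _ = _ := by rw [integral_indicator measurableSet_cyl]; simp
    refine (h1.trans hM).trans (le_of_eq ?_)
    rw [div_pow]; field_simp

/-- upper bound of the mass by the number of sheets -/
lemma mass_le_sheets (hI : IntCyl m T G h ν P S θ J) (hz : z ∈ T) (hr : 0 < r)
    {B : Set E} (hBm : MeasurableSet B) {k : ℕ}
    (hk : ∀ x ∈ T, ‖x - z‖ < r → sheets T S θ B x ≤ k) :
    ∫ y, hcut T z r y ∂ν ≤ k * (cg m * r ^ m) + m * (∫ y in cyl T z (2 * r), tilt P T y ^ 2 ∂ν)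
      + ν.real Bᶜ := by
  have hfin := hI.finite
  have hL := hI.loc
  have hcg := cg_pos m
  have hpz : T.starProjection z = z := Submodule.starProjection_eq_self_iff.2 hz
  have hc : Continuous (hcut T z r) := (contDiff_hcut z r).continuous
  have hint : Integrable (hcut T z r) ν := by
    refine (integrable_const (1:ℝ)).mono' hc.aestronglyMeasurable
      (Eventually.of_forall fun y => ?_)
    rw [Real.norm_of_nonneg (hcut_nonneg _ _ _)]; exact hcut_le_one _ _ _
  have hJm : AEStronglyMeasurable J ν := hI.measJ.aestronglyMeasurable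
  have hintJ : Integrable (fun y => hcut T z r y * J y) ν := by
    refine (integrable_const (1:ℝ)).mono' (hc.aestronglyMeasurable.mul hJm) ?_
    filter_upwards [hI.J_nonneg, hI.J_le] with y h0 h1
    rw [norm_mul, Real.norm_of_nonneg (hcut_nonneg _ _ _), Real.norm_of_nonneg h0]
    exact mul_le_one₀ (hcut_le_one _ _ _) h0 h1
  have htint := integrable_tilt_sq (T := T) hL
  -- pointwise comparison with `J`
  have h1 : ∫ y, hcut T z r y ∂ν ≤ ∫ y, hcut T z r y * J y ∂ν
      + m * ∫ y in cyl T z (2 * r), tilt P T y ^ 2 ∂ν := by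
    rw [← integral_const_mul, ← integral_indicator measurableSet_cyl, ← integral_add hintJ
      ((htint.const_mul _).indicator measurableSet_cyl)]
    refine integral_mono_ae hint (hintJ.add ((htint.const_mul _).indicator measurableSet_cyl)) ?_
    filter_upwards [hI.J_ge, hI.J_le] with y h0 hle
    by_cases hy : y ∈ cyl T z (2 * r)
    · rw [indicator_of_mem hy]
      have h2 := hcut_le_one (T := T) z r y
      have h3 := hcut_nonneg (T := T) z r y
      have h4 : 0 ≤ 1 - J y := by linarith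
      nlinarith
    · rw [indicator_of_notMem hy, hcut_eq_zero hr]
      · simp
      · by_contra hcon
        apply hy
        rw [cyl, mem_preimage, mem_ball, dist_eq_norm, ← map_sub]
        have := not_le.1 hcon
        linarith
  -- split by `B`
  have h2 : ∫ y, hcut T z r y * J y ∂ν ≤ ∫ y in B, hcut T z r y * J y ∂ν + ν.real Bᶜ := by
    rw [← integral_add_compl hBm hintJ]
    gcongr
    have : ∫ y in Bᶜ, hcut T z r y * J y ∂ν ≤ ∫ y in Bᶜ, (1:ℝ) ∂ν := by
      refine setIntegral_mono_ae hintJ.integrableOn (integrable_const _).integrableOn ?_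
      filter_upwards [hI.J_nonneg, hI.J_le] with y h0 h1
      exact mul_le_one₀ (hcut_le_one _ _ _) h0 h1
    refine this.trans (le_of_eq ?_)
    simp
  -- area formula
  have h3 : ∫ y in B, hcut T z r y * J y ∂ν ≤ k * (cg m * r ^ m) := by
    have e1 : ENNReal.ofReal (∫ y in B, hcut T z r y * J y ∂ν)
        = ∫⁻ y in B, ENNReal.ofReal (cut z r (T.starProjection y)) * ENNReal.ofReal (J y) ∂ν := by
      rw [ofReal_integral_eq_lintegral_ofReal hintJ.integrableOn ?_]
      · refine lintegral_congr_ae (Eventually.of_forall fun y => ?_)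
        simp only
        rw [ENNReal.ofReal_mul (hcut_nonneg _ _ _)]
        unfold hcut
        rw [hpz]
      · refine ae_restrict_of_ae ?_
        filter_upwards [hI.J_nonneg] with y h0
        exact mul_nonneg (hcut_nonneg _ _ _) h0
    have e2 := hI.area B hBm (fun x => ENNReal.ofReal (cut z r x))
      (continuous_cut z r).measurable.ennreal_ofReal
    rw [e2] at e1
    have e3 : ∫⁻ x in (T : Set E), ENNReal.ofReal (cut z r x) * sheets T S θ B x ∂μH[m]
        ≤ ∫⁻ x in (T : Set E), ENNReal.ofReal (cut z r x) * k ∂μH[m] := by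
      refine setLIntegral_mono' T.closed_of_finiteDimensional.measurableSet fun x hx => ?_
      by_cases hxz : ‖x - z‖ < r
      · gcongr
        exact hk x hx hxz
      · rw [cut_eq_zero hr (not_lt.1 hxz)]; simp
    have e4 : ∫⁻ x in (T : Set E), ENNReal.ofReal (cut z r x) * k ∂μH[m]
        = ENNReal.ofReal (k * (cg m * r ^ m)) := by
      rw [lintegral_mul_const _ (continuous_cut z r).measurable.ennreal_ofReal,
        lintegral_cut_plane hI.stat.dimT hz hr, mul_comm, ENNReal.ofReal_mul (Nat.cast_nonneg _),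
        ENNReal.ofReal_natCast]
    have e5 : ENNReal.ofReal (∫ y in B, hcut T z r y * J y ∂ν)
        ≤ ENNReal.ofReal (k * (cg m * r ^ m)) := by
      rw [e1]; exact e3.trans e4.le
    exact (ENNReal.ofReal_le_ofReal_iff (by positivity)).1 e5
  linarith

/-- **(INT-N): near integrality of the mass fraction at small excess.** -/
theorem near_integer (hF : FibreSumLe E m) {M ε : ℝ} (hM0 : 0 < M) (hε : 0 < ε) :
    ∃ δ > 0, ∀ (T : Submodule ℝ E) (G : Set E) (h : ℝ) (ν : Measure E) (P : E → E →L[ℝ] E)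
      (S : Set E) (θ : E → ℕ) (J : E → ℝ) (z : E) (r : ℝ), IntCyl m T G h ν P S θ J → z ∈ T →
      0 < r → cyl T z (2 * r) ⊆ T.starProjection ⁻¹' G → ν.real (cyl T z (2 * r)) ≤ M * r ^ m →
      exc m T ν P z (2 * r) ≤ δ → ∃ q : ℕ, |htot m T ν z r / cg m - q| ≤ ε := by
  have hcg := cg_pos m
  set ε₁ : ℝ := ε * cg m / 4 with hε₁
  have hε₁0 : 0 < ε₁ := by positivity
  obtain ⟨δ₁, hδ₁, hfib⟩ := hF (cg m) (M * 24 ^ m) ε₁ hcg (by positivity) hε₁0
  -- constants
  set C₁ : ℝ := 20 + 21 * m * 24 ^ (m + 1) with hC₁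
  have hC₁0 : 0 < C₁ := by positivity
  set C₂ : ℝ := BES.nB E * (4 * 2 ^ m * M / δ₁) * 2 ^ m + m * 2 ^ m + 1 with hC₂
  have hC₂0 : 0 < C₂ := by positivity
  set δ : ℝ := min (ε₁ / C₂) ((ε₁ / C₁) ^ 2 / (2 ^ m * M)) with hδ
  have hδ0 : 0 < δ := lt_min (by positivity) (by positivity)
  refine ⟨δ, hδ0, ?_⟩
  intro T G h ν P S θ J z r hI hz hr hO hM hex
  have hfin := hI.finite
  have hL := hI.loc
  have hexc : ∫ y in cyl T z (2 * r), tilt P T y ^ 2 ∂ν ≤ δ * (2 * r) ^ m := by
    have := hex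
    unfold exc at this
    rwa [div_le_iff₀ (by positivity)] at this
  have hI1 := tilt_L1_le hL hM0.le hM hr hδ0.le hex
  have hI2 : C₁ * ((∫ y in cyl T z (2 * r), tilt P T y ∂ν) / r ^ m) ≤ ε₁ := by
    have h1 : (∫ y in cyl T z (2 * r), tilt P T y ∂ν) / r ^ m ≤ √(2 ^ m * M * δ) := by
      rw [div_le_iff₀ (by positivity)]
      exact hI1.trans (le_of_eq (mul_comm _ _))
    have h2 : √(2 ^ m * M * δ) ≤ ε₁ / C₁ := by
      rw [Real.sqrt_le_left (by positivity)]
      have : δ ≤ (ε₁ / C₁) ^ 2 / (2 ^ m * M) := min_le_right _ _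
      rw [le_div_iff₀ (by positivity)] at this
      linarith
    calc _ ≤ C₁ * (ε₁ / C₁) := mul_le_mul_of_nonneg_left (h1.trans h2) hC₁0.le
      _ = ε₁ := by field_simp
  -- number of sheets
  set A := htot m T ν z r with hA
  have hA0 : 0 ≤ A := htot_nonneg hr
  set k : ℕ := ⌊(A + 2 * ε₁) / cg m⌋₊ with hk
  have hkle : (k : ℝ) ≤ (A + 2 * ε₁) / cg m := Nat.floor_le (by positivity)
  set B : Set E := (toMeasurable ν (badSet T ν P m S z r δ₁))ᶜ with hB
  have hBm : MeasurableSet B := (measurableSet_toMeasurable _ _).compl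
  have hBbad : ∀ p ∈ B, p ∉ badSet T ν P m S z r δ₁ := fun p hp hpb =>
    hp (subset_toMeasurable _ _ hpb)
  have hsheets : ∀ x ∈ T, ‖x - z‖ < r → sheets T S θ B x ≤ k := by
    intro x hx hxz
    have htr := htot_transport hI hO hz hx hr hxz
    have htr' : htot m T ν x (r / 24) ≤ A + ε₁ := by
      have := (abs_le.1 (htr.trans hI2)).2
      linarith
    refine sheets_le (ε := ε₁) (δ := δ₁) hI hO hz hx hr hxz hM0 hM ?_ hBbad ?_
    · intro A' q hq hh
      exact hfib T _ ν P x (r / 24) A' q hI.stat.dimT hL (by positivity) hq hh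
    · intro n hn
      refine Nat.le_floor ?_
      rw [le_div_iff₀ hcg]
      linarith
  have hmass := mass_le_sheets hI hz hr hBm hsheets
  have hbadm : ν.real Bᶜ ≤ BES.nB E * (4 * 2 ^ m * M / δ₁) * (δ * (2 * r) ^ m) := by
    rw [hB, compl_compl, measureReal_def, measure_toMeasurable, ← measureReal_def]
    refine (measure_badSet_le hL hO hM0 hM hr hδ₁).trans ?_
    gcongr
  have hAr : A * r ^ m = ∫ y, hcut T z r y ∂ν := by
    rw [hA, htot_eq]; field_simp
  have hfinal : A * r ^ m ≤ k * (cg m * r ^ m) + ε₁ * r ^ m := by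
    rw [hAr]
    refine hmass.trans ?_
    have h1 : m * (∫ y in cyl T z (2 * r), tilt P T y ^ 2 ∂ν) ≤ m * (δ * (2 * r) ^ m) := by gcongr
    have h2 : m * (δ * (2 * r) ^ m) + BES.nB E * (4 * 2 ^ m * M / δ₁) * (δ * (2 * r) ^ m)
        ≤ C₂ * δ * r ^ m := by
      rw [hC₂, mul_pow]
      have : 0 ≤ δ * r ^ m := by positivity
      nlinarith
    have h3 : C₂ * δ ≤ ε₁ := by
      have : δ ≤ ε₁ / C₂ := min_le_left _ _
      rw [le_div_iff₀ hC₂0] at this
      linarith
    have h4 : C₂ * δ * r ^ m ≤ ε₁ * r ^ m := by gcongr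
    linarith
  have hlow : A ≤ k * cg m + ε₁ := by
    have hrm : 0 < r ^ m := by positivity
    have : A * r ^ m ≤ (k * cg m + ε₁) * r ^ m := by linarith
    exact le_of_mul_le_mul_right this hrm
  refine ⟨k, ?_⟩
  rw [abs_le]
  rw [le_div_iff₀ hcg] at hkle
  constructor
  · have : (k : ℝ) - ε ≤ A / cg m := by
      rw [le_div_iff₀ hcg]
      nlinarith
    linarith
  · have : A / cg m ≤ k + ε := by
      rw [div_le_iff₀ hcg]
      nlinarith
    linarith

end Vale.Agent.P214.INT.NI
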